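import Crest.Agent.X212.Nm96.Defs

/-!
# Row 212, layer G (helper96): algebra of chains, the steps of a walk
-/

set_option autoImplicit false
noncomputable section

namespace Crest.Agent.X212.Nm96

open Crest.Agent.X212.Rod53 Crest.Agent.X212.Wd38 Finset

namespace Cn

variable {c c' : Cn} {g g' : Wt → Wt} {f f' : Wl → Wl} {τ τ' σ : Finset Wl} {a b e : Wl} {n : Wt}

theorem add_self (c : Cn) : c + c = 0 := by
  ext p
  exact CharTwo.add_self_eq_zero _

theorem induction {Q : Cn → Prop} (h0 : Q 0) (h1 : ∀ n σ, Q (gen n σ))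
    (h2 : ∀ c c', Q c → Q c' → Q (c + c')) (c : Cn) : Q c := by
  induction c using Finsupp.induction_linear with
  | zero => exact h0
  | add c c' h h' => exact h2 c c' h h'
  | single p x =>
    rcases (by decide : ∀ x : ZMod 2, x = 0 ∨ x = 1) x with rfl | rfl
    · simpa using h0
    · exact h1 p.1 p.2

@[simp] theorem bd_zero : bd 0 = 0 := Finsupp.sum_zero_index

theorem bd_add (c c' : Cn) : bd (c + c') = bd c + bd c' :=
  Finsupp.sum_add_index' (fun _ => by simp) fun _ _ _ => by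
    simp only [Finsupp.single_add, sum_add_distrib]

theorem bd_gen (n : Wt) (σ : Finset Wl) : bd (gen n σ) = ∑ a ∈ σ, gen n (σ.erase a) :=
  Finsupp.sum_single_index (by simp)

@[simp] theorem mp_zero : mp g f τ 0 = 0 := Finsupp.mapDomain_zero

theorem mp_add (c c' : Cn) : mp g f τ (c + c') = mp g f τ c + mp g f τ c' := Finsupp.mapDomain_add

theorem mp_gen (n : Wt) (σ : Finset Wl) : mp g f τ (gen n σ) = gen (g n) (σ.image f ∪ τ) :=
  Finsupp.mapDomain_single

theorem mp_sum {ι : Type*} (s : Finset ι) (c : ι → Cn) : mp g f τ (∑ i ∈ s, c i) = ∑ i ∈ s, mp g f τ (c i) :=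
  map_sum (Finsupp.mapDomain.addMonoidHom _) _ _

theorem mp_mp (c : Cn) : mp g' f' τ' (mp g f τ c) = mp (g' ∘ g) (f' ∘ f) (τ.image f' ∪ τ') c := by
  unfold mp
  rw [← Finsupp.mapDomain_comp]
  congr 1
  funext p
  simp only [Function.comp_apply, image_union, image_image, union_assoc]

theorem mp_id (c : Cn) : mp id id ∅ c = c := by
  unfold mp
  simp only [id, image_id, union_empty]
  exact Finsupp.mapDomain_id

theorem mp_congr (h : ∀ p ∈ c.support, g p.1 = g' p.1 ∧ p.2.image f ∪ τ = p.2.image f' ∪ τ') :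
    mp g f τ c = mp g' f' τ' c :=
  Finsupp.mapDomain_congr fun p hp => Prod.ext (h p hp).1 (h p hp).2

theorem mem_mp {q : Wt × Finset Wl} (h : q ∈ (mp g f τ c).support) :
    ∃ p ∈ c.support, q = (g p.1, p.2.image f ∪ τ) := by
  classical
  obtain ⟨p, hp, rfl⟩ := mem_image.1 (Finsupp.mapDomain_support h)
  exact ⟨p, hp, rfl⟩

theorem mem_add {q : Wt × Finset Wl} (h : q ∈ (c + c').support) : q ∈ c.support ∨ q ∈ c'.support := by
  classical
  exact mem_union.1 (Finsupp.support_add h)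

theorem mem_gen {q : Wt × Finset Wl} (h : q ∈ (gen n σ).support) : q = (n, σ) :=
  mem_singleton.1 (Finsupp.support_single_subset h)

theorem mem_walls : a ∈ c.walls ↔ ∃ p ∈ c.support, a ∈ p.2 := mem_biUnion

/-- a chain is the sum of its cells -/
theorem eq_sum (c : Cn) : c = ∑ p ∈ c.support, gen p.1 p.2 := by
  conv_lhs => rw [← Finsupp.sum_single c]
  refine sum_congr rfl fun p hp => ?_
  rw [gen, ((by decide : ∀ x : ZMod 2, x ≠ 0 → x = 1) _ (Finsupp.mem_support_iff.1 hp))]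

theorem bd_sum {ι : Type*} (s : Finset ι) (c : ι → Cn) : bd (∑ i ∈ s, c i) = ∑ i ∈ s, bd (c i) := by
  classical
  induction s using Finset.induction_on with
  | empty => simp
  | insert i s h ih => rw [sum_insert h, sum_insert h, bd_add, ih]

/-- change of the lines commutes with the boundary -/
theorem bd_mp (c : Cn) : bd (mp g id ∅ c) = mp g id ∅ (bd c) := by
  induction c using Cn.induction with
  | h0 => simp
  | h1 n σ => simp only [mp_gen, bd_gen, mp_sum, image_id, union_empty]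
  | h2 c c' h h' => rw [mp_add, bd_add, h, h', bd_add, mp_add]

/-- join with one wall -/
def jn (a : Wl) (c : Cn) : Cn := mp id id {a} c

theorem jn_gen (n : Wt) (σ : Finset Wl) : jn a (gen n σ) = gen n (insert a σ) := by
  rw [jn, mp_gen, image_id, union_comm, ← insert_eq]; rfl

theorem jn_add (c c' : Cn) : jn a (c + c') = jn a c + jn a c' := mp_add c c'

@[simp] theorem jn_zero : jn a 0 = 0 := mp_zero

theorem mp_one (c : Cn) : mp g id {a} c = jn a (mp g id ∅ c) := by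
  rw [jn, mp_mp]; simp

theorem mem_jn {q : Wt × Finset Wl} (h : q ∈ (jn a c).support) :
    ∃ p ∈ c.support, q = (p.1, insert a p.2) := by
  obtain ⟨p, hp, rfl⟩ := mem_mp h
  exact ⟨p, hp, by rw [image_id, union_comm, ← insert_eq]; rfl⟩

theorem jn_comm (c : Cn) : jn a (jn b c) = jn b (jn a c) := by
  simp only [jn, mp_mp, image_id]
  rw [union_comm]

theorem bd_jn (h : ∀ p ∈ c.support, a ∉ p.2) : bd (jn a c) = c + jn a (bd c) := by
  conv_lhs => rw [eq_sum c]
  conv_rhs => rw [eq_sum c]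
  rw [jn, mp_sum, bd_sum, bd_sum, jn, mp_sum, ← sum_add_distrib]
  refine sum_congr rfl fun p hp => ?_
  change bd (jn a _) = _ + jn a _
  rw [jn_gen, bd_gen, sum_insert (h p hp), erase_insert (h p hp), bd_gen, jn, mp_sum]
  congr 1
  refine sum_congr rfl fun b hb => ?_
  change _ = jn a _
  rw [jn_gen, erase_insert_of_ne fun e : a = b => h p hp (e ▸ hb)]

/-- join with the interval `[a, b]` -/
def J (a b : Wl) (c : Cn) : Cn := jn a c + jn b c

theorem J_add (a b e : Wl) (c : Cn) : J a b c + J b e c = J a e c := by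
  rw [J, J, J, add_assoc, ← add_assoc (jn b c), add_self, zero_add]

theorem J_comm (a b : Wl) (c : Cn) : J a b c = J b a c := add_comm _ _

theorem bd_J (h0 : bd c = 0) (h : ∀ p ∈ c.support, a ∉ p.2) (h' : ∀ p ∈ c.support, b ∉ p.2) :
    bd (J a b c) = 0 := by
  rw [J, bd_add, bd_jn h, bd_jn h', h0, jn_zero, jn_zero, add_zero, add_self]

theorem mem_J {q : Wt × Finset Wl} (h : q ∈ (J a b c).support) :
    ∃ p ∈ c.support, q = (p.1, insert a p.2) ∨ q = (p.1, insert b p.2) :=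
  (mem_add h).elim (fun h => (mem_jn h).imp fun _ k => ⟨k.1, .inl k.2⟩)
    fun h => (mem_jn h).imp fun _ k => ⟨k.1, .inr k.2⟩

theorem bd_jj (h0 : bd c = 0) (hab : a ≠ b) (h : ∀ p ∈ c.support, a ∉ p.2)
    (h' : ∀ p ∈ c.support, b ∉ p.2) : bd (jn a (jn b c)) = J a b c := by
  rw [bd_jn, bd_jn h', h0, jn_zero, add_zero, J_comm, J]
  intro q hq
  obtain ⟨p, hp, rfl⟩ := mem_jn hq
  exact fun k => (mem_insert.1 k).elim hab (h p hp)

theorem mp_J (c : Cn) : mp g id ∅ (J a b c) = J a b (mp g id ∅ c) := by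
  simp [J, mp_add, jn, mp_mp]

end Cn

open Cn

variable {Γ : Nm} {P : Pm Γ} {F : Fm Γ} {T : WTh Γ} {d : ℕ} {c : Cn} {a b e : Wl}

namespace Fm

/-- the part of `Cl` that does not need good cells, without lens walls -/
structure Pre (d : ℕ) (c : Cn) : Prop where
  mem : ∀ p ∈ c.support, p.2.card = d ∧ ∀ a ∈ p.2, a.b.pin
  bd : c.bd = 0

theorem Pre.gen (n : Wt) : Pre 0 (gen n ∅) :=
  ⟨fun p hp => by rw [mem_gen hp]; simp, by simp [bd_gen]⟩

theorem Pre.mp (h : Pre d c) (g : Wt → Wt) : Pre d (c.mp g id ∅) :=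
  ⟨fun q hq => by
    obtain ⟨p, hp, rfl⟩ := mem_mp hq
    simpa using h.mem p hp, by rw [bd_mp, h.bd, mp_zero]⟩

theorem Pre.J (h : Pre d c) (ha : a.b.pin) (hb : b.b.pin) (h1 : ∀ p ∈ c.support, a ∉ p.2)
    (h2 : ∀ p ∈ c.support, b ∉ p.2) : Pre (d + 1) (J a b c) := by
  refine ⟨fun q hq => ?_, bd_J h.bd h1 h2⟩
  obtain ⟨p, hp, rfl | rfl⟩ := mem_J hq
  · exact ⟨by rw [card_insert_of_notMem (h1 p hp), (h.mem p hp).1],
      fun x hx => (mem_insert.1 hx).elim (· ▸ ha) ((h.mem p hp).2 x)⟩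
  · exact ⟨by rw [card_insert_of_notMem (h2 p hp), (h.mem p hp).1],
      fun x hx => (mem_insert.1 hx).elim (· ▸ hb) ((h.mem p hp).2 x)⟩

theorem Pre.cl (h : Pre d c) (h0 : F.ls = ∅) (hg : ∀ p ∈ c.support, F.GC P p.1 p.2) : F.Cl P d c :=
  ⟨⟨fun p hp => ⟨(h.mem p hp).1, fun a ha => .inl ((h.mem p hp).2 a ha)⟩, by simp [h0]⟩, h.bd, hg⟩

variable (P F) in
/-- the wall `a` can be joined -/
def Jo (c : Cn) (a : Wl) : Prop := a.b.pin ∧ ∀ p ∈ c.support, a ∉ p.2 ∧ F.GC P p.1 (insert a p.2)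

theorem Pre.clJ (h : Pre d c) (h0 : F.ls = ∅) (ha : F.Jo P c a) (hb : F.Jo P c b) :
    F.Cl P (d + 1) (Cn.J a b c) :=
  (h.J ha.1 hb.1 (fun p hp => (ha.2 p hp).1) fun p hp => (hb.2 p hp).1).cl h0 fun q hq => by
    obtain ⟨p, hp, rfl | rfl⟩ := mem_J hq
    exacts [(ha.2 p hp).2, (hb.2 p hp).2]

end Fm

namespace WTh.Ax

variable (H : T.Ax P)
include H

/-- splitting of an interval -/
theorem split (h : Fm.Pre d c) (h0 : F.ls = ∅) (ha : F.Jo P c a) (hb : F.Jo P c b) (he : F.Jo P c e) :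
    T.Z F (d + 1) (J a e c) = T.Z F (d + 1) (J a b c) + T.Z F (d + 1) (J b e c) := by
  rw [← J_add a b e, H.add _ _ _ _ (h.clJ h0 ha hb) (h.clJ h0 hb he)]

/-- compatible walls -/
theorem two (h : Fm.Pre d c) (ok : F.OK P) (h0 : F.ls = ∅) (hab : a ≠ b) (ha : a.b.pin) (hb : b.b.pin)
    (hg : ∀ p ∈ c.support, a ∉ p.2 ∧ b ∉ p.2 ∧ F.GC1 P p.1 (insert a (insert b p.2))) :
    T.Z F (d + 1) (J a b c) = 0 := by
  rw [← bd_jj h.bd hab (fun p hp => (hg p hp).1) fun p hp => (hg p hp).2.1]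
  have key : ∀ q ∈ (jn a (jn b c)).support, ∃ p ∈ c.support, q = (p.1, insert a (insert b p.2)) :=
    fun q hq => by
      obtain ⟨p', hp', rfl⟩ := mem_jn hq
      obtain ⟨p, hp, rfl⟩ := mem_jn hp'
      exact ⟨p, hp, rfl⟩
  refine H.stk F _ _ ok ⟨fun q hq => ?_, by simp [h0]⟩ fun q hq => ?_
  · obtain ⟨p, hp, rfl⟩ := key q hq
    refine ⟨?_, fun x hx => .inl ?_⟩
    · rw [card_insert_of_notMem (by simp [hab, (hg p hp).1]), card_insert_of_notMem (hg p hp).2.1,
        (h.mem p hp).1]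
    · rcases mem_insert.1 hx with rfl | hx
      · exact ha
      · exact (mem_insert.1 hx).elim (· ▸ hb) ((h.mem p hp).2 x)
  · obtain ⟨p, hp, rfl⟩ := key q hq
    exact (hg p hp).2.2

end WTh.Ax

theorem ne_zero_or {x y : ZMod 2} (h : x + y ≠ 0) : x ≠ 0 ∨ y ≠ 0 := by
  revert x y; decide

end Crest.Agent.X212.Nm96
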