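import Crest.Agent.X212.Wd38.Defs

/-!
# Row 212, layer G (helper96): the word theory (pure data)

* `Fm` frames (word, frozen slices, lens arcs); a piece of the broken toric walls `B` is a side vector `η`;
* `ssum` localisation sums over the vertices of a piece and the virtual vertices of broken arcs;
* `Fm.Bd`, `Fm.NumC` (charge form), `Fm.GC` (good cells, after untwisting);
* `Cn` chains, `WTh` the theory (limit along an ultrafilter in the twist of the left cap).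
-/

set_option autoImplicit false
noncomputable section

namespace Crest.Agent.X212.Nm96

open Crest.Agent.X212.Rod53 Crest.Agent.X212.Wd38 Finset

instance (b : Bs) : Decidable b.arc := by cases b <;> unfold Bs.arc <;> infer_instance
instance (b : Bs) : Decidable b.pin := by cases b <;> unfold Bs.pin <;> infer_instance
instance (a b : Bs) : Decidable (a.Far b) := by unfold Bs.Far; infer_instance

/-! ### local numbers of a vertex from `u` (order `x`) to `v` (order `y`) -/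

/-- the ratio -/
def rho (u v : Z2) : ℝ := if v.2 = 0 then (u.1 : ℝ) / v.1 else (u.2 : ℝ) / v.2

/-- the local intersection number -/
def lb (u v : Z2) (x y x' y' : ℤ) : ℝ :=
  -(dt u v : ℝ) * (x * x' * rho v u - (x * y' + x' * y) + y * y' * rho u v)

/-- the local square -/
def lq (u v : Z2) (x y : ℤ) : ℝ := lb u v x y x y

/-- the local signature -/
def lg (u v : Z2) (_ _ : ℤ) : ℝ := (nn u v).sign

/-- the local `b⁺` -/
def lp (u v : Z2) (_ _ : ℤ) : ℝ := if dt u v = 0 then 0 else (1 + (nn u v).sign) / 2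

/-! ### pieces -/

/-- the integer point `c` of the axis lies on the sides `η` -/
def InV (B : Finset Bs) (η : Bs → Bool) (c : ℤ) : Prop := ∀ a ∈ B, a.side c = η a

instance (B : Finset Bs) (η : Bs → Bool) (c : ℤ) : Decidable (InV B η c) := by
  unfold InV; infer_instance

/-- the wall `a` (of `B`: boundary wall; not of `B`: inner wall) lies on the sides `η` -/
def Adj (B : Finset Bs) (η : Bs → Bool) (a : Bs) : Prop := InV (B.erase a) η (a.lo + 1)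

instance (B : Finset Bs) (η : Bs → Bool) (a : Bs) : Decidable (Adj B η a) := by
  unfold Adj; infer_instance

variable {Γ : Nm}

/-- the sum over the sites of the piece between the slices in the slots `s` and `t` -/
def ssum (w : Shp Γ) (B : Finset Bs) (η : Bs → Bool) (s t : ℤ) (φ : Z2 → Z2 → ℤ → ℤ → ℝ) (n : Wt) : ℝ :=
  ∑ c ∈ Ioc w.l w.r with s < c ∧ c ≤ t ∧ InV B η c, φ (w.lf c) (w.rt c) (n.nr (c - 1)) (n.nl c) +
  ∑ a ∈ B with a.arc ∧ s ≤ a.lo ∧ a.lo < t ∧ Adj B η a,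
    (if η a then 1 else -1) * φ (w.s a.lo).r.2 (w.s a.hi).l.2 (n.nr a.lo) (n.nl a.hi)

/-- toric consistency of orders -/
structure TOK (w : Shp Γ) (n : Wt) : Prop where
  rod : ∀ j τ, w.l < j → j < w.r → w.s j = .rod τ → n.nl j = n.nr j
  eq : ∀ j, w.l < j → j ≤ w.r → w.lf j = w.rt j → n.nr (j - 1) = n.nl j
  neg : ∀ j, w.l < j → j ≤ w.r → w.lf j = -w.rt j → n.nr (j - 1) = -n.nl j

/-- `n' = n + w₂` modulo two -/
structure Par (w : Shp Γ) (n n' : Wt) : Prop where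
  l : ∀ j, w.l < j → j ≤ w.r → Even (n'.nl j - n.nl j - (w.s j).l.2.1 * (w.s j).l.2.2)
  r : ∀ j, w.l ≤ j → j < w.r → Even (n'.nr j - n.nr j - (w.s j).r.2.1 * (w.s j).r.2.2)

/-- admissible levels (`G75.Lv`) -/
def Lv (sg l2 k : ℝ) : Prop := 0 ≤ k ∧ ∃ n : ℤ, k = (l2 - sg) / 4 + n

/-- the weight (`G75.Wt`) -/
def wg (β sg l2 : ℝ) (m h : ℕ) (k : ℝ) : ℝ := 6 * k - 3 * β + (l2 - sg) / 2 + 4 + m - 2 * h

/-- the index (`G75.Dl`) -/
def dl (β : ℝ) (m h : ℕ) (k : ℝ) : ℝ := 8 * k - 3 * β + m - 2 * h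

variable (Γ) in
/-- frames -/
structure Fm where
  w : Shp Γ
  fz : Finset Bs
  ls : Finset Bs

/-- the other line inside a lens arc -/
def fl (l : Bs) (n : Wt) : Wt :=
  { n with
    nl := fun j => if l.lo < j ∧ j < l.hi then 1 - n.nl j else n.nl j
    nr := fun j => if l.lo < j ∧ j < l.hi then 1 - n.nr j else n.nr j }

/-- which line -/
def sgl (l : Bs) (n : Wt) : Bool := decide (n.nl (l.lo + 1) = 1)

/-- the rods round a lens arc `lA x (x + 3)` -/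
def lrd (x j : ℤ) : Z2 := if j ≤ x then (1, 2) else if j ≤ x + 2 then (0, 1) else (-1, 2)

/-- the wall `a` has a foot strictly between the feet of `l` -/
def Crs (a l : Bs) : Prop := (l.lo < a.lo ∧ a.lo < l.hi) ∨ (l.lo < a.hi ∧ a.hi < l.hi)

variable (Γ) in
/-- the parameters of the theory: lines, inverse junctions, the knot of the lens arcs, the reserve of the
right cap -/
structure Pm where
  Λ : NmL Γ
  iv : Γ.J → Γ.J → Prop
  kL : Γ.ι
  M : ℝ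

namespace Fm

variable (P : Pm Γ) (F : Fm Γ)

structure OK : Prop where
  w : F.w.OK
  fz : ∀ a ∈ F.fz, a.OK F.w ∧ ∃ x, a = .yS x
  ls : ∀ l ∈ F.ls, ∃ x, l = .lA x (x + 3) ∧ F.w.l < x - 1 ∧ x + 4 < F.w.r ∧
    ∀ j, x - 1 ≤ j → j ≤ x + 4 → F.w.s j = .rod (P.kL, lrd x j)
  lf : ∀ l ∈ F.ls, ∀ a ∈ F.fz, a.Far l
  ll : ∀ l ∈ F.ls, ∀ l' ∈ F.ls, l ≠ l' → l.hi + 1 < l'.lo - 1 ∨ l'.hi + 1 < l.lo - 1

structure LOK (n : Wt) : Prop where
  ok : n.OK F.w P.Λ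
  mL : n.mL = 0
  mR : n.mR = 0
  ls : ∀ l ∈ F.ls, n.nl (l.lo - 1) = 1 ∧ n.nl l.hi = 1 ∧ (n.nl (l.lo + 1) = 0 ∨ n.nl (l.lo + 1) = 1)

section piece
variable (n : Wt) (σ B : Finset Bs) (η : Bs → Bool)

/-- the sum over all sites of the piece -/
def tot (φ : Z2 → Z2 → ℤ → ℤ → ℝ) (n : Wt) : ℝ := ssum F.w B η (F.w.l - 1) (F.w.r + 1) φ n

/-- the first piece -/
def Fst : Prop := InV B η F.w.l

/-- the last piece -/
def Lst : Prop := InV B η (F.w.r + 1)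

/-- parameters inside -/
def nm : ℕ := #{a ∈ σ \ B | Adj B η a}

/-- cuts inside -/
def nh : ℕ := #{l ∈ F.ls | (∀ a ∈ B, a.Far l) ∧ Adj B η l}

/-- cuts crossed -/
def nd : ℕ := #{l ∈ F.ls | ∃ a ∈ B, ¬a.Far l}

/-- the weight of the word part -/
def wt (k : ℝ) : ℝ :=
  wg (1 + F.tot B η lp n) (F.tot B η lg n) (F.tot B η lq n) (nm σ B η) (F.nh B η) k

/-- the index of the word part -/
def ix (k : ℝ) : ℝ := dl (1 + F.tot B η lp n) (nm σ B η) (F.nh B η) k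

/-- the levels of a piece without caps -/
def Lev (k : ℝ) : Prop := Lv (F.tot B η lg n) (F.tot B η lq n) k

/-- a frozen rational homology sphere -/
def Cut (s : ℤ) : Prop := .yS s ∈ F.fz ∧ (F.w.s s).r.2.2 ≠ 0

/-- a frozen `Y₀` with an odd order inside the piece -/
def Hg : Prop := ∃ s, .yS s ∈ F.fz ∧ (F.w.s s).r.2.2 = 0 ∧ Odd (n.nr s) ∧ Adj B η (.yS s)

/-- the class `n'` of an abelian point of level `k` on a piece that is not the first one -/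
structure AbC (n' : Wt) (k : ℝ) : Prop where
  tok : TOK F.w n'
  par : Par F.w n n'
  pos : 0 ≤ k
  lev : ¬F.Lst B η → k = -F.tot B η lq n' / 4
  levc : ∀ t, F.Cut t → -ssum F.w B η (F.w.l - 1) t lq n' / 4 - 1 ≤ k
  loc : ∀ s t, s = F.w.l - 1 ∨ F.Cut s → (t = F.w.r + 1 ∧ ¬F.Lst B η) ∨ F.Cut t →
    ssum F.w B η s t lq n' ≤ 0

/-- lower bound for the weight of a middle piece -/
def BdM (g : ℝ) : Prop :=
  (∀ k, F.Lev n B η k → -1 ≤ F.ix n σ B η k → g ≤ F.wt n σ B η k) ∧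
    (F.Hg n B η ∨ ∀ n' k, F.AbC n B η n' k → F.Lev n B η k → g ≤ F.wt n σ B η k)

/-- lower bound for the weight of the last piece -/
def BdL (g : ℝ) : Prop :=
  (∀ k, -1 ≤ F.ix n σ B η k → g - P.M ≤ F.wt n σ B η k) ∧
    (F.Hg n B η ∨ ∀ n' k, F.AbC n B η n' k → g - P.M ≤ F.wt n σ B η k)

open Classical in
/-- the charge of a piece -/
def chg (ch : Bs → Bool → ℝ) (gL gR : ℝ) : ℝ :=
  ∑ a ∈ B with Adj B η a, ch a (η a) + (if F.Fst B η then gL else 0) + if F.Lst B η then gR else 0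

end piece

/-- **the numerical hypothesis** for a toric cell -/
def NumC (n : Wt) (σ : Finset Bs) : Prop :=
  ∀ B ⊆ σ, (∀ a ∈ B, a.pin) → B.Nonempty → ∃ (ch : Bs → Bool → ℝ) (gL gR : ℝ),
    5 < gL + gR + ∑ a ∈ B, (ch a true + ch a false) - 2 * F.nd B ∧
    ∀ η, (∃ a ∈ B, Adj B η a) → F.chg B η ch gL gR ≤ 4 ∧ (F.Fst B η ∨
      (¬F.Lst B η ∧ F.BdM n σ B η (F.chg B η ch gL gR)) ∨
      (F.Lst B η ∧ F.BdL P n σ B η (F.chg B η ch gL gR)))

/-- good toric cells -/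
structure Tor (n : Wt) (σ : Finset Bs) : Prop where
  ok : ∀ a ∈ σ, a.OK F.w ∧ a.OKn F.w n
  far : ∀ a ∈ σ, ∀ b ∈ σ, a ≠ b → a.Far b
  fz : ∀ a ∈ σ, ∀ b ∈ F.fz, a.Far b
  ls : ∀ a ∈ σ, ∀ l ∈ F.ls, a = l ∨ Crs a l ∨ a.hi < l.lo - 1 ∨ l.hi + 1 < a.lo ∨
    (a.arc ∧ a.lo < l.lo ∧ l.hi < a.hi)
  num : F.NumC P n σ

end Fm

/-! ### untwisting -/

/-- remove the twist `t` -/
def pop (t : Tw) (a : Wl) : Wl := if a.tw.head? = some t then ⟨a.b, a.tw.tail⟩ else a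

/-- remove a list of twists -/
def pops : List Tw → Wl → Wl
  | [], a => a
  | t :: ts, a => pops ts (pop t a)

/-- pull a line back -/
def acts (w : Shp Γ) : List Tw → Wt → Wt
  | [], n => n
  | t :: ts, n => acts w ts (t.act w n)

namespace Fm

variable (P : Pm Γ) (F : Fm Γ)

/-- the walls of `S` are the images of the walls `pops ts a` under the twists `ts` -/
def Pops : List Tw → Finset Wl → Prop
  | [], _ => True
  | t :: ts, S => t.OK F.w ∧ (∀ b ∈ F.fz, t.Off b) ∧ (∀ l ∈ F.ls, l.hi + 1 < t.x ∨ t.y + 1 < l.lo) ∧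
      (∀ a ∈ S, a.tw.head? = some t ∨ a.Clr t) ∧ Pops ts (S.image (pop t))

/-- **good cells** -/
structure GC (n : Wt) (σ : Finset Wl) : Prop where
  ok : F.OK P
  lok : F.LOK P n
  inj : Set.InjOn Wl.b σ
  okn : ∀ a ∈ σ, a.b.OKn F.w n ∧ (a.b.pin ∨ a.tw = [])
  tor : ∃ ts, F.Pops ts σ ∧ (∀ a ∈ σ, (pops ts a).tw = []) ∧ F.Tor P (acts F.w ts n) (σ.image Wl.b)

/-- good with all facets -/
def GC1 (n : Wt) (σ : Finset Wl) : Prop := F.GC P n σ ∧ ∀ a ∈ σ, F.GC P n (σ.erase a)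

end Fm

/-! ### chains -/

/-- chains -/
abbrev Cn : Type := (Wt × Finset Wl) →₀ ZMod 2

namespace Cn

/-- a cell -/
def gen (n : Wt) (σ : Finset Wl) : Cn := Finsupp.single (n, σ) 1

/-- the boundary -/
def bd (c : Cn) : Cn := c.sum fun p x => ∑ a ∈ p.2, Finsupp.single (p.1, p.2.erase a) x

/-- change the lines, the walls, and join with `τ` -/
def mp (g : Wt → Wt) (f : Wl → Wl) (τ : Finset Wl) (c : Cn) : Cn :=
  c.mapDomain fun p => (g p.1, p.2.image f ∪ τ)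

/-- all walls -/
def walls (c : Cn) : Finset Wl := c.support.biUnion Prod.snd

end Cn

namespace Fm

variable (P : Pm Γ) (F : Fm Γ)

/-- `G75.Scene.Sf` -/
structure Sf (d : ℕ) (c : Cn) : Prop where
  mem : ∀ p ∈ c.support, p.2.card = d ∧ ∀ a ∈ p.2, a.b.pin ∨ (a.b ∈ F.ls ∧ a.tw = [])
  sym : ∀ l ∈ F.ls, ∀ n σ, (l : Wl) ∈ σ → c (fl l n, σ) = c (n, σ)

/-- good closed chains -/
structure Cl (d : ℕ) (c : Cn) : Prop extends F.Sf d c where
  bd : c.bd = 0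
  gd : ∀ p ∈ c.support, F.GC P p.1 p.2

end Fm

/-! ### the inside of an `S¹ × S²` arc -/

/-- the intersection number over the vertices in `(x, y]` -/
def pr (w : Shp Γ) (x y : ℤ) (n n' : Wt) : ℝ := ∑ c ∈ Ioc x y,
  lb (w.lf c) (w.rt c) (n.nr (c - 1)) (n.nl c) (n'.nr (c - 1)) (n'.nl c)

/-- the orders vanish outside the slots strictly between `x` and `y` -/
def Sup (x y : ℤ) (n : Wt) : Prop := ∀ j, j ≤ x ∨ y ≤ j → n.nl j = 0 ∧ n.nr j = 0

/-- the class of the two-sphere of the arc -/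
def fib (w : Shp Γ) (x y : ℤ) : Wt :=
  ⟨fun j => if x < j ∧ j < y then dt (w.s x).r.2 (w.s j).l.2 else 0,
    fun j => if x < j ∧ j < y then dt (w.s x).r.2 (w.s j).r.2 else 0, 0, 0⟩

/-- the sphere inside a lens arc -/
def sph (l : Bs) : Wt :=
  ⟨fun j => if l.lo < j ∧ j < l.hi then 1 else 0, fun j => if l.lo < j ∧ j < l.hi then 1 else 0, 0, 0⟩

/-- integral combinations -/
def cmb {ι : Type} (s : Finset ι) (a : ι → ℤ) (e : ι → Wt) (b : ℤ) (f : Wt) : Wt :=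
  ⟨fun j => ∑ i ∈ s, a i * (e i).nl j + b * f.nl j, fun j => ∑ i ∈ s, a i * (e i).nr j + b * f.nr j, 0, 0⟩

/-- the inside of `rA x y` is `D² × S² # N (-ℂP²)`; the special class `∑_{i ∈ Z} a i ε i` lies, up to
multiples of the sphere of different parities, inside `e` and inside `e'` -/
def Fm.RS (F : Fm Γ) (n : Wt) (x y : ℤ) (e e' : Bs) : Prop :=
  ∃ (N : ℕ) (ε : Fin N → Wt) (Z : Finset (Fin N)) (a : Fin N → ℤ) (b b' : ℤ),
    #{c ∈ Ioc x y | dt (F.w.lf c) (F.w.rt c) ≠ 0} = N + 2 ∧ (∀ i, TOK F.w (ε i) ∧ Sup x y (ε i)) ∧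
    (∀ i j, pr F.w x y (ε i) (ε j) = if i = j then -1 else 0) ∧
    (∀ i, |pr F.w x y n (ε i)| = if i ∈ Z then 0 else 1) ∧ (∀ i ∈ Z, |a i| = 1) ∧
    #Z = 1 + #{l ∈ F.ls | x < l.lo ∧ l.hi < y} ∧ #Z ≤ 2 ∧
    (∀ l ∈ F.ls, x < l.lo → l.hi < y → (∀ i, |pr F.w x y (ε i) (sph l)| = 1) ∧
      ∀ i ∈ Z, pr F.w x y (ε i) (sph l) = a i) ∧
    e.arc ∧ e.pin ∧ x < e.lo ∧ e.hi < y ∧ e'.arc ∧ e'.pin ∧ x < e'.lo ∧ e'.hi < y ∧
    Sup e.lo e.hi (cmb Z a ε b (fib F.w x y)) ∧ Sup e'.lo e'.hi (cmb Z a ε b' (fib F.w x y)) ∧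
    Odd (b - b')

/-- `g` changes the orders only strictly between the slots `x` and `y` (`o = 0`), or between their
junctions (`o = 1`), and commutes with the flips -/
def Chg (L : Finset Bs) (o x y : ℤ) (g : Wt → Wt) : Prop :=
  (∀ n j, (j ≤ x ∨ y + o ≤ j → (g n).nl j = n.nl j) ∧ (j + o ≤ x ∨ y ≤ j → (g n).nr j = n.nr j)) ∧
    ∀ l ∈ L, ∀ n, g (fl l n) = fl l (g n)

/-! ### the theory -/

variable (Γ) in
/-- `Z F d c`; `YD`, `Tm`: terminal chains -/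
structure WTh : Type 2 where
  Z : Fm Γ → ℕ → Cn → ZMod 2
  YD : Type 1
  Tm : YD → ℕ → Fm Γ → Cn → Prop

namespace WTh

variable (P : Pm Γ) (T : WTh Γ)

def Add : Prop := ∀ F d c c', F.Cl P d c → F.Cl P d c' → T.Z F d (c + c') = T.Z F d c + T.Z F d c'

def Stk : Prop := ∀ F d e, F.OK P → F.Sf (d + 1) e → (∀ p ∈ e.support, F.GC1 P p.1 p.2) →
  T.Z F d e.bd = 0

/-- more frozen necks -/
def Frz : Prop := ∀ (F : Fm Γ) fz d c, F.fz ⊆ fz → F.Cl P d c → Fm.Cl P { F with fz := fz } d c →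
  T.Z F d c = T.Z { F with fz := fz } d c

/-- twists -/
def Twi : Prop := ∀ (F : Fm Γ) ts d c, F.ls = ∅ → F.Pops ts c.walls → Set.InjOn (pops ts) c.walls →
  F.Cl P d c → F.Cl P d (c.mp (acts F.w ts) (pops ts) ∅) →
  T.Z F d c = T.Z F d (c.mp (acts F.w ts) (pops ts) ∅)

/-- insertion of a junction and its inverse -/
def Can : Prop := ∀ (F : Fm Γ) w J J' x y g d c, F.w.Can w J J' x y → P.iv J J' → (Γ.src J).2.2 ≠ 0 →
  Chg F.ls 1 x y g → (∀ a ∈ c.walls, ∃ x' y', a.In x' y' ∧ (y' < x ∨ y < x')) →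
  (∀ a ∈ F.fz ∪ F.ls, a.hi + 1 < x ∨ y + 1 < a.lo) → F.Cl P d c →
  Fm.Cl P { F with w := w } d (c.mp g id ∅) → T.Z F d c = T.Z { F with w := w } d (c.mp g id ∅)

/-- the face `S¹ × S²`: `F` has a constant rod on the slots `x, …, y` -/
def Rf : Prop := ∀ (F F' : Fm Γ) x y (e e' : Bs) g d c, F'.w.Sur F.w x y → F'.fz = F.fz →
  F.ls = {l ∈ F'.ls | ¬(x < l.lo ∧ l.hi < y)} → (∀ j, x < j → j ≤ y → F.w.s j = .rod (F.w.s x).r) →
  Chg F.ls 0 x y g → (∀ a ∈ c.walls, a.Out x y ∧ a.b.Far (.rA x y)) → F.Cl P d c →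
  (∀ p ∈ c.support, F.GC1 P p.1 (insert ↑(Bs.rA x y) p.2) ∧ F'.RS (g p.1) x y e e' ∧
    F'.GC1 P (g p.1) (p.2 ∪ {↑(Bs.rA x y), ↑e}) ∧ F'.GC1 P (g p.1) (p.2 ∪ {↑(Bs.rA x y), ↑e'})) →
  F'.Cl P (d + 1) (c.mp g id {↑e} + c.mp g id {↑e'}) →
  T.Z F' (d + 1) (c.mp g id {↑e} + c.mp g id {↑e'}) = T.Z F d c

def Fact : Prop := ∀ y, ∃ R, ∀ F d c, T.Tm y R F c → F.Cl P d c → T.Z F d c = 0

/-- the root -/
def Nv : Prop := ∀ (w : Shp Γ) n, (∀ j, w.s j = .rod Γ.cap) → Fm.GC P ⟨w, ∅, ∅⟩ n ∅ →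
  T.Z ⟨w, ∅, ∅⟩ 0 (.gen n ∅) = 1

structure Ax : Prop where
  add : T.Add P
  stk : T.Stk P
  frz : T.Frz P
  twi : T.Twi P
  can : T.Can P
  rf : T.Rf P
  fact : T.Fact P
  nv : T.Nv P

end WTh

end Crest.Agent.X212.Nm96
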