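import Crest.Agent.X212.Nm96.Win3

/-!
# Row 212, layer G (helper96): the congruence modulo four
-/

set_option autoImplicit false
noncomputable section

namespace Crest.Agent.X212.Nm96

open Crest.Agent.X212.Rod53 Crest.Agent.X212.Wd38 Finset

variable {Γ : Nm} {a b : Bs} {c s t u x : ℤ} {B σ : Finset Bs} {η : Bs → Bool}
  {w : Shp Γ} {φ : Z2 → Z2 → ℤ → ℤ → ℝ} {n n' : Wt}

/-! ### the congruence -/

/-- `C + U` is divisible by four -/
def Cg (C U : ℝ) : Prop := ∃ z : ℤ, C + U = 4 * z

theorem Cg.zero : Cg 0 0 := ⟨0, by simp⟩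

theorem Cg.add {C U C' U' : ℝ} (h : Cg C U) (h' : Cg C' U') : Cg (C + C') (U + U') :=
  let ⟨z, e⟩ := h; let ⟨z', e'⟩ := h'; ⟨z + z', by push_cast; linarith⟩

theorem Cg.sub {C U C' U' : ℝ} (h : Cg C U) (h' : Cg C' U') : Cg (C - C') (U - U') :=
  let ⟨z, e⟩ := h; let ⟨z', e'⟩ := h'; ⟨z - z', by push_cast; linarith⟩

theorem Cg.le {C U : ℝ} (h : Cg C U) {k : ℤ} (e : U = k) (h0 : C ≤ 0) : C ≤ -(k % 4 : ℤ) := by
  obtain ⟨z, h⟩ := h
  have h1 : 4 * z - k ≤ 0 := by exact_mod_cast (by linarith : (4 : ℝ) * z - k ≤ 0)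
  have h2 : 4 * z - k ≤ -(k % 4) := by omega
  have h3 : (4 : ℝ) * z - k ≤ -(k % 4 : ℤ) := by exact_mod_cast h2
  linarith

theorem Cg.sum {ι : Type} (S : Finset ι) {f g : ι → ℝ} (h : ∀ i ∈ S, Cg (f i) (g i)) :
    Cg (∑ i ∈ S, f i) (∑ i ∈ S, g i) := by
  classical
  induction S using Finset.induction_on with
  | empty => simpa using Cg.zero
  | insert i S k ih =>
    rw [sum_insert k, sum_insert k]
    exact (h i (mem_insert_self _ _)).add (ih fun j q => h j (mem_insert_of_mem q))

/-- slopes `1 / a`, `0` -/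
def Nc (u : Z2) : Prop := u.2 = 0 ∨ u.2 = 1 ∨ u.2 = -1

theorem dvd4 (D r1 r2 e x y A B α β : ℤ) (h : ∀ α β x y : ZMod 4,
    -D * ((x + A + 2 * α) ^ 2 * r1 - 2 * (x + A + 2 * α) * (y + B + 2 * β) + (y + B + 2 * β) ^ 2 * r2) +
      (-D * (x ^ 2 * r1 - 2 * x * y + y ^ 2 * r2) - e) = 0) :
    ∃ z : ℤ, -D * ((x + A + 2 * α) ^ 2 * r1 - 2 * (x + A + 2 * α) * (y + B + 2 * β) + (y + B + 2 * β) ^ 2 * r2) +
      (-D * (x ^ 2 * r1 - 2 * x * y + y ^ 2 * r2) - e) = 4 * z :=
  (ZMod.intCast_zmod_eq_zero_iff_dvd _ 4).1 (by push_cast; exact h _ _ _ _)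

theorem cg_site {u v : Z2} {x y x' y' : ℤ} (h : PM u v ∨ Uni u v) (hu : Nc u) (hv : Nc v)
    (hx : Even (x' - x - u.1 * u.2)) (hy : Even (y' - y - v.1 * v.2)) :
    Cg (lq u v x' y') (uu u v x y) := by
  rcases h with h | h
  · have : dt u v = 0 := by rcases h with rfl | rfl <;> simp [dt] <;> ring
    simpa [uu, lq, lb, lg, nn, this] using Cg.zero
  obtain ⟨α, hx⟩ := hx
  obtain ⟨β, hy⟩ := hy
  obtain ⟨a, p⟩ := u
  obtain ⟨b, r⟩ := v
  obtain rfl : x' = x + a * p + 2 * α := by simp only at hx; omega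
  obtain rfl : y' = y + b * r + 2 * β := by simp only at hy; omega
  have key : ∀ D r1 r2 e : ℤ, dt (a, p) (b, r) = D → rho (b, r) (a, p) = r1 → rho (a, p) (b, r) = r2 →
      (nn (a, p) (b, r)).sign = e → (∀ α β x y : ZMod 4, -(D : ZMod 4) * ((x + (a * p : ℤ) + 2 * α) ^ 2 * r1 -
        2 * (x + (a * p : ℤ) + 2 * α) * (y + (b * r : ℤ) + 2 * β) + (y + (b * r : ℤ) + 2 * β) ^ 2 * r2) +
        (-D * (x ^ 2 * r1 - 2 * x * y + y ^ 2 * r2) - e) = 0) →
      Cg (lq (a, p) (b, r) (x + a * p + 2 * α) (y + b * r + 2 * β)) (uu (a, p) (b, r) x y) :=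
    fun D r1 r2 e h1 h2 h3 h4 h5 => by
      obtain ⟨z, hz⟩ := dvd4 D r1 r2 e x y _ _ α β h5
      refine ⟨z, ?_⟩
      have : ((_ : ℤ) : ℝ) = (4 * z : ℤ) := congrArg _ hz
      simp only [uu, lq, lb, lg, h1, h2, h3, h4]
      push_cast at this ⊢
      linarith
  simp only [Nc, Uni, dt] at h hu hv
  rcases hu with rfl | rfl | rfl <;> rcases hv with rfl | rfl | rfl <;> rcases h with h | h
  any_goals omega
  · obtain rfl : a = 1 := by omega
    refine key 1 b 0 0 (by simp only [dt]; ring) (by simp [rho]) (by simp [rho]) (by simp [nn]) ?_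
    push_cast; generalize (b : ZMod 4) = b; revert b; decide
  · obtain rfl : a = -1 := by omega
    refine key (-1) (-b) 0 0 (by simp only [dt]; ring) (by simp [rho, div_neg]) (by simp [rho]) (by simp [nn]) ?_
    push_cast; generalize (b : ZMod 4) = b; revert b; decide
  · obtain rfl : a = -1 := by omega
    refine key 1 (-b) 0 0 (by simp only [dt]; ring) (by simp [rho, div_neg]) (by simp [rho]) (by simp [nn]) ?_
    push_cast; generalize (b : ZMod 4) = b; revert b; decide
  · obtain rfl : a = 1 := by omega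
    refine key (-1) b 0 0 (by simp only [dt]; ring) (by simp [rho]) (by simp [rho]) (by simp [nn]) ?_
    push_cast; generalize (b : ZMod 4) = b; revert b; decide
  · obtain rfl : b = -1 := by omega
    refine key 1 0 (-a) 0 (by simp only [dt]; ring) (by simp [rho]) (by simp [rho, div_neg]) (by simp [nn]) ?_
    push_cast; generalize (a : ZMod 4) = b; revert b; decide
  · obtain rfl : b = 1 := by omega
    refine key (-1) 0 a 0 (by simp only [dt]; ring) (by simp [rho]) (by simp [rho]) (by simp [nn]) ?_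
    push_cast; generalize (a : ZMod 4) = b; revert b; decide
  · obtain rfl : a = b + 1 := by omega
    refine key 1 1 1 (-1) (by simp only [dt]; ring) (by simp [rho]) (by simp [rho]) (by simp [nn, dt]) ?_
    push_cast; generalize (b : ZMod 4) = b; revert b; decide
  · obtain rfl : a = b - 1 := by omega
    refine key (-1) 1 1 1 (by simp only [dt]; ring) (by simp [rho]) (by simp [rho]) (by simp [nn, dt]) ?_
    push_cast; generalize (b : ZMod 4) = b; revert b; decide
  · obtain rfl : a = -b - 1 := by omega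
    refine key 1 (-1) (-1) 1 (by simp only [dt]; ring) (by simp [rho]) (by simp [rho]) (by simp [nn, dt]) ?_
    push_cast; generalize (b : ZMod 4) = b; revert b; decide
  · obtain rfl : a = -b + 1 := by omega
    refine key (-1) (-1) (-1) (-1) (by simp only [dt]; ring) (by simp [rho]) (by simp [rho])
      (by simp [nn, dt]) ?_
    push_cast; generalize (b : ZMod 4) = b; revert b; decide
  · obtain rfl : b = 1 := by omega
    refine key 1 0 a 0 (by simp only [dt]; ring) (by simp [rho]) (by simp [rho]) (by simp [nn]) ?_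
    push_cast; generalize (a : ZMod 4) = b; revert b; decide
  · obtain rfl : b = -1 := by omega
    refine key (-1) 0 (-a) 0 (by simp only [dt]; ring) (by simp [rho]) (by simp [rho, div_neg]) (by simp [nn]) ?_
    push_cast; generalize (a : ZMod 4) = b; revert b; decide
  · obtain rfl : a = -b + 1 := by omega
    refine key 1 (-1) (-1) 1 (by simp only [dt]; ring) (by simp [rho]) (by simp [rho]) (by simp [nn, dt]) ?_
    push_cast; generalize (b : ZMod 4) = b; revert b; decide
  · obtain rfl : a = -b - 1 := by omega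
    refine key (-1) (-1) (-1) (-1) (by simp only [dt]; ring) (by simp [rho]) (by simp [rho])
      (by simp [nn, dt]) ?_
    push_cast; generalize (b : ZMod 4) = b; revert b; decide
  · obtain rfl : a = b - 1 := by omega
    refine key 1 1 1 (-1) (by simp only [dt]; ring) (by simp [rho]) (by simp [rho]) (by simp [nn, dt]) ?_
    push_cast; generalize (b : ZMod 4) = b; revert b; decide
  · obtain rfl : a = b + 1 := by omega
    refine key (-1) 1 1 1 (by simp only [dt]; ring) (by simp [rho]) (by simp [rho]) (by simp [nn, dt]) ?_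
    push_cast; generalize (b : ZMod 4) = b; revert b; decide

/-- all rods of the window have slopes `1 / a` or `0` -/
def NcW (w : Shp Γ) (s t : ℤ) : Prop :=
  ∀ j, s ≤ j → j ≤ t → w.l ≤ j → j ≤ w.r → Nc (w.s j).l.2 ∧ Nc (w.s j).r.2

theorem cg_SS (ok : w.OK) (h : NcW w s t) (tp : Tp w n n' s t) {s' t' : ℤ} (h1 : s ≤ s') (h2 : t' ≤ t) :
    Cg (SS w lq n' s' t') (SS w uu n s' t') := Cg.sum _ fun c hc => by
  simp only [mem_filter, mem_Ioc] at hc
  exact cg_site (ok.st c hc.1.1 hc.1.2).2 (h _ (by omega) (by omega) (by omega) (by omega)).2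
    (h _ (by omega) (by omega) (by omega) (by omega)).1 (tp.r _ (by omega) (by omega) (by omega) (by omega))
    (tp.l _ (by omega) (by omega) (by omega) (by omega))

theorem cg_Ia (ok : w.OK) (h : NcW w s t) (tp : Tp w n n' s t) {x y : ℤ} (k : (Bs.sA x y).OK w)
    (h1 : s ≤ x) (h2 : y ≤ t) : Cg (Ia w lq n' (.sA x y)) (Ia w uu n (.sA x y)) := by
  have := k.1.lo; have := k.1.lt; have := k.1.hi
  exact (cg_SS ok h tp h1 h2).sub (cg_site (.inr k.2) (h x (by omega) (by omega) (by omega) (by omega)).2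
    (h y (by omega) (by omega) (by omega) (by omega)).1 (tp.r x (by omega) (by omega) (by omega) (by omega))
    (tp.l y (by omega) (by omega) (by omega) (by omega)))

end Crest.Agent.X212.Nm96
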