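import Crest.Agent.X212.Nm96.Pi
import Crest.Agent.X212.Two48.Tr1

/-!
# Row 212, `p = 1` (helper96): there is no word theory with a junction `(q, 1) → (-q, 1)`
-/

set_option autoImplicit false

namespace Crest.Agent.X212.Nm96

open Crest.Agent.X212.Wd38

/-- **OPP1** -/
theorem opp1 {Γ : Nm} {P : Pm Γ} {T : WTh Γ} {κ : Γ.ι} {q : ℕ} {c ci f fi : Γ.J} (H : Ax0 P T)
    (Fw : Tm38.FactW P T) (E : Ent P κ c ci) (D : J1 P κ q f fi) (h : 1 ≤ q) : False :=
  opp_of Two48.Tr1.trStmt enStmt H Fw E D h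

end Crest.Agent.X212.Nm96
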