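import Crest.Agent.X212.Wd38.P1
import Crest.Agent.X212.Tm38.W

/-!
# Row 212, `p = 1` (helper96), part a: twists, cells round a gap
-/

set_option autoImplicit false
noncomputable section

namespace Crest.Agent.X212.Nm96

open Crest.Agent.X212.Rod53 Crest.Agent.X212.Wd38 Finset Cn

variable {Γ : Nm} {P : Pm Γ} {F F' : Fm Γ} {w w' : Shp Γ} {n n' : Wt} {x y z b x' y' s t : ℤ} {ts ts' : List Tw}
  {σ ρ : Finset Wl} {v v' vL vb : ℝ × ℝ} {a e : Wl} {c : Cn} {d : ℕ}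

/-! ### locality -/

theorem rg_loc (h : w.Rg x y) (l : w'.l ≤ x) (r : y ≤ w'.r) (e : ∀ j, x ≤ j → j ≤ y → w'.s j = w.s j) :
    w'.Rg x y := ⟨l, h.lt, r, fun j p q => e j p.le q.le ▸ h.fr j p q⟩

theorem ok_loc {a : Bs} (h : a.OK w) (l : w'.l ≤ a.lo) (r : w.r ≤ w'.r)
    (e : ∀ j, a.lo ≤ j → j ≤ a.hi → w'.s j = w.s j) : a.OK w' := by
  cases a <;> simp only [Bs.OK, Bs.lo, Bs.hi] at *
  case sS => exact ⟨l, h.2.1.trans_le r, by rw [e _ le_rfl le_rfl]; exact h.2.2⟩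
  case yS => exact ⟨l, h.2.trans_le r⟩
  all_goals exact ⟨rg_loc h.1 l (h.1.hi.trans r) e, by rw [e _ le_rfl h.1.lt.le, e _ h.1.lt.le le_rfl]; exact h.2⟩

theorem twok_loc {τ : Tw} (h : τ.OK w) (l : w'.l = w.l) (r : w'.r = w.r)
    (e : ∀ j, τ.x - 1 ≤ j → j ≤ τ.y + 1 → w'.s j = w.s j) : τ.OK w' := by
  have := h.le
  refine ⟨rg_loc h.rg (l ▸ h.rg.lo) (r ▸ h.rg.hi) e, h.le, h.uni, h.ne, ?_, fun j p q => ?_, ?_⟩
  · rw [Shp.lf, e _ le_rfl (by omega)]; exact h.l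
  · rw [Shp.rt, e _ (by omega) (by omega)]; exact h.m j p q
  · rw [Shp.rt, e _ (by omega) le_rfl]; exact h.r

theorem acts_aq (h : Aq w w' n n' (y ≤ ·)) (k : ∀ τ ∈ ts, y < τ.x) :
    Aq w w' (acts w ts n) (acts w' ts n') (y ≤ ·) := by
  induction ts generalizing n n' with
  | nil => exact h
  | cons τ ts ih =>
    refine ih (fun j q => ⟨(h j q).1, ?_⟩) fun τ' q => k τ' (List.mem_cons_of_mem _ q)
    have := k τ List.mem_cons_self
    simp only [Tw.act]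
    split_ifs with i
    · have a1 := h (τ.x - 1) (by simp only; omega)
      have a2 := h (τ.y + 1) (by simp only; omega)
      simp only [Shp.lf, Shp.rt, a1.1, a1.2.2, a2.1, a2.2.1, (h j q).1, (h j q).2.1, (h j q).2.2, and_self]
    · exact (h j q).2

theorem acts_ag (n : Wt) {p : ℤ → Prop} (k : ∀ τ ∈ ts, ∀ j, p j → j < τ.x ∨ τ.y < j) :
    Aq w w n (acts w ts n) p := fun j q => ⟨rfl, (acts_out ts n fun τ h => k τ h j q).1⟩

theorem acts_app (n : Wt) : acts w (ts' ++ ts) n = acts w ts (acts w ts' n) := by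
  induction ts' generalizing n with
  | nil => rfl
  | cons τ ts' ih => exact ih _

theorem pops_app (a : Wl) : pops (ts' ++ ts) a = pops ts (pops ts' a) := by
  induction ts' generalizing a with
  | nil => rfl
  | cons τ ts' ih => exact ih _

theorem pops_b (a : Wl) : (pops ts a).b = a.b := by
  induction ts generalizing a with
  | nil => rfl
  | cons τ ts ih => rw [pops, ih, pop]; split_ifs <;> rfl

theorem pop_clr {τ : Tw} (h : τ.x ≤ τ.y) (k : a.Clr τ) : pop τ a = a := if_neg fun q => by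
  have := k.2 τ (List.mem_of_mem_head? q)
  unfold Tw.Sep at this; omega

namespace Fm

theorem Pops.ok (h : F.Pops ts σ) : ∀ τ ∈ ts, τ.OK F.w := by
  induction ts generalizing σ with
  | nil => simp
  | cons τ ts ih => exact List.forall_mem_cons.2 ⟨h.1, ih h.2.2.2.2⟩

theorem Pops.app (h : F.Pops ts' σ) (k : F.Pops ts (σ.image (pops ts'))) : F.Pops (ts' ++ ts) σ := by
  induction ts' generalizing σ with
  | nil => exact (image_id (s := σ)) ▸ k
  | cons τ ts' ih => exact ⟨h.1, h.2.1, h.2.2.1, h.2.2.2.1, ih h.2.2.2.2 (by rw [image_image]; exact k)⟩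

theorem Pops.union (h : F.Pops ts σ) (k : F.Pops ts ρ) : F.Pops ts (σ ∪ ρ) := by
  induction ts generalizing σ ρ with
  | nil => trivial
  | cons τ ts ih =>
    exact ⟨h.1, h.2.1, h.2.2.1, fun a q => (mem_union.1 q).elim (h.2.2.2.1 a) (k.2.2.2.1 a),
      by rw [image_union]; exact ih h.2.2.2.2 k.2.2.2.2⟩

theorem Pops.clr (h : F.Pops ts σ) (k : ∀ τ ∈ ts, ∀ a ∈ ρ, a.Clr τ) : F.Pops ts ρ ∧ ∀ a ∈ ρ, pops ts a = a := by
  induction ts generalizing σ with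
  | nil => exact ⟨trivial, fun _ _ => rfl⟩
  | cons τ ts ih =>
    have e := fun a q => pop_clr h.1.le (k τ List.mem_cons_self a q)
    have := ih h.2.2.2.2 fun τ' q => k τ' (List.mem_cons_of_mem _ q)
    exact ⟨⟨h.1, h.2.1, h.2.2.1, fun a q => .inr (k τ List.mem_cons_self a q), by
      rw [image_congr (g := id) e, image_id]; exact this.1⟩, fun a q => by rw [pops, e a q, this.2 a q]⟩

theorem Pops.tr (h : F.Pops ts σ) (ls : F'.ls = ∅) (k : ∀ τ ∈ ts, τ.OK F'.w ∧ ∀ b ∈ F'.fz, b ∈ F.fz ∨ τ.Off b) :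
    F'.Pops ts σ := by
  induction ts generalizing σ with
  | nil => trivial
  | cons τ ts ih =>
    have := k τ List.mem_cons_self
    exact ⟨this.1, fun b q => (this.2 b q).elim (h.2.1 b) id, by simp [ls], h.2.2.2.1,
      ih h.2.2.2.2 fun τ' q => k τ' (List.mem_cons_of_mem _ q)⟩

theorem pops_full (ls : F.ls = ∅) (k : ∀ τ ∈ ts, τ.OK F.w ∧ ∀ b ∈ F.fz, τ.Off b)
    (h : ∀ a ∈ σ, a.tw = ts ∨ (a.tw = [] ∧ ∀ τ ∈ ts, τ.Off a.b)) :
    F.Pops ts σ ∧ ∀ a ∈ σ, (pops ts a).tw = [] := by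
  induction ts generalizing σ with
  | nil => exact ⟨trivial, fun a q => (h a q).elim id And.left⟩
  | cons τ ts ih =>
    have k0 := k τ List.mem_cons_self
    have := ih (σ := σ.image (pop τ)) (fun τ' q => k τ' (List.mem_cons_of_mem _ q)) fun a' q' => by
      obtain ⟨a, q, rfl⟩ := mem_image.1 q'
      rcases h a q with e | e
      · exact .inl (by simp [pop, e])
      · rw [pop, if_neg (by simp [e.1])]
        exact .inr ⟨e.1, fun τ' q => e.2 τ' (List.mem_cons_of_mem _ q)⟩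
    exact ⟨⟨k0.1, k0.2, by simp [ls], fun a q => (h a q).imp (fun e => by simp [e])
      fun e => ⟨e.2 τ List.mem_cons_self, by simp [e.1]⟩, this.1⟩, fun a q => this.2 _ (mem_image_of_mem _ q)⟩

theorem Win.aq {σ σ' : Finset Bs} {p : ℤ → Prop} (h : F.Win z 0 n σ s t v v') (ls : F.ls = ∅) (ls' : F'.ls = ∅)
    (l : F'.w.l = F.w.l) (r : F'.w.r = F.w.r) (e : Aq F.w F'.w n n' p) (hp : ∀ j, s ≤ j → j ≤ t → p j)
    (f : F.fz ⊆ F'.fz) (k : ∀ a, s ≤ a.lo → a.lo < t → (a ∈ σ' ↔ a ∈ σ))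
    (o : ∀ a ∈ σ, s ≤ a.lo → a.lo < t → a.lo ≤ a.hi ∧ a.hi ≤ t) : F'.Win z 0 n' σ' s t v v' :=
  h.congr ⟨l, r, fun j p q => (e j (hp j p q)).1, fun j p q => (e j (hp j p q)).2.1,
    fun j p q => (e j (hp j p q)).2.2, by rw [ls, ls'], fun _ _ _ k => f k⟩
    (Finset.ext fun a => by simp only [mem_wn]; exact and_congr_left fun q => k a q.1 q.2) fun a q => by
      obtain ⟨q1, q2, q3⟩ := mem_wn.1 q
      have := o a q1 q2 q3; omega

end Fm

/-! ### exchange -/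

theorem mem_jn' (h : ∀ p ∈ c.support, a ∉ p.2) {p : Wt × Finset Wl} (hp : p ∈ c.support) :
    (p.1, insert a p.2) ∈ (jn a c).support := by
  have e : (p.1, insert a p.2) = (fun p : Wt × Finset Wl => (id p.1, p.2.image id ∪ {a})) p := by
    simp only [image_id, union_comm, insert_eq]; rfl
  rw [Finsupp.mem_support_iff, jn, mp, e, Finsupp.mapDomain_apply' (c.support : Set _) c subset_rfl _ hp]
  · exact Finsupp.mem_support_iff.1 hp
  · intro p hp q hq k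
    simp only [image_id, Prod.mk.injEq, union_comm _ {a}, ← insert_eq] at k
    exact Prod.ext k.1 (by rw [← erase_insert (h p hp), k.2, erase_insert (h q hq)])

theorem mem_J' (ne : a ≠ e) (h : ∀ p ∈ c.support, a ∉ p.2) {p : Wt × Finset Wl} (hp : p ∈ c.support) :
    (p.1, insert a p.2) ∈ (J a e c).support := by
  have k : (p.1, insert a p.2) ∉ (jn e c).support := fun q => by
    obtain ⟨p', hp', k⟩ := mem_jn q
    exact (mem_insert.1 ((Prod.mk.inj k).2 ▸ mem_insert_self a p.2)).elim ne (h p' hp')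
  rw [Finsupp.mem_support_iff, J, Finsupp.add_apply, Finsupp.notMem_support_iff.1 k, add_zero]
  exact Finsupp.mem_support_iff.1 (mem_jn' h hp)

theorem mem_mp' {g : Wt → Wt} (h : ∀ p ∈ c.support, p.1 = n) {p : Wt × Finset Wl} (hp : p ∈ c.support) :
    (g p.1, p.2) ∈ (c.mp g id ∅).support := by
  have e : (g p.1, p.2) = (fun p : Wt × Finset Wl => (g p.1, p.2.image id ∪ ∅)) p := by simp
  rw [Finsupp.mem_support_iff, mp, e, Finsupp.mapDomain_apply' (c.support : Set _) c subset_rfl _ hp]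
  · exact Finsupp.mem_support_iff.1 hp
  · intro p hp q hq k
    simp only [image_id, union_empty, Prod.mk.injEq] at k
    exact Prod.ext ((h p hp).trans (h q hq).symm) k.2

/-- the cells are products -/
def Exc (c : Cn) (x : ℤ) : Prop := ∀ p ∈ c.support, ∀ q ∈ c.support,
  (q.1, {a ∈ p.2 | a.b.hi < x} ∪ {a ∈ q.2 | x < a.b.lo}) ∈ c.support

theorem Exc.congr (h : Exc c x) (k : ∀ p ∈ c.support, ∀ a ∈ p.2, (a.b.hi < y ↔ a.b.hi < x) ∧ (y < a.b.lo ↔ x < a.b.lo)) :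
    Exc c y := fun p hp q hq => by
  rw [filter_congr fun a i => (k p hp a i).1, filter_congr fun a i => (k q hq a i).2]
  exact h p hp q hq

theorem Exc.mp (h : Exc c x) (k : ∀ p ∈ c.support, p.1 = n) (g : Wt → Wt) : Exc (c.mp g id ∅) x :=
  fun _ hp' _ hq' => by
    obtain ⟨p, hp, rfl⟩ := mem_mp hp'
    obtain ⟨q, hq, rfl⟩ := mem_mp hq'
    simpa only [image_id, union_empty] using mem_mp' k (h p hp q hq)

theorem Exc.J (h : Exc c x) (ne : a ≠ e) (ha : ∀ p ∈ c.support, a ∉ p.2) (he : ∀ p ∈ c.support, e ∉ p.2)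
    (k : (∀ i ∈ ({a, e} : Finset Wl), i.b.hi < x ∧ ¬x < i.b.lo) ∨ ∀ i ∈ ({a, e} : Finset Wl), ¬i.b.hi < x ∧ x < i.b.lo) :
    Exc (J a e c) x := fun _ hp' _ hq' => by
  have m : ∀ i ∈ ({a, e} : Finset Wl), ∀ p ∈ c.support, (p.1, insert i p.2) ∈ (Cn.J a e c).support := by
    simp only [mem_insert, mem_singleton, forall_eq_or_imp, forall_eq]
    exact ⟨fun p => mem_J' ne ha, fun p => J_comm a e c ▸ mem_J' ne.symm he⟩
  have g : ∀ p ∈ (Cn.J a e c).support, ∃ i ∈ ({a, e} : Finset Wl), ∃ p' ∈ c.support, p = (p'.1, insert i p'.2) :=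
    fun _ hp' => by
      obtain ⟨p, hp, rfl | rfl⟩ := mem_J hp'
      exacts [⟨a, by simp, p, hp, rfl⟩, ⟨e, by simp, p, hp, rfl⟩]
  obtain ⟨i, hi, p, hp, rfl⟩ := g _ hp'
  obtain ⟨j, hj, q, hq, rfl⟩ := g _ hq'
  simp only [filter_insert]
  rcases k with k | k
  · rw [if_pos (k i hi).1, if_neg (k j hj).2, insert_union]; exact m i hi _ (h p hp q hq)
  · rw [if_neg (k i hi).1, if_pos (k j hj).2, union_insert]; exact m j hj _ (h p hp q hq)

/-! ### cells -/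

/-- the potential of the irreducible reserve, in quarters -/
def pot (w : Shp Γ) (n : Wt) (σ : Finset Bs) (b u : ℤ) : ℝ := 4 * S w n al u b + #(wn u b σ)

/-- the number of couplings right of `u` -/
def cnt (g : ℕ → ℤ) (K : ℕ) (u : ℤ) : ℕ := #{i ∈ range K | u < g i}

/-- where the walls are -/
def Ps (x y b : ℤ) (a : Wl) : Prop := (a.tw = [] ∧ a.b.hi < x) ∨
  (y < a.b.lo ∧ a.b.hi < b ∧ ¬a.b.arc ∧ ∀ τ ∈ a.tw, y < τ.x ∧ τ.y < b) ∨ (a.tw = [] ∧ b < a.b.lo)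

/-- the walls between the gap and the tail -/
structure Md (w : Shp Γ) (n : Wt) (σ : Finset Bs) (y b Q : ℤ) (K : ℕ) (g : ℕ → ℤ) : Prop where
  p : pot w n σ b y = Q - 5
  k : #(wn y b σ) = K
  s : ∀ u, y ≤ u → u ≤ b → .sS u ∈ σ → -7 ≤ pot w n σ b u ∧ pot w n σ b u ≤ 5 ∧ #(wn u b σ) = cnt g K u

/-- the reserve that the right side needs -/
def vQ (Q : ℤ) : ℝ × ℝ := ((9 - Q) / 4, 0)

/-- a good cell round the gap `[x, y]`, the tail begins at `b` -/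
structure Gd (P : Pm Γ) (F : Fm Γ) (n : Wt) (z x y b : ℤ) (vL : ℝ × ℝ) (Q : ℤ) (K : ℕ) (g : ℕ → ℤ)
    (σ : Finset Wl) : Prop where
  inj : Set.InjOn Wl.b σ
  ok : ∀ a ∈ σ, a.b.pin ∧ a.b.OK F.w ∧ Ps x y b a
  far : ∀ a ∈ σ.image Wl.b, ∀ a' ∈ σ.image Wl.b, a ≠ a' → a.Far a'
  fz : ∀ a ∈ σ, ∀ f ∈ F.fz, a.b.Far f
  wl : ∃ v, F.Win z 0 n (σ.image Wl.b) (F.w.l - 1) x v vL
  wr : ∃ ts, (∀ τ ∈ ts, y < τ.x ∧ τ.y < b) ∧ F.Pops ts σ ∧ (∀ a ∈ σ, (pops ts a).tw = []) ∧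
    F.Win z 0 (acts F.w ts n) (σ.image Wl.b) y (F.w.r + 1) (vQ Q) (vR P) ∧
    Md F.w (acts F.w ts n) (σ.image Wl.b) y b Q K g
  tl : F.Win z 0 n (σ.image Wl.b) b (F.w.r + 1) (vT 0) (vR P)

/-- frame and line -/
structure Fr (P : Pm Γ) (F : Fm Γ) (n : Wt) (z x y b : ℤ) : Prop where
  ok : F.OK P
  ls : F.ls = ∅
  lok : F.LOK P n
  p1 : P1 F.w
  lo : F.w.l < x
  xy : x < y
  yb : y ≤ b
  bz : b ≤ z
  cz : F.Cut z

variable {Q Q' : ℤ} {K K' : ℕ} {g g' : ℕ → ℤ}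

theorem S_aq {φ : Z2 → Z2 → ℤ → ℤ → ℝ} (l : w'.l = w.l) (r : w'.r = w.r) (e : Aq w w' n n' (y ≤ ·)) (h : y ≤ s) :
    S w' n' φ s t = S w n φ s t := by
  rw [S, S, l, r]
  refine sum_congr rfl fun c hc => ?_
  have := (mem_filter.1 hc).2
  obtain ⟨a1, -, a3⟩ := e (c - 1) (by simp only; omega)
  obtain ⟨b1, b2, -⟩ := e c (by simp only; omega)
  simp only [vx, Shp.lf, Shp.rt, a1, a3, b1, b2]

theorem Md.aq {σ σ' : Finset Bs} (h : Md w n σ y b Q K g) (l : w'.l = w.l) (r : w'.r = w.r)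
    (e : Aq w w' n n' (y ≤ ·)) (k : ∀ a, y ≤ a.lo → (a ∈ σ' ↔ a ∈ σ)) : Md w' n' σ' y b Q K g := by
  have e1 : ∀ u, y ≤ u → wn u b σ' = wn u b σ := fun u q => Finset.ext fun a => by
    simp only [mem_wn]; exact and_congr_left fun i => k a (by omega)
  have e2 : ∀ u, y ≤ u → pot w' n' σ' b u = pot w n σ b u := fun u q => by rw [pot, pot, e1 u q, S_aq l r e q]
  exact ⟨e2 y le_rfl ▸ h.p, e1 y le_rfl ▸ h.k, fun u p q i => by
    rw [e1 u p, e2 u p]; exact h.s u p q ((k (.sS u) p).1 i)⟩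

theorem Gd.pos (h : Gd P F n z x y b vL Q K g σ) (yb : y ≤ b) {a : Bs} (ha : a ∈ σ.image Wl.b) :
    a.lo ≤ a.hi ∧ a.hi ≤ F.w.r ∧ (a.hi < x ∨ y < a.lo) ∧ (a.hi < x ∨ a.hi < b ∨ b < a.lo) := by
  obtain ⟨a, k, rfl⟩ := mem_image.1 ha
  obtain ⟨-, o, p⟩ := h.ok a k
  have := wf_of_ok o
  have := this.1.1
  unfold Ps at p; omega

/-- a change inside the gap -/
theorem Gd.tr (h : Gd P F n z x y b vL Q K g σ) (H : Fr P F n z x y b) (ls : F'.ls = ∅) (l : F'.w.l = F.w.l)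
    (r : F'.w.r = F.w.r) (e : Aq F.w F'.w n n' fun j => j ≤ x ∨ y ≤ j) (f : F.fz ⊆ F'.fz)
    (f' : ∀ a ∈ F'.fz, a ∈ F.fz ∨ (x ≤ a.lo ∧ a.hi ≤ y)) : Gd P F' n' z x y b vL Q K g σ := by
  have ps := fun a => h.pos H.yb (a := a)
  have xy := H.xy
  have yb := H.yb
  obtain ⟨v, W⟩ := h.wl
  obtain ⟨ts, k1, k2, k3, k4, k5⟩ := h.wr
  have e' := acts_aq (e.mono fun _ q => .inr q) fun τ q => (k1 τ q).1
  refine ⟨h.inj, fun a k => ⟨(h.ok a k).1, ok_loc (h.ok a k).2.1 (l ▸ (wf_of_ok (h.ok a k).2.1).2.1) r.ge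
    fun j p q => (e j ?_).1, (h.ok a k).2.2⟩, h.far, fun a k i q => (f' i q).elim (h.fz a k i) fun q => ?_,
    ⟨v, l ▸ W.aq H.ls ls l r e (fun _ _ q => .inl q) f (fun _ _ _ => Iff.rfl) fun a k _ _ => ?_⟩,
    ⟨ts, k1, k2.tr ls fun τ q => ⟨twok_loc (k2.ok τ q) l r fun j p _ => (e j ?_).1, fun i k => (f' i k).imp_right
      fun k => .inl ?_⟩, k3, r ▸ k4.aq H.ls ls l r e' (fun _ q _ => q) f (fun _ _ _ => Iff.rfl) fun a k _ _ => ?_,
      k5.aq l r e' fun _ _ => Iff.rfl⟩,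
    r ▸ h.tl.aq H.ls ls l r e (fun _ q _ => .inr (by omega)) f (fun _ _ _ => Iff.rfl) fun a k _ _ => ?_⟩
  · have := ps _ (mem_image_of_mem _ k); omega
  · have := ps _ (mem_image_of_mem _ k); unfold Bs.Far; omega
  · have := ps _ k; omega
  · have := k1 τ q; omega
  · have := k1 τ q; omega
  · have := ps _ k; omega
  · have := ps _ k; omega

/-- walls inside the gap -/
structure Inn (F : Fm Γ) (x y : ℤ) (ts : List Tw) (ρ : Finset Wl) : Prop where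
  inj : Set.InjOn Wl.b ρ
  ok : ∀ a ∈ ρ, a.b.OK F.w ∧ x < a.b.lo ∧ a.b.hi < y
  far : ∀ a ∈ ρ.image Wl.b, ∀ a' ∈ ρ.image Wl.b, a ≠ a' → a.Far a'
  fz : ∀ a ∈ ρ, ∀ f ∈ F.fz, a.b.Far f
  tw : ∀ τ ∈ ts, x < τ.x ∧ τ.y < y
  pop : F.Pops ts ρ
  tor : ∀ a ∈ ρ, (pops ts a).tw = []

theorem Inn.pos (I : Inn F x y ts ρ) {a : Bs} (ha : a ∈ ρ.image Wl.b) : a.lo ≤ a.hi ∧ x < a.lo ∧ a.hi < y := by
  obtain ⟨a, k, rfl⟩ := mem_image.1 ha
  exact ⟨(wf_of_ok (I.ok a k).1).1.1, (I.ok a k).2⟩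

theorem inn_empty : Inn F x y [] ∅ := ⟨by simp, by simp, by simp, by simp, by simp, trivial, by simp⟩

/-- the union of a good cell with walls inside the gap -/
theorem Gd.ext (h : Gd P F n z x y b vL Q K g σ) (H : Fr P F n z x y b) (I : Inn F x y ts' ρ) :
    Set.InjOn Wl.b (σ ∪ ρ : Finset Wl) ∧
    (∀ a ∈ (σ ∪ ρ).image Wl.b, ∀ a' ∈ (σ ∪ ρ).image Wl.b, a ≠ a' → a.Far a') ∧
    (∀ a ∈ σ ∪ ρ, ∀ f ∈ F.fz, a.b.Far f) ∧ wn x y ((σ ∪ ρ).image Wl.b) = ρ.image Wl.b ∧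
    (∃ v, ∀ n', Aq F.w F.w n n' (· ≤ x) → F.Win z 0 n' ((σ ∪ ρ).image Wl.b) (F.w.l - 1) x v vL) ∧
    (∃ ts, (∀ τ ∈ ts, y < τ.x ∧ τ.y < b) ∧ F.Pops (ts' ++ ts) (σ ∪ ρ) ∧
      (∀ a ∈ σ ∪ ρ, (pops (ts' ++ ts) a).tw = []) ∧
      F.Win z 0 (acts F.w (ts' ++ ts) n) ((σ ∪ ρ).image Wl.b) y (F.w.r + 1) (vQ Q) (vR P) ∧
      Md F.w (acts F.w (ts' ++ ts) n) ((σ ∪ ρ).image Wl.b) y b Q K g) ∧
    F.Win z 0 n ((σ ∪ ρ).image Wl.b) b (F.w.r + 1) (vT 0) (vR P) := by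
  have ps := fun a => h.pos H.yb (a := a)
  have pi := fun a => I.pos (a := a)
  have xy := H.xy
  have yb := H.yb
  obtain ⟨v, W⟩ := h.wl
  obtain ⟨ts, k1, k2, k3, k4, k5⟩ := h.wr
  have out : ∀ a : Bs, a.lo ≤ x ∨ y ≤ a.lo → (a ∈ (σ ∪ ρ).image Wl.b ↔ a ∈ σ.image Wl.b) := fun a q => by
    rw [image_union, mem_union]
    exact or_iff_left fun k => by have := pi a k; omega
  have c1 := I.pop.clr (ρ := σ) fun τ q a k => by
    have := I.tw τ q
    have := (I.pop.ok τ q).le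
    have := ps _ (mem_image_of_mem _ k)
    refine ⟨by unfold Tw.Off; omega, fun τ' i => ?_⟩
    rcases (h.ok a k).2.2 with p | p | p
    · simp [p.1] at i
    · have := p.2.2.2 τ' i; unfold Tw.Sep; omega
    · simp [p.1] at i
  have c2 := k2.clr (ρ := ρ.image (pops ts')) fun τ q _ k' => by
    obtain ⟨a, k, rfl⟩ := mem_image.1 k'
    have := k1 τ q
    have := I.ok a k
    exact ⟨.inl (by rw [pops_b]; omega), by simp [I.tor a k]⟩
  have e' : Aq F.w F.w (acts F.w ts n) (acts F.w (ts' ++ ts) n) (y ≤ ·) := acts_app (w := F.w) n ▸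
    acts_aq (acts_ag n fun τ q j i => .inr (by have := I.tw τ q; omega)) fun τ q => (k1 τ q).1
  refine ⟨fun a p a' q e => ?_, fun a p a' q e => ?_, fun a k => (mem_union.1 k).elim (h.fz a) (I.fz a),
    Finset.ext fun a => ?_,
    ⟨v, fun n' e => W.aq H.ls H.ls rfl rfl e (fun _ _ q => q) Subset.rfl (fun a _ q => out a (.inl q.le))
      fun a k _ _ => by have := ps _ k; omega⟩,
    ⟨ts, k1, (c1.1.union I.pop).app ?_, fun a k => ?_, k4.aq H.ls H.ls rfl rfl e' (fun _ q _ => q) Subset.rfl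
      (fun a q _ => out a (.inr q)) fun a k _ _ => by have := ps _ k; omega,
      k5.aq rfl rfl e' fun a q => out a (.inr q)⟩,
    h.tl.aq (p := fun _ => True) H.ls H.ls rfl rfl (fun _ _ => ⟨rfl, rfl, rfl⟩) (fun _ _ _ => trivial) Subset.rfl
      (fun a q _ => out a (.inr (by omega))) fun a k _ _ => by have := ps _ k; omega⟩
  · rcases mem_union.1 p with p | p <;> rcases mem_union.1 q with q | q
    · exact h.inj p q e
    · have := e ▸ ps _ (mem_image_of_mem Wl.b p); have := pi _ (mem_image_of_mem Wl.b q); omega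
    · have := ps _ (mem_image_of_mem Wl.b q); have := e ▸ pi _ (mem_image_of_mem Wl.b p); omega
    · exact I.inj p q e
  · rw [image_union, mem_union] at p q
    rcases p with p | p <;> rcases q with q | q
    · exact h.far a p a' q e
    · have := ps _ p; have := pi _ q; unfold Bs.Far; omega
    · have := ps _ q; have := pi _ p; unfold Bs.Far; omega
    · exact I.far a p a' q e
  · rw [mem_wn, image_union, mem_union]
    exact ⟨fun k => k.1.resolve_left fun q => by have := ps _ q; omega,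
      fun k => ⟨.inr k, by have := pi _ k; omega⟩⟩
  · rw [image_union, image_congr (g := id) c1.2, image_id]
    exact k2.union c2.1
  · rw [pops_app]
    rcases mem_union.1 k with k | k
    · rw [c1.2 a k]; exact k3 a k
    · rw [c2.2 _ (mem_image_of_mem _ k)]; exact I.tor a k

theorem okn_loc {a : Bs} (h : a.OKn w n) (e : Aq w w n n' fun j => j = a.lo ∨ j = a.hi) : a.OKn w n' := by
  cases a <;> try trivial
  rename_i x y
  rw [Bs.OKn, (e x (.inl rfl)).2.2, (e y (.inr rfl)).2.1]; exact h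

/-- **closing the gap** -/
theorem Gd.gc (h : Gd P F n z x y b vL Q K g σ) (H : Fr P F n z x y b) (I : Inn F x y ts' ρ)
    (o : ∀ a ∈ ρ, a.b.OKn F.w n ∧ a.b.OKn F.w (acts F.w ts' n) ∧ (a.b.pin ∨ a.tw = []))
    (W : ∀ σ', wn x y σ' = ρ.image Wl.b → F.Win z 0 (acts F.w ts' n) σ' x y vL (vQ Q)) :
    ∃ ts, (∀ τ ∈ ts, y < τ.x ∧ τ.y < b) ∧ F.Pops (ts' ++ ts) (σ ∪ ρ) ∧
      (∀ a ∈ σ ∪ ρ, (pops (ts' ++ ts) a).tw = []) ∧
      F.Tor P (acts F.w (ts' ++ ts) n) ((σ ∪ ρ).image Wl.b) ∧ F.GC P n (σ ∪ ρ) := by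
  obtain ⟨e1, e2, e3, e4, ⟨v, e5⟩, ⟨ts, k1, k2, k3, k4, -⟩, -⟩ := h.ext H I
  have xy := H.xy
  have yb := H.yb
  have bz := H.bz
  have zr := cut_lt H.ok H.cz
  have lo := H.lo
  have ps : ∀ a ∈ (σ ∪ ρ).image Wl.b, a.lo ≤ a.hi ∧ (a.hi < x ∨ x < a.lo) ∧ (a.hi < y ∨ y < a.lo) := fun a k => by
    rw [image_union, mem_union] at k
    rcases k with k | k
    · have := h.pos yb k; omega
    · have := I.pos k; omega
  have e' : Aq F.w F.w (acts F.w ts' n) (acts F.w (ts' ++ ts) n) (· ≤ y) := acts_app (w := F.w) n ▸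
    acts_ag _ fun τ q j i => .inl (by have := k1 τ q; omega)
  have e'' : Aq F.w F.w n (acts F.w (ts' ++ ts) n) (· ≤ x) := acts_ag _ fun τ q j i => .inl (by
    rcases List.mem_append.1 q with q | q
    · have := I.tw τ q; omega
    · have := k1 τ q; omega)
  have ok : ∀ a ∈ σ ∪ ρ, a.b.OK F.w ∧ a.b.OKn F.w n ∧ a.b.OKn F.w (acts F.w (ts' ++ ts) n) ∧
      (a.b.pin ∨ a.tw = []) := fun a k => (mem_union.1 k).elim
    (fun k => ⟨(h.ok a k).2.1, okn_of_pin (h.ok a k).1, okn_of_pin (h.ok a k).1, .inl (h.ok a k).1⟩)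
    fun k => ⟨(I.ok a k).1, (o a k).1, okn_loc (o a k).2.1 (e'.mono fun j q => by
      have := I.pos (mem_image_of_mem Wl.b k); omega), (o a k).2.2⟩
  have T : F.Tor P (acts F.w (ts' ++ ts) n) ((σ ∪ ρ).image Wl.b) := by
    refine ⟨forall_mem_image.2 fun a k => ⟨(ok a k).1, (ok a k).2.2.1⟩, e2, forall_mem_image.2 e3, by simp [H.ls],
      ((e5 _ e'').trans (((W _ e4).aq H.ls H.ls rfl rfl e' (fun _ _ q => q) Subset.rfl (fun _ _ _ => Iff.rfl)
        fun a k p q => by have := ps a k; omega).trans k4 xy.le (by omega) (by omega) (by omega)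
        (fun a k => ?_) (by simp [H.ls, wn])) (by omega) (by omega) (by omega) (by omega) (fun a k => ?_)
        (by simp [H.ls, wn])).numC le_rfl zero_le_one (forall_mem_image.2 fun a k => (ok a k).1) e2
        (by simp [H.ls]) (.inr H.cz) zr.2.le le_rfl le_rfl⟩
    all_goals have := ps a (mem_wn.1 k).1; exact ⟨this.1, by omega⟩
  exact ⟨ts, k1, k2, k3, T, H.ok, H.lok, e1, fun a k => ⟨(ok a k).2.1, (ok a k).2.2.2⟩, _, k2, k3, T⟩

/-- **the left side grows** -/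
theorem Gd.left (h : Gd P F n z x y b vL Q K g σ) (H : Fr P F n z x y b) (I : Inn F x y [] ρ) (h1 : x ≤ x')
    (h2 : x' ≤ y) (o : ∀ a ∈ ρ, a.b.pin ∧ a.b.hi < x')
    (W : ∀ σ', wn x x' σ' = ρ.image Wl.b → F.Win z 0 n σ' x x' vL v') : Gd P F n z x' y b v' Q K g (σ ∪ ρ) := by
  obtain ⟨e1, e2, e3, e4, ⟨v, e5⟩, e6, e7⟩ := h.ext H I
  have yb := H.yb
  have bz := H.bz
  have zr := cut_lt H.ok H.cz
  have lo := H.lo
  refine ⟨e1, fun a k => (mem_union.1 k).elim (fun k => ⟨(h.ok a k).1, (h.ok a k).2.1, (h.ok a k).2.2.imp_left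
    fun q => ⟨q.1, by omega⟩⟩) fun k => ⟨(o a k).1, (I.ok a k).1, .inl ⟨I.tor a k, (o a k).2⟩⟩, e2, e3,
    ⟨v, (e5 n fun _ _ => ⟨rfl, rfl, rfl⟩).trans (W _ (Finset.ext fun a => ?_)) (by omega) h1 (by omega) (by omega)
      (fun a k => ?_) (by simp [H.ls, wn])⟩, e6, e7⟩
  · rw [← e4, mem_wn, mem_wn]
    refine and_congr_right fun k => and_congr_right fun p => ⟨fun q => by omega, fun q => ?_⟩
    obtain ⟨a, i, rfl⟩ := mem_image.1 (e4 ▸ mem_wn.2 ⟨k, p, q⟩ :)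
    have := I.pos (mem_image_of_mem Wl.b i); have := o a i; omega
  · have k' := (mem_wn.1 k).1
    rw [image_union, mem_union] at k'
    rcases k' with q | q
    · have := h.pos yb q; exact ⟨this.1, by omega⟩
    · have := I.pos q; exact ⟨this.1, by omega⟩

theorem wn_cut {σ : Finset Bs} (h : s ≤ t) (h' : t ≤ b) : #(wn s b σ) = #(wn s t σ) + #(wn t b σ) := by
  rw [← card_union_of_disjoint (disjoint_left.2 fun a k k' => by have := mem_wn.1 k; have := mem_wn.1 k'; omega)]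
  exact congrArg card (Finset.ext fun a => by
    simp only [mem_union, mem_wn, ← and_or_left]; exact and_congr_right fun _ => by omega)

theorem pot_cut {σ : Finset Bs} (h : s ≤ t) (h' : t ≤ b) :
    pot w n σ b s = 4 * S w n al s t + #(wn s t σ) + pot w n σ b t := by
  rw [pot, pot, wn_cut h h', S_cut h h']; push_cast; ring

/-- **the right side grows** -/
theorem Gd.right (h : Gd P F n z x y b vL Q K g σ) (H : Fr P F n z x y b) (I : Inn F x y ts' ρ) (h1 : x ≤ y')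
    (h2 : y' ≤ y) (o : ∀ a ∈ ρ, a.b.pin ∧ y' < a.b.lo ∧ ¬a.b.arc ∧ ∀ τ ∈ a.tw, τ ∈ ts') (ht : ∀ τ ∈ ts', y' < τ.x)
    (W : ∀ σ', wn y' y σ' = ρ.image Wl.b → F.Win z 0 (acts F.w ts' n) σ' y' y (vQ Q') (vQ Q))
    (q : 4 * S F.w (acts F.w ts' n) al y' y + #ρ = Q' - Q) (hK : K' = K + #ρ)
    (hg : ∀ u, y ≤ u → cnt g' K' u = cnt g K u)
    (hs : ∀ u, .sS u ∈ ρ.image Wl.b → -3 ≤ 4 * S F.w (acts F.w ts' n) al u y + Q ∧
      4 * S F.w (acts F.w ts' n) al u y + Q ≤ 9 ∧ ρ.image Wl.b = {.sS u} ∧ cnt g' K' u = K + 1) :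
    Gd P F n z x y' b vL Q' K' g' (σ ∪ ρ) := by
  obtain ⟨e1, e2, e3, e4, ⟨v, e5⟩, ⟨ts, k1, k2, k3, k4, k5⟩, e7⟩ := h.ext H I
  have yb := H.yb
  have bz := H.bz
  have zr := cut_lt H.ok H.cz
  have e' : Aq F.w F.w (acts F.w ts' n) (acts F.w (ts' ++ ts) n) (· ≤ y) := acts_app (w := F.w) n ▸
    acts_ag _ fun τ q j i => .inl (by have := k1 τ q; omega)
  have eS : ∀ u, S F.w (acts F.w (ts' ++ ts) n) al u y = S F.w (acts F.w ts' n) al u y := fun u =>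
    sum_congr rfl fun c hc => by
      have := (mem_filter.1 hc).2
      simp only [vx, (e' (c - 1) (by simp only; omega)).2.2, (e' c (by simp only; omega)).2.1]
  have ew : ∀ u, x ≤ u → (∀ a ∈ ρ, u ≤ a.b.lo) → wn u y ((σ ∪ ρ).image Wl.b) = ρ.image Wl.b := fun u p q =>
    Finset.ext fun a => by
      rw [← e4, mem_wn, mem_wn]
      refine and_congr_right fun k => and_congr_left fun p => ⟨fun q => by omega, fun i => ?_⟩
      obtain ⟨a, i', rfl⟩ := mem_image.1 (e4 ▸ mem_wn.2 ⟨k, i, p⟩ :)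
      exact q a i'
  have e8 := ew y' h1 fun a k => (o a k).2.1.le
  have cd : #(ρ.image Wl.b) = #ρ := card_image_of_injOn I.inj
  have ps : ∀ a ∈ wn y' (F.w.r + 1) ((σ ∪ ρ).image Wl.b), Sp y a := fun a k => by
    have k' := (mem_wn.1 k).1
    rw [image_union, mem_union] at k'
    rcases k' with q | q
    · have := h.pos yb q; have := H.xy; exact ⟨by omega, by omega⟩
    · have := I.pos q; exact ⟨this.1, by omega⟩
  refine ⟨e1, fun a k => (mem_union.1 k).elim (fun k => ⟨(h.ok a k).1, (h.ok a k).2.1, (h.ok a k).2.2.imp_right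
    fun q => q.imp_left fun q => ⟨by omega, q.2.1, q.2.2.1, fun τ i => ⟨by have := q.2.2.2 τ i; omega,
      (q.2.2.2 τ i).2⟩⟩⟩) fun k => ⟨(o a k).1, (I.ok a k).1, .inr (.inl ⟨(o a k).2.1, by have := I.ok a k; omega,
      (o a k).2.2.1, fun τ i => ⟨ht τ ((o a k).2.2.2 τ i), by have := I.tw τ ((o a k).2.2.2 τ i); omega⟩⟩)⟩, e2, e3,
    ⟨v, e5 n fun _ _ => ⟨rfl, rfl, rfl⟩⟩, ⟨ts' ++ ts, fun τ q => ?_, k2, k3,
      ((W _ e8).aq H.ls H.ls rfl rfl e' (fun _ _ q => q) Subset.rfl (fun _ _ _ => Iff.rfl) fun a k p q => ?_).trans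
        k4 h2 (by omega) (by omega) (by omega) ps (by simp [H.ls, wn]), ?_, ?_, fun u p1 p2 p3 => ?_⟩, e7⟩
  · rcases List.mem_append.1 q with q | q
    · have := ht τ q; have := I.tw τ q; omega
    · have := k1 τ q; omega
  · have := ps a (mem_wn.2 ⟨k, p, by omega⟩); unfold Sp at this; omega
  · rw [pot_cut h2 yb, k5.p, e8, cd, eS, q]; ring
  · rw [wn_cut h2 yb, k5.k, e8, cd, hK, add_comm]
  · by_cases i : y ≤ u
    · rw [hg u i]; exact k5.s u i p2 p3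
    · obtain ⟨a1, a2, a3, a4⟩ := hs u (e8 ▸ mem_wn.2 ⟨p3, p1, not_le.1 i⟩)
      have e9 := ew u (by omega) fun a k => by
        rw [mem_singleton.1 (a3 ▸ mem_image_of_mem Wl.b k :)]; exact le_rfl
      rw [pot_cut (not_le.1 i).le yb, wn_cut (not_le.1 i).le yb, k5.p, k5.k, e9, a3, eS, a4, card_singleton]
      exact ⟨by push_cast; linarith, by push_cast; linarith, add_comm _ _⟩

end Crest.Agent.X212.Nm96
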