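import Crest.Agent.X212.Nm96.Pa

/-!
# Row 212, `p = 1` (helper96), part b: chains round a gap, the steps, window shapes
-/

set_option autoImplicit false
noncomputable section

namespace Crest.Agent.X212.Nm96

open Crest.Agent.X212.Rod53 Crest.Agent.X212.Wd38 Finset Cn

variable {Γ : Nm} {P : Pm Γ} {T : WTh Γ} {F F' : Fm Γ} {w w' : Shp Γ} {n n' : Wt} {x y z b x' y' s t : ℤ}
  {ts ts' : List Tw} {σ ρ : Finset Wl} {v v' vL : ℝ × ℝ} {a e i : Wl} {c : Cn} {d : ℕ} {Q Q' : ℤ} {K K' : ℕ}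
  {g g' : ℕ → ℤ}

/-- a chain of good cells -/
structure Cc (P : Pm Γ) (F : Fm Γ) (n : Wt) (z x y b : ℤ) (vL : ℝ × ℝ) (Q : ℤ) (K : ℕ) (g : ℕ → ℤ) (d : ℕ)
    (c : Cn) : Prop where
  pre : Fm.Pre d c
  cell : ∀ p ∈ c.support, p.1 = n ∧ Gd P F n z x y b vL Q K g p.2
  exc : Exc c x

/-- the walls `ρ` fill the gap -/
def Fi (F : Fm Γ) (n : Wt) (z x y : ℤ) (v v' : ℝ × ℝ) (ρ : Finset Wl) : Prop := ∃ ts, Inn F x y ts ρ ∧
  (∀ a ∈ ρ, a.b.OKn F.w n ∧ a.b.OKn F.w (acts F.w ts n) ∧ (a.b.pin ∨ a.tw = [])) ∧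
  ∀ σ, wn x y σ = ρ.image Wl.b → F.Win z 0 (acts F.w ts n) σ x y v v'

theorem Fi.pos (h : Fi F n z x y v v' ρ) (k : a ∈ ρ) : a.b.lo ≤ a.b.hi ∧ x < a.b.lo ∧ a.b.hi < y :=
  h.choose_spec.1.pos (mem_image_of_mem _ k)

namespace Cc

variable (C : Cc P F n z x y b vL Q K g d c) (H : Fr P F n z x y b)
include C H

theorem tr (f : Wt → Wt) (ls : F'.ls = ∅) (l : F'.w.l = F.w.l) (r : F'.w.r = F.w.r)
    (e : Aq F.w F'.w n (f n) fun j => j ≤ x ∨ y ≤ j) (k : F.fz ⊆ F'.fz)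
    (k' : ∀ a ∈ F'.fz, a ∈ F.fz ∨ (x ≤ a.lo ∧ a.hi ≤ y)) : Cc P F' (f n) z x y b vL Q K g d (c.mp f id ∅) :=
  ⟨C.pre.mp f, fun _ hq => by
    obtain ⟨p, hp, rfl⟩ := mem_mp hq
    simpa only [image_id, union_empty] using ⟨congrArg f (C.cell p hp).1, (C.cell p hp).2.tr H ls l r e k k'⟩,
    C.exc.mp (fun p hp => (C.cell p hp).1) f⟩

theorem frz {fz : Finset Bs} (k : F.fz ⊆ fz) (k' : ∀ a ∈ fz, a ∈ F.fz ∨ (x ≤ a.lo ∧ a.hi ≤ y)) :
    Cc P { F with fz := fz } n z x y b vL Q K g d c :=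
  mp_id c ▸ C.tr H (F' := { F with fz := fz }) id H.ls rfl rfl (fun _ _ => ⟨rfl, rfl, rfl⟩) k k'

theorem notMem (h : a.b.lo ≤ a.b.hi ∧ x < a.b.lo ∧ a.b.hi < y) : ∀ p ∈ c.support, a ∉ p.2 := fun p hp k => by
  have := (C.cell p hp).2.pos H.yb (mem_image_of_mem Wl.b k); omega

theorem gc (h : Fi F n z x y vL (vQ Q) ρ) : ∀ p ∈ c.support, F.GC P p.1 (p.2 ∪ ρ) := fun p hp => by
  obtain ⟨ts, I, o, W⟩ := h
  obtain ⟨_, -, -, -, -, k⟩ := (C.cell p hp).2.gc H I o W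
  exact (C.cell p hp).1 ▸ k

theorem cl (h : Fi F n z x y vL (vQ Q) ∅) : F.Cl P d c :=
  C.pre.cl H.ls fun p hp => by simpa using C.gc H h p hp

theorem jo (h : Fi F n z x y vL (vQ Q) {a}) (k : a.b.pin) : F.Jo P c a :=
  ⟨k, fun p hp => ⟨C.notMem H (h.pos (mem_singleton_self a)) p hp, by
    rw [insert_eq, union_comm]; exact C.gc H h p hp⟩⟩

theorem split (X : Ax0 P T) (ha : F.Jo P c a) (hi : F.Jo P c i) (he : F.Jo P c e) :
    T.Z F (d + 1) (J a e c) = T.Z F (d + 1) (J a i c) + T.Z F (d + 1) (J i e c) := by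
  rw [← J_add a i e, X.add _ _ _ _ (C.pre.clJ H.ls ha hi) (C.pre.clJ H.ls hi he)]

theorem two (X : Ax0 P T) (ha : F.Jo P c a) (he : F.Jo P c e) (ne : a ≠ e) (h : Fi F n z x y vL (vQ Q) {a, e}) :
    T.Z F (d + 1) (J a e c) = 0 := by
  have na := fun p hp => (ha.2 p hp).1
  have nb := fun p hp => (he.2 p hp).1
  have k := bd_jj C.pre.bd ne na nb
  have key : ∀ q ∈ (jn a (jn e c)).support, ∃ p ∈ c.support, q = (p.1, insert a (insert e p.2)) :=
    fun q hq => by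
      obtain ⟨p', hp', rfl⟩ := mem_jn hq
      obtain ⟨p, hp, rfl⟩ := mem_jn hp'
      exact ⟨p, hp, rfl⟩
  rw [← k]
  refine X.stk F _ _ H.ok ⟨fun q hq => ?_, by simp [H.ls]⟩ (fun q hq => ?_) (k ▸ C.pre.clJ H.ls ha he) <;>
    obtain ⟨p, hp, rfl⟩ := key q hq
  · refine ⟨?_, fun x hx => .inl ?_⟩
    · rw [card_insert_of_notMem (by simp [ne, na p hp]), card_insert_of_notMem (nb p hp), (C.pre.mem p hp).1]
    · rcases mem_insert.1 hx with rfl | hx
      · exact ha.1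
      · exact (mem_insert.1 hx).elim (· ▸ he.1) ((C.pre.mem p hp).2 x)
  · rw [show insert a (insert e p.2) = p.2 ∪ {a, e} by ext; simp]
    exact C.gc H h p hp

/-- a turn -/
theorem rf (X : Ax0 P T) {f : Wt → Wt} {a e : Bs} (C' : Cc P { F with w := w } (f n) z x y b vL Q K g d (c.mp f id ∅))
    (H' : Fr P { F with w := w } (f n) z x y b) (sur : w.Sur F.w x' y') (h1 : x < x') (h2 : y' < y)
    (rod : ∀ j, x' < j → j ≤ y' → F.w.s j = .rod (F.w.s x').r) (chg : Chg ∅ 0 x' y' f)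
    (rs : Fm.RS { F with w := w } (f n) x' y' a e) (f0 : Fi F n z x y vL (vQ Q) ∅)
    (f1 : Fi F n z x y vL (vQ Q) {↑(Bs.rA x' y')})
    (f2 : Fi { F with w := w } (f n) z x y vL (vQ Q) {↑(Bs.rA x' y'), ↑a})
    (f3 : Fi { F with w := w } (f n) z x y vL (vQ Q) {↑(Bs.rA x' y'), ↑e})
    (ha : Fm.Jo P { F with w := w } (c.mp f id ∅) a) (he : Fm.Jo P { F with w := w } (c.mp f id ∅) e) :
    T.Z { F with w := w } (d + 1) (J a e (c.mp f id ∅)) = T.Z F d c := by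
  have k : c.mp f id {↑a} + c.mp f id {↑e} = J a e (c.mp f id ∅) := by rw [mp_one, mp_one, Cn.J]
  have m := fun p hp => mem_mp' (g := f) (fun p hp => (C.cell p hp).1) (p := p) hp
  have lt := sur.rg.lt
  rw [← k]
  refine X.rf F _ _ _ a e _ d c sur rfl (by simp [H.ls]) rod (H.ls ▸ chg) (fun i hi => ?_) (C.cl H f0)
    (fun p hp => ⟨by rw [insert_eq, union_comm]; exact C.gc H f1 p hp, (C.cell p hp).1 ▸ rs,
      C'.gc H' f2 _ (m p hp), C'.gc H' f3 _ (m p hp)⟩) (k ▸ C'.pre.clJ H.ls ha he)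
  obtain ⟨p, hp, k⟩ := mem_walls.1 hi
  have := (C.cell p hp).2.pos H.yb (mem_image_of_mem Wl.b k)
  refine ⟨⟨by omega, by omega, fun τ q => ?_⟩, by simp only [Bs.Far, Bs.lo, Bs.hi] at *; omega⟩
  rcases ((C.cell p hp).2.ok i k).2.2 with p | p | p
  · simp [p.1] at q
  · have := p.2.2.2 τ q; omega
  · simp [p.1] at q

/-- a junction and its inverse -/
theorem can (X : Ax0 P T) {f : Wt → Wt} {J J' : Γ.J} (h : F.w.Can w J J' x' y') (iv : P.iv J J')
    (p : (Γ.src J).2.2 ≠ 0) (chg : Chg ∅ 1 x' y' f) (h1 : x + 1 < x') (h2 : y' + 1 < y)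
    (fz : ∀ a ∈ F.fz, a.lo ≤ x ∨ y ≤ a.lo) (f0 : Fi F n z x y vL (vQ Q) ∅)
    (cl : Fm.Cl P { F with w := w } d (c.mp f id ∅)) : T.Z { F with w := w } d (c.mp f id ∅) = T.Z F d c := by
  refine (X.can F w J J' x' y' f d c h iv p (H.ls ▸ chg) (fun i hi => ?_) (fun a k => ?_) (C.cl H f0) cl).symm
  · obtain ⟨p, hp, k⟩ := mem_walls.1 hi
    have := H.yb
    rcases ((C.cell p hp).2.ok i k).2.2 with p | p | p
    · exact ⟨_, _, ⟨le_rfl, le_rfl, by simp [p.1]⟩, .inl (by omega)⟩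
    · exact ⟨y, b, ⟨p.1.le, p.2.1.le, p.2.2.2⟩, .inr (by omega)⟩
    · exact ⟨_, _, ⟨le_rfl, le_rfl, by simp [p.1]⟩, .inr (by omega)⟩
  · rw [H.ls, union_empty] at k
    obtain ⟨-, u, rfl⟩ := H.ok.fz a k
    have := fz _ k
    simp only [Bs.lo, Bs.hi] at *; omega

theorem exc' (h1 : x ≤ x') (h2 : x' ≤ y) : Exc c x' := C.exc.congr fun p hp a k => by
  have := (C.cell p hp).2.pos H.yb (mem_image_of_mem Wl.b k); omega

theorem left0 (h1 : x ≤ x') (h2 : x' ≤ y) (W : ∀ σ', wn x x' σ' = ∅ → F.Win z 0 n σ' x x' vL v') :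
    Cc P F n z x' y b v' Q K g d c :=
  ⟨C.pre, fun p hp => ⟨(C.cell p hp).1, by
    simpa using (C.cell p hp).2.left H inn_empty h1 h2 (by simp) (by simpa using W)⟩, C.exc' H h1 h2⟩

theorem right0 (h1 : x ≤ y') (h2 : y' ≤ y) (W : ∀ σ', wn y' y σ' = ∅ → F.Win z 0 n σ' y' y (vQ Q') (vQ Q))
    (q : 4 * S F.w n al y' y = Q' - Q) : Cc P F n z x y' b vL Q' K g d c :=
  ⟨C.pre, fun p hp => ⟨(C.cell p hp).1, by
    simpa using (C.cell p hp).2.right (K' := K) (g' := g) H inn_empty h1 h2 (by simp) (by simp) (by simpa [acts] using W)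
      (by simpa [acts] using q) (by simp) (fun _ _ => rfl) (by simp)⟩, C.exc⟩

theorem ofJ {x' y' : ℤ} {v' : ℝ × ℝ} (ne : a ≠ e)
    (h : ∀ i ∈ ({a, e} : Finset Wl), i.b.pin ∧ (i.b.lo ≤ i.b.hi ∧ x < i.b.lo ∧ i.b.hi < y) ∧
      ∀ σ, Gd P F n z x y b vL Q K g σ → Gd P F n z x' y' b v' Q' K' g' (σ ∪ {i})) (h1 : x ≤ x') (h2 : x' ≤ y)
    (k : (∀ i ∈ ({a, e} : Finset Wl), i.b.hi < x') ∨ ∀ i ∈ ({a, e} : Finset Wl), x' < i.b.lo) :
    Cc P F n z x' y' b v' Q' K' g' (d + 1) (J a e c) := by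
  have ha := h a (by simp)
  have he := h e (by simp)
  refine ⟨C.pre.J ha.1 he.1 (C.notMem H ha.2.1) (C.notMem H he.2.1), fun _ hq => ?_,
    (C.exc' H h1 h2).J ne (C.notMem H ha.2.1) (C.notMem H he.2.1) (k.imp (fun k i q => ?_) fun k i q => ?_)⟩
  · obtain ⟨p, hp, rfl | rfl⟩ := mem_J hq <;> refine ⟨(C.cell p hp).1, ?_⟩ <;> rw [insert_eq, union_comm]
    exacts [ha.2.2 _ (C.cell p hp).2, he.2.2 _ (C.cell p hp).2]
  all_goals have := k i q; have := h i q; omega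

end Cc

theorem Fr.tr (H : Fr P F n z x y b) (ok : w.OK) (nok : n'.OK w P.Λ) (p1 : P1 w) (l : w.l = F.w.l)
    (r : w.r = F.w.r) (e : ∀ j, j ≤ x ∨ y ≤ j → w.s j = F.w.s j) (mL : n'.mL = n.mL) (mR : n'.mR = n.mR) :
    Fr P { F with w := w } n' z x y b :=
  ⟨⟨ok, fun a k => by
      obtain ⟨o, u, rfl⟩ := H.ok.fz a k
      exact ⟨⟨l ▸ o.1, r ▸ o.2⟩, u, rfl⟩, by simp [H.ls], by simp [H.ls], by simp [H.ls]⟩, H.ls,
    ⟨nok, mL.trans H.lok.mL, mR.trans H.lok.mR, by simp [H.ls]⟩, p1, l ▸ H.lo, H.xy, H.yb, H.bz,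
    ⟨H.cz.1, e z (.inr (H.yb.trans H.bz)) ▸ H.cz.2⟩⟩

theorem Fr.frz (H : Fr P F n z x y b) {fz : Finset Bs} (k : F.fz ⊆ fz)
    (k' : ∀ a ∈ fz, a ∈ F.fz ∨ ∃ u, a = .yS u ∧ x ≤ u ∧ u ≤ y) : Fr P { F with fz := fz } n z x y b :=
  have := H.lo; have := H.yb; have := H.bz; have := cut_lt H.ok H.cz
  ⟨⟨H.ok.w, fun a q => (k' a q).elim (H.ok.fz a) fun ⟨u, e, _⟩ => ⟨e ▸ ⟨by simp only; omega, by simp only; omega⟩, u, e⟩,
    H.ok.ls, by simp [H.ls], H.ok.ll⟩, H.ls, ⟨H.lok.ok, H.lok.mL, H.lok.mR, H.lok.ls⟩, H.p1, H.lo, H.xy, H.yb, H.bz,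
    ⟨k H.cz.1, H.cz.2⟩⟩

theorem Fr.mono (H : Fr P F n z x y b) (h1 : x ≤ x') (h2 : x' < y') (h3 : y' ≤ y) : Fr P F n z x' y' b :=
  ⟨H.ok, H.ls, H.lok, H.p1, H.lo.trans_le h1, h2, h3.trans H.yb, H.bz, H.cz⟩

theorem Fr.cw (H : Fr P F n z x y b) (h : F.Cut s) (h' : F.Cut t) (lt : s < t) (k : t ≤ y) : Cw F s t z :=
  ⟨H.ls, H.ok.w, H.p1, lt, .inr h, .inl ⟨h', k.trans (H.yb.trans H.bz)⟩⟩

/-! ### definite pieces -/

/-- a lower bound for the abelian number of a definite vertex -/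
def psi (u v : Z2) (x y : ℤ) : ℝ := om u v x y + if uu u v x y = 1 ∨ uu u v x y = -3 then 3 / 2 else 0

theorem vn_al : Vn al := fun _ _ _ _ h => by simp [al, lp, lq, lb, lg, nn, h]

theorem vn_om : Vn om := fun _ _ _ _ h => by simp [om, lp, lq, lb, lg, nn, h]

theorem vn_psi : Vn psi := fun u v x y h => by rw [psi, vn_om u v x y h, vn_uu u v x y h]; norm_num

/-- only definite vertices in `(s, t]` -/
def Df (w : Shp Γ) (s t : ℤ) : Prop := ∀ c, s < c → c ≤ t → dt (w.lf c) (w.rt c) = 0 ∨ nn (w.lf c) (w.rt c) < 0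

theorem Df.mono (h : Df w s t) (h1 : s ≤ x) (h2 : y ≤ t) : Df w x y := fun c p q => h c (by omega) (by omega)

theorem Df.trans (h : Df w s t) (h' : Df w t x) : Df w s x := fun c p q =>
  if k : c ≤ t then h c p k else h' c (not_le.1 k) q

theorem lq_neg {u v : Z2} (hu : |u.2| ≤ 1) (hv : |v.2| ≤ 1) (h : nn u v < 0) (x y : ℤ) : lq u v x y ≤ 0 := by
  obtain ⟨a, p⟩ := u
  obtain ⟨b, q⟩ := v
  simp only [nn, abs_le] at *
  have A : ∀ {D X : ℤ} {Y : ℝ}, 0 < D → Y = -(D : ℝ) * (X : ℝ) ^ 2 → Y ≤ 0 := fun {D X Y} h e => by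
    have : (0 : ℝ) < D := by exact_mod_cast h
    rw [e]; nlinarith [sq_nonneg (X : ℝ)]
  rcases (show p = 1 ∨ p = 0 ∨ p = -1 by omega) with rfl | rfl | rfl <;>
    rcases (show q = 1 ∨ q = 0 ∨ q = -1 by omega) with rfl | rfl | rfl <;> simp at h
  · exact A (X := x - y) h (by simp only [lq, lb, rho]; norm_num; left; ring)
  · exact A (D := -dt (a, 1) (b, -1)) (X := x + y) (by omega) (by simp [lq, lb, rho]; ring)
  · exact A (D := -dt (a, -1) (b, 1)) (X := x + y) (by omega) (by simp [lq, lb, rho]; ring)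
  · exact A (X := x - y) h (by simp only [lq, lb, rho]; norm_num; left; ring)

theorem psi_le (ok : w.OK) (p : P1 w) (tp : Tp w n n' s t) (h1 : s ≤ x) (h2 : y ≤ t) (df : Df w x y) :
    S w n psi x y ≤ -3 / 2 * S w n' lq x y + S w n om x y := by
  simp only [S, mul_sum, ← sum_add_distrib]
  refine sum_le_sum fun c hc => ?_
  obtain ⟨c1, c2, c3⟩ := mem_filter.1 hc
  rw [mem_Ioc] at c1
  have k : lq (w.lf c) (w.rt c) (n'.nr (c - 1)) (n'.nl c) ≤ 0 := (df c c2 c3).elim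
    (fun e => by simp [lq, lb, e]) fun e => lq_neg (p _).2 (p _).1 e _ _
  obtain ⟨j, hj⟩ := site_cong (u := w.lf c) (v := w.rt c) (p _).2 (p _).1 ((ok.st c c1.1 c1.2).2.imp_left (by
      rintro (e | e) <;> rw [Shp.lf, e]
      exacts [Wd38.dt_self _, dt_neg_self _]))
    (tp.r _ (by omega) (by omega) (by omega) (by omega)) (tp.l c (by omega) (by omega) c1.1 c1.2)
  simp only [vx, psi]
  split_ifs with i
  · rcases i with i | i <;> rw [i] at hj
    · have : 4 * j ≤ 1 := by exact_mod_cast (by linarith : (4 * j : ℝ) ≤ 1)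
      have : (j : ℝ) ≤ 0 := by exact_mod_cast (by omega : j ≤ 0)
      linarith
    · have : 4 * j ≤ -3 := by exact_mod_cast (by linarith : (4 * j : ℝ) ≤ -3)
      have : (j : ℝ) ≤ -1 := by exact_mod_cast (by omega : j ≤ -1)
      linarith
  · linarith

section pc
variable {B σ : Finset Bs} {η : Bs → Bool} {ch : Bs → Bool → ℤ}

/-- a piece that is an interval of definite vertices -/
theorem pc_iv (H : Cw F s t z) (tz : t ≤ z) (A : Finset Bs)
    (hI : ∀ c, s < c → c ≤ t → (InV B η c ↔ x < c ∧ c ≤ y))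
    (hA : ∀ b, b ∈ A ↔ b ∈ B ∧ s ≤ b.lo ∧ b.lo < t ∧ Adj B η b) (na : ∀ a ∈ A, ¬a.arc) (h0 : s ≤ x) (h2 : y ≤ t)
    (df : Df F.w x y) {m e q : ℝ} (hm : m ≤ asum (σ \ B) B η s t fun _ => 1)
    (he : ∀ ε : ℝ, ∑ a ∈ A, ((if a.side (a.lo + 1) = η a then ε else 0) - ch a (η a) : ℝ) = ε * e - q)
    (k1 : dp B η s t v.1 v'.1 ≤ S F.w n al x y + m / 4 + (13 / 4 * e - q))
    (k2 : dp B η s t v.2 v'.2 ≤ S F.w n psi x y + m + (e - q)) : F.Pc z 0 n σ B ch s t v v' η := by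
  have e1 : ∀ φ n, ssum F.w B η s t φ n = S F.w n φ x y := fun φ n => by
    rw [ssum_eq, asum_of A hA, sum_eq_zero (s := A) fun a k => if_neg (na a k), add_zero]
    exact sum_congr (filter_congr fun c _ => ⟨fun q => (hI c (by omega) (by omega)).1 q.2.2,
      fun q => ⟨by omega, by omega, (hI c (by omega) (by omega)).2 q⟩⟩) fun _ _ => rfl
  have m4 : asum (σ \ B) B η s t (fun _ => 1 / 4) = asum (σ \ B) B η s t (fun _ => 1) / 4 := by
    simp only [asum, sum_div]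
  have l0 : ∀ f, asum F.ls B η s t f = 0 := fun f => by simp [asum, H.ls]
  refine ⟨?_, .inr fun n' tp _ => ?_⟩
  · rw [Fm.Ev, e1, l0, m4, asum_of A hA, sub_zero, he]; linarith
  · rw [Fm.Ev, ee, if_neg fun i => i.1.not_ge tz, e1, e1, l0, asum_of A hA, sub_zero, he]
    linarith [psi_le H.ok H.p1 tp h0 h2 df]

variable (H : Cw F s t z) (tz : t ≤ z) {c : ℤ}
include H tz

theorem pd_0 (df : Df F.w s t) {m : ℝ} (hm : m ≤ #(wn s t σ)) (k1 : v'.1 - v.1 ≤ S F.w n al s t + m / 4)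
    (k2 : v'.2 - v.2 ≤ S F.w n psi s t + m) : F.Pc z 0 n σ ∅ ch s t v v' η :=
  pc_iv (e := 0) (q := 0) H tz ∅ (fun c a b => by simp [InV, a, b]) (by simp) (by simp) le_rfl le_rfl df
    (by simpa [asum, wn, Adj, InV] using hm) (by simp) (by simpa [dp, InV] using k1) (by simpa [dp, InV] using k2)

theorem pd_l (h : s < x) (h' : x < t) (df : Df F.w s x) (hη : η (.sS x) = false)
    (k1 : -v.1 ≤ S F.w n al s x + c) (k2 : -v.2 ≤ S F.w n psi s x + c) :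
    F.Pc z 0 n σ {.sS x} (cf c) s t v v' η :=
  pc_iv (m := 0) (e := 0) (q := -c) H tz {.sS x} (fun c a b => by simp [InV, Bs.side, hη, a])
    (by simp +contextual [Adj, InV, Bs.lo, h.le, h']) (by simp [Bs.arc]) le_rfl h'.le df asum_nn
    (fun ε => by rw [sum_singleton]; simp [Bs.side, Bs.lo, Bs.arc, cf, hη])
    (by simpa [dp, InV, Bs.side, hη, h', h] using k1) (by simpa [dp, InV, Bs.side, hη, h', h] using k2)

theorem pd_r (h : s < x) (h' : x < t) (df : Df F.w x t) (hη : η (.sS x) = true)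
    (k1 : v'.1 ≤ S F.w n al x t + (13 / 4 - c)) (k2 : v'.2 ≤ S F.w n psi x t + (1 - c)) :
    F.Pc z 0 n σ {.sS x} (cf c) s t v v' η :=
  pc_iv (m := 0) (e := 1) (q := c) H tz {.sS x} (fun c a b => by simp [InV, Bs.side, hη, b])
    (by simp +contextual [Adj, InV, Bs.lo, h.le, h']) (by simp [Bs.arc]) h.le le_rfl df asum_nn
    (fun ε => by rw [sum_singleton]; simp [Bs.side, Bs.lo, Bs.arc, cf, hη])
    (by simpa [dp, InV, Bs.side, hη, h', h.not_ge] using k1) (by simpa [dp, InV, Bs.side, hη, h', h.not_ge] using k2)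

/-- right of a slice, an arc left of it -/
theorem pd_ar (o : x < y) (h : s < x) (h1 : y < x') (h' : x' < t) (df : Df F.w x' t) (hη : η (.sA x y) = true)
    (hη' : η (.sS x') = true) (k1 : v'.1 ≤ S F.w n al x' t + (13 / 4 - c))
    (k2 : v'.2 ≤ S F.w n psi x' t + (1 - c)) : F.Pc z 0 n σ {.sA x y, .sS x'} (cf c) s t v v' η :=
  have ne : Bs.sA x y ≠ .sS x' := nofun
  pc_iv (m := 0) (e := 1) (q := c) H tz {.sS x'} (fun c a b => by simp [InV, Bs.side, hη, hη', b]; omega)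
    (fun b => by
      rw [adj_two ne]
      simp [Bs.lo, Bs.side, hη, hη', h', show s ≤ x' by omega, show y ≤ x' by omega, show ¬x' ≤ x by omega])
    (by simp [Bs.arc]) (by omega) le_rfl df asum_nn
    (fun ε => by rw [sum_singleton]; simp [Bs.side, Bs.lo, Bs.arc, cf, hη'])
    (by simpa [dp, InV, Bs.side, hη, hη', h', h, h1.trans h', show ¬x' ≤ s by omega] using k1)
    (by simpa [dp, InV, Bs.side, hη, hη', h', h, h1.trans h', show ¬x' ≤ s by omega] using k2)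

omit tz

/-- left of a slice, outside an arc left of it -/
theorem pc_al (o : (Bs.sA x y).OK F.w) (o' : (Bs.sS x').OK F.w) (h : s < x) (h1 : y < x') (h' : x' < t)
    (hη : η (.sA x y) = true) (hη' : η (.sS x') = false)
    (k : Nq F n {.sA x y, .sS x'} η s t z (-v.1) (-v.2) (S F.w n lp s x + S F.w n lp y x' + vv F.w lp n (.sA x y))
      (S F.w n uu s x + S F.w n uu y x' + vv F.w uu n (.sA x y)) 0 0 (-3 - c)) :
    F.Pc z 0 n σ {.sA x y, .sS x'} (cf c) s t v v' η :=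
  have xy := o.1.lt
  have ne : Bs.sA x y ≠ .sS x' := nofun
  pc_ne (x := s) (y := x) (x' := y) (y' := x') H (by simp [Bs.pin, Bs.hi, o, o', h']; omega) {.sA x y, .sS x'}
    (fun c a b => by simp [InV, Bs.side, hη, hη', a]; omega)
    (fun b => by
      rw [adj_two ne]
      simp [Bs.lo, Bs.side, hη, hη', h.le, h', show s ≤ x' by omega, show x < t by omega,
        show x < x' by omega, show x ≤ x' by omega, show y ≤ x' by omega])
    le_rfl xy.le h'.le h.le h1.le (by rw [sum_pair ne]; simp [sv, Bs.arc, hη])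
    (by rw [sum_pair ne]; simp [sv, Bs.arc, hη]) asum_nn
    (by simp [dp, InV, Bs.side, hη, hη', h', h, show s < x' by omega])
    (by simp [dp, InV, Bs.side, hη, hη', h', h, show s < x' by omega])
    (fun ε => by rw [sum_pair ne]; simp [Bs.side, Bs.lo, Bs.arc, cf, hη, hη', xy]; ring) k

/-- outside two nested arcs -/
theorem pc_oo (o : (Bs.sA x y).OK F.w) (o' : (Bs.sA x' y').OK F.w) (h : s < x') (h1 : x' < x) (h2 : y < y')
    (h' : y' < t) (hη : η (.sA x y) = true) (hη' : η (.sA x' y') = true)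
    (k : Nq F n {.sA x y, .sA x' y'} η s t z (v'.1 - v.1) (v'.2 - v.2)
      (S F.w n lp s x' + S F.w n lp y' t + vv F.w lp n (.sA x' y'))
      (S F.w n uu s x' + S F.w n uu y' t + vv F.w uu n (.sA x' y')) 0 0 (-3)) :
    F.Pc z 0 n σ {.sA x y, .sA x' y'} (cf c) s t v v' η :=
  have xy := o.1.lt
  have ne : Bs.sA x y ≠ .sA x' y' := fun e => by cases e; omega
  pc_ne (x := s) (y := x') (x' := y') (y' := t) H (by simp [Bs.pin, Bs.hi, o, o', h']; omega) {.sA x' y'}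
    (fun c a b => by simp [InV, Bs.side, hη, hη', a, b]; omega)
    (fun b => by
      rw [adj_two ne]
      simp [Bs.lo, Bs.side, hη, hη', h.le, h1, h1.le, show x < y' by omega, show x' < t by omega])
    le_rfl (by omega) le_rfl h.le h'.le (by simp [sv, Bs.arc, hη']) (by simp [sv, Bs.arc, hη']) asum_nn
    (by simp [dp, InV, Bs.side, hη, hη', h', h, show y < t by omega, show s < x by omega])
    (by simp [dp, InV, Bs.side, hη, hη', h', h, show y < t by omega, show s < x by omega])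
    (fun ε => by rw [sum_singleton]; simp [Bs.side, Bs.lo, Bs.arc, cf, hη', show x' < y' by omega]) k

end pc

/-- all pieces of the broken walls `B` -/
def Wp (F : Fm Γ) (z : ℤ) (n : Wt) (s t : ℤ) (v v' : ℝ × ℝ) (B : Finset Bs) : Prop :=
  ∃ c, |c| ≤ 1 ∧ ∀ σ η, F.Pc z 0 n σ B (cf c) s t v v' η

theorem win_two {a e : Bs} {σ : Finset Bs} (ls : F.ls = ∅) (h : wn s t σ ⊆ {a, e})
    (h0 : ∀ η, F.Pc z 0 n σ ∅ (cf 0) s t v v' η) (h1 : a ∈ wn s t σ → a.pin → Wp F z n s t v v' {a})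
    (h2 : e ∈ wn s t σ → e.pin → Wp F z n s t v v' {e})
    (h3 : a ∈ wn s t σ → e ∈ wn s t σ → a ≠ e → a.pin → e.pin → Wp F z n s t v v' {a, e}) :
    F.Win z 0 n σ s t v v' := win_of ls fun A hA k => by
  have g : Wp F z n s t v v' A → ∃ c, |c| ≤ 1 ∧ ∀ η, F.Pc z 0 n σ A (cf c) s t v v' η :=
    fun ⟨c, p, q⟩ => ⟨c, p, q σ⟩
  have hA' := hA.trans h
  have one : ∀ {a e : Bs}, A ⊆ {a, e} → a ∈ A → (e ∉ A ∨ a = e) → A = {a} := fun p i j =>
    eq_singleton_iff_unique_mem.2 ⟨i, fun x q => (mem_insert.1 (p q)).elim id fun r => by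
      rw [mem_singleton] at r
      exact j.elim (fun j => (j (r ▸ q)).elim) fun j => r.trans j.symm⟩
  by_cases i : a ∈ A <;> by_cases j : e ∈ A
  · by_cases ne : a = e
    · exact g (one hA' i (.inr ne) ▸ h1 (hA i) (k a i))
    · exact g (hA'.antisymm (by simp [insert_subset_iff, i, j]) ▸ h3 (hA i) (hA j) ne (k a i) (k e j))
  · exact g (one hA' i (.inl j) ▸ h1 (hA i) (k a i))
  · exact g (one (pair_comm a e ▸ hA') j (.inl i) ▸ h2 (hA j) (k e j))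
  · rw [show A = ∅ from eq_empty_of_forall_notMem fun x q => (mem_insert.1 (hA' q)).elim (fun r => i (r ▸ q))
      fun r => j (mem_singleton.1 r ▸ q)]
    exact ⟨0, by simp, h0⟩

end Crest.Agent.X212.Nm96
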