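import Crest.Agent.X212.Nm96.Pb

/-!
# Row 212, `p = 1` (helper96), part c: turns without change of sign, their numbers, windows of a turn
-/

set_option autoImplicit false
noncomputable section

namespace Crest.Agent.X212.Nm96

open Crest.Agent.X212.Rod53 Crest.Agent.X212.Wd38 Finset Cn

variable {Γ : Nm} {w : Shp Γ} {n : Wt} {κ : Γ.ι} {u : ℕ → ℤ} {V : ℕ → Z2} {m : ℕ → ℤ} {N : ℕ} {Λ : NmL Γ}
  {x y x' y' s t z : ℤ}

/-- the word with the rods `1, …, N - 1` -/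
def pw (w : Shp Γ) (κ : Γ.ι) (u : ℕ → ℤ) (V : ℕ → Z2) (N : ℕ) : Shp Γ :=
  ⟨w.l, w.r, fun j => if u 1 ≤ j ∧ j < u N then .rod (κ, V (ix u j)) else w.s j⟩

/-- its line -/
def pn (u m : ℕ → ℤ) (N : ℕ) (n : Wt) : Wt :=
  { n with
    nl := fun j => if u 1 ≤ j ∧ j < u N then m (ix u j) else n.nl j
    nr := fun j => if u 1 ≤ j ∧ j < u N then m (ix u j) else n.nr j }

theorem pw_ag (n : Wt) : Aq w (pw w κ u V N) n (pn u m N n) fun j => j < u 1 ∨ u N ≤ j := fun j h => by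
  have : ¬(u 1 ≤ j ∧ j < u N) := by omega
  simp only [pw, pn, if_neg this, and_self]

theorem pn_chg (h : x < u 1) (h' : u N ≤ y) : Chg ∅ 0 x y (pn u m N) :=
  ⟨fun n j => ⟨fun h => if_neg (by omega), fun h => if_neg (by omega)⟩, by simp⟩

theorem p1_pw (h : P1 w) (k : ∀ i, |(V i).2| ≤ 1) : P1 (pw w κ u V N) := fun j => by
  simp only [pw]; split_ifs
  exacts [⟨k _, k _⟩, h j]

/-- the data of a turn on a constant rod -/
structure Tq (w : Shp Γ) (n : Wt) (κ : Γ.ι) (u : ℕ → ℤ) (V : ℕ → Z2) (m : ℕ → ℤ) (N : ℕ) : Prop where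
  mono : StrictMono u
  lo : w.l < u 0
  hi : u (N + 1) ≤ w.r
  pos : 1 ≤ N
  rd : Rd w n κ (V 0) (m 0) (u 0) (u (N + 1) - 1)
  uni : ∀ k < N, Uni (V k) (V (k + 1))
  vN : V N = V 0
  mN : m N = m 0

namespace Tq

variable (h : Tq w n κ u V m N)
include h

theorem pt : Pt (pw w κ u V N) (pn u m N n) κ u V m N := by
  refine ⟨h.mono, h.lo, h.hi, fun k hk j a b => ?_⟩
  have e := ix_eq h.mono a (show j < u (k + 1) by omega)
  have := h.mono.monotone k.zero_le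
  have := h.mono.monotone (Nat.add_le_add_right hk 1)
  by_cases q : u 1 ≤ j ∧ j < u N
  · simp only [pw, pn, if_pos q, e, and_self]
  · have r := (h.rd.mono (a' := j) (b' := j) (by omega) (by omega)).ag (pw_ag (κ := κ) (u := u) (V := V) (m := m)
      (N := N) n) (fun i a b => by omega) j le_rfl le_rfl
    rcases Nat.eq_zero_or_pos k with rfl | p
    · exact r
    · have := h.mono.monotone (show 1 ≤ k from p)
      obtain rfl : k = N := hk.antisymm (Nat.lt_succ_iff.1 (h.mono.lt_iff_lt.1 (show u N < u (k + 1) by omega)))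
      rw [h.vN, h.mN]; exact r

theorem ok (a : w.OK) (b : n.OK w Λ) : (pw w κ u V N).OK ∧ (pn u m N n).OK (pw w κ u V N) Λ := by
  have p := h.pt
  have pr : ∀ k ≤ N, Pr (V k) := fun k hk => by
    rcases k with _ | k
    exacts [(uni_pr (h.uni 0 h.pos)).1, (uni_pr (h.uni k hk)).2]
  have g0 : u 0 < u 1 := p.lt 0
  have g1 := p.lt N
  have := h.lo
  have := h.hi
  refine patch (x := u 1 - 1) (y := u N) a b rfl rfl (by omega) (by omega) ((pw_ag n).mono fun j q => by omega)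
    (fun j c d => ?_) fun j c d => ?_
  · obtain ⟨q, e⟩ := p.rod (j := j) (by omega) (by omega)
    have i1 := ix_le h.mono (show u 0 ≤ j by omega)
    have i2 := lt_ix h.mono j
    rw [Sc, e, p.nl q i1 i2, p.nr q i1 i2]
    exact ⟨⟨pr _ q, pr _ q⟩, fun _ _ => rfl, fun _ => nofun⟩
  · obtain ⟨q, e⟩ := p.rod (j := j - 1) (by omega) (by omega)
    have i1 := ix_le h.mono (show u 0 ≤ j - 1 by omega)
    have i2 := lt_ix h.mono (j - 1)
    generalize ix u (j - 1) = k at *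
    have e1 := congrArg Sl.r e
    rcases (show j < u (k + 1) ∨ j = u (k + 1) by omega) with c' | rfl
    · exact vc_of e1 (congrArg Sl.l (p.s q (by omega) c')) (p.nr q i1 i2) (p.nl q (by omega) c') (pr k q) rfl
        (.inl ⟨rfl, rfl⟩)
    · have q' : k + 1 ≤ N := h.mono.le_iff_le.1 d
      exact vc_of e1 (congrArg Sl.l (p.s q' le_rfl (p.lt _))) (p.nr q i1 i2) (p.nl q' le_rfl (p.lt _))
        (pr k q) rfl (.inr (.inr (h.uni k q')))

theorem cls {a : ℕ → ℤ} (a0 : a 0 = 0) (aN : a N = 0) : Tq w Wt.o κ u V a N :=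
  ⟨h.mono, h.lo, h.hi, h.pos, fun j x y => ⟨(h.rd j x y).1, a0.symm, a0.symm⟩, h.uni, h.vN, by rw [a0, aN]⟩

variable (x0 : u 0 ≤ x) (x1 : x < u 1) (yN : u N ≤ y) (y1 : y < u (N + 1))
include x0 x1 yN y1

theorem sur : (pw w κ u V N).Sur w x y :=
  have := h.mono.monotone h.pos; have := h.lo; have := h.hi
  ⟨rfl, rfl, h.pt.rg (by omega) (by omega) y1.le, ⟨by omega, by omega, by omega, fun j a b =>
    ⟨_, (h.rd j (by omega) (by omega)).1⟩⟩, fun j q => ((pw_ag (m := m) n) j (by omega)).1.symm⟩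

/-- **`RS` for a turn** -/
theorem rs (ok : w.OK) (fz : Finset Bs) {M : ℕ} (hN : N = M + 2) (A : Fin M → ℕ → ℤ) (i0 : Fin M)
    (A0 : ∀ i, A i 0 = 0 ∧ A i N = 0)
    (gr : ∀ i j, ∑ k ∈ Ioc 0 N, lb (V (k - 1)) (V k) (A i (k - 1)) (A i k) (A j (k - 1)) (A j k) =
      if i = j then -1 else 0)
    (dg : ∀ i, |∑ k ∈ Ioc 0 N, lb (V (k - 1)) (V k) (m (k - 1)) (m k) (A i (k - 1)) (A i k)| =
      if i = i0 then 0 else 1)
    {a e a' e' b b' : ℤ} {k0 k1 k0' k1' : ℕ} (p0 : x < a) (p1 : a < u (k0 + 1)) (p2 : u k1 ≤ e) (p3 : e < y)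
    (q0 : x < a') (q1 : a' < u (k0' + 1)) (q2 : u k1' ≤ e') (q3 : e' < y)
    (s : ∀ k ≤ N, k ≤ k0 ∨ k1 ≤ k → A i0 k + b * dt (V 0) (V k) = 0)
    (s' : ∀ k ≤ N, k ≤ k0' ∨ k1' ≤ k → A i0 k + b' * dt (V 0) (V k) = 0) (o : Odd (b - b')) :
    Fm.RS ⟨pw w κ u V N, fz, ∅⟩ (pn u m N n) x y (.sA a e) (.sA a' e') := by
  have c := fun i => h.cls (A0 i).1 (A0 i).2
  have su : ∀ i, Sup x y (pn u (A i) N Wt.o) := fun i j q => (pw_ag (w := w) (κ := κ) (V := V) Wt.o j (by omega)).2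
  have sup : ∀ {a e b : ℤ} {k0 k1 : ℕ}, a < u (k0 + 1) → u k1 ≤ e →
      (∀ k ≤ N, k ≤ k0 ∨ k1 ≤ k → A i0 k + b * dt (V 0) (V k) = 0) → Sup a e (cmb {i0} (fun _ => 1)
        (fun i => pn u (A i) N Wt.o) b (fib (pw w κ u V N) x y)) := fun hx hy s j q => by
    simp only [cmb, sum_singleton, fib, one_mul]
    by_cases k : x < j ∧ j < y
    · obtain ⟨p, r⟩ := h.pt.rod (j := j) (by omega) (by omega)
      have i1 := ix_le h.mono (show u 0 ≤ j by omega)
      have i2 := lt_ix h.mono j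
      simp only [if_pos k]
      rw [r, h.pt.s (Nat.zero_le _) x0 x1, (c i0).pt.nl p i1 i2, (c i0).pt.nr p i1 i2]
      have := s _ p (q.imp (fun q => Nat.lt_succ_iff.1 (h.mono.lt_iff_lt.1 (i1.trans_lt (q.trans_lt hx))))
        fun q => Nat.lt_succ_iff.1 (h.mono.lt_iff_lt.1 ((hy.trans q).trans_lt i2)))
      exact ⟨this, this⟩
    · simp [if_neg k, su i0 j (by omega)]
  refine ⟨M, fun i => pn u (A i) N Wt.o, {i0}, fun _ => 1, b, b', ?_, fun i => ⟨?_, su i⟩, fun i j => ?_,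
    fun i => ?_, by simp, by simp, by simp, by simp, trivial, trivial, p0, p3, trivial, trivial, q0, q3,
    sup p1 p2 s, sup q1 q2 s', o⟩
  · rw [card_filter, h.pt.sum h.pt (fun u u' _ _ _ _ => if dt u u' ≠ 0 then 1 else 0)
      (fun _ _ _ _ _ => by simp [Wd38.dt_self]) le_rfl x0 x1 yN y1, sum_congr rfl fun k hk => if_pos ?_]
    · simp [hN]
    · rw [mem_Ioc] at hk
      have := h.uni (k - 1) (by omega)
      rw [show k - 1 + 1 = k by omega, Uni] at this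
      omega
  · have k := ((c i).ok (Λ := ⟨fun _ _ _ => True, 0⟩) ok ⟨rfl, rfl, fun _ _ _ _ _ => rfl,
      fun _ _ _ _ _ => trivial, fun _ _ _ _ => rfl, fun _ _ _ _ => rfl⟩).2
    exact ⟨k.rod, k.eq, k.neg⟩
  · rw [← gr]
    exact (c i).pt.sum (c j).pt lb lb_self le_rfl x0 x1 yN y1
  · simp only [mem_singleton]
    rw [← dg]
    exact congrArg _ (h.pt.sum (c i).pt lb lb_self le_rfl x0 x1 yN y1)

end Tq

/-! ### numbers -/

theorem lb_d (α x y x' y' : ℤ) : lb (α + 1, 1) (α, 1) x y x' y' = -((x - y) * (x' - y') : ℤ) := by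
  simp [lb, dt, rho]; ring

theorem v_d (α x y : ℤ) : lp (α + 1, 1) (α, 1) x y = 0 ∧ uu (α + 1, 1) (α, 1) x y = 1 - (x - y) * (x - y) := by
  rw [uu, lq, lb_d]; simp [lp, lg, nn, dt]; ring

theorem v_p (α x y : ℤ) : lp (α, 1) (α + 1, 1) x y = 1 ∧ uu (α, 1) (α + 1, 1) x y = (x - y) * (x - y) - 1 := by
  simp [lp, uu, lq, lb, lg, nn, dt, rho]; ring

theorem v_l (α x y : ℤ) : lp (α, 1) (1, 0) x y = 1 / 2 ∧ uu (α, 1) (1, 0) x 1 = α - 2 * x := by
  simp [lp, uu, lq, lb, lg, nn, dt, rho]; ring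

theorem v_r (α x y : ℤ) : lp (1, 0) (α, 1) x y = 1 / 2 ∧ uu (1, 0) (α, 1) 1 y = 2 * y - α := by
  simp [lp, uu, lq, lb, lg, nn, dt, rho]; ring

theorem al_eq (a b : Z2) (x y : ℤ) : al a b x y = -3 / 4 * lp a b x y + uu a b x y / 2 := rfl

theorem S_al : S w n al x y = -3 / 4 * S w n lp x y + S w n uu x y / 2 := by
  simp only [S, vx, al_eq, sum_add_distrib, mul_sum, sum_div]

/-- the rod `o` has slope `0`, then come the slopes `1 / (β - k)`; all heights are `0` or `2`, one is `1` -/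
structure Ht (V : ℕ → Z2) (m : ℕ → ℤ) (N o sp : ℕ) (β : ℤ) : Prop where
  vo : V o = (1, 0)
  v : ∀ k, o < k → V k = (β - k, 1)
  h : ∀ k, o < k → k < N → if k + 1 = sp then m k = m (k + 1) + 1 else m k = m (k + 1) ∨ m k = m (k + 1) + 2

/-- is the special vertex in the range -/
def sx (sp k0 k1 : ℕ) : ℤ := if k0 < sp ∧ sp ≤ k1 then 1 else 0

variable {o sp k0 k1 : ℕ} {β : ℤ}

theorem Ht.d (h : Ht V m N o sp β) {k : ℕ} (hk : o < k) : V k = (β - (k + 1 : ℕ) + 1, 1) := by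
  rw [h.v k hk]; congr 1; push_cast; ring

theorem Ht.sg (h : Ht V m N o sp β) (h0 : o < k0) (h1 : k0 ≤ k1) (h2 : k1 ≤ N) :
    Sg lp V m k0 k1 = 0 ∧ Sg uu V m k0 k1 = (k1 - k0 - 2 * (m k0 - m k1) + sx sp k0 k1 : ℤ) ∧
      Sg psi V m k0 k1 = (2 * (k1 - k0) - (m k0 - m k1) - sx sp k0 k1 : ℤ) := by
  induction k1, h1 using Nat.le_induction with
  | base => simp [Sg, sx]
  | succ k hk ih =>
    obtain ⟨a1, a2, a3⟩ := ih (by omega)
    have e := h.h k (by omega) h2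
    simp only [Sg, sum_Ioc_succ_top hk, Nat.add_sub_cancel] at *
    rw [a1, a2, a3, h.d (show o < k by omega), h.v (k + 1) (by omega), psi, om, ← uu, (v_d _ _ _).1, (v_d _ _ _).2]
    have e1 : sx sp k0 (k + 1) = sx sp k0 k + if k + 1 = sp then 1 else 0 := by unfold sx; split_ifs <;> omega
    rw [e1]
    by_cases q : k + 1 = sp
    · rw [if_pos q] at e
      rw [if_pos q, e]; push_cast; norm_num; constructor <;> ring
    · rw [if_neg q] at e
      rw [if_neg q]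
      rcases e with e | e <;> rw [e] <;> push_cast <;> norm_num <;> constructor <;> ring

theorem Ht.S (h : Ht V m N o sp β) (p : Pt w n κ u V m N) (h0 : o < k0) (h1 : k0 ≤ k1) (h2 : k1 ≤ N)
    (a0 : u k0 ≤ x) (a1 : x < u (k0 + 1)) (b0 : u k1 ≤ y) (b1 : y < u (k1 + 1)) :
    S w n lp x y = 0 ∧ S w n uu x y = (k1 - k0 - 2 * (m k0 - m k1) + sx sp k0 k1 : ℤ) ∧
      S w n psi x y = (2 * (k1 - k0) - (m k0 - m k1) - sx sp k0 k1 : ℤ) ∧ Df w x y := by
  rw [p.S vn_lp h2 a0 a1 b0 b1, p.S vn_uu h2 a0 a1 b0 b1, p.S vn_psi h2 a0 a1 b0 b1]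
  obtain ⟨c1, c2, c3⟩ := h.sg h0 h1 h2
  refine ⟨c1, c2, c3, fun c q r => ?_⟩
  have := p.mono.monotone k0.zero_le
  have i1 := ix_le p.mono (show u 0 ≤ c - 1 by omega)
  have i2 := lt_ix p.mono (c - 1)
  have i3 : k0 < ix u (c - 1) + 1 := p.mono.lt_iff_lt.1 (by omega)
  have i4 : ix u (c - 1) < k1 + 1 := p.mono.lt_iff_lt.1 (by omega)
  generalize ix u (c - 1) = k at *
  rw [p.lf (k := k) (by omega) (by omega) (by omega)]
  rcases (show c < u (k + 1) ∨ c = u (k + 1) by omega) with e | rfl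
  · rw [p.rt (k := k) (by omega) (by omega) e]; exact .inl (Wd38.dt_self _)
  · have : k + 1 < k1 + 1 := p.mono.lt_iff_lt.1 (by omega)
    rw [p.rt (k := k + 1) (by omega) le_rfl (p.lt _), h.d (show o < k by omega), h.v (k + 1) (by omega)]
    exact .inr (by simp [nn, dt])

/-- the class of the sphere over the rods `o + 1, …, j` -/
def cl (o j k : ℕ) : ℤ := if o < k ∧ k ≤ j then 1 else 0

theorem Ht.pr (h : Ht V m N o sp β) (a : ℕ → ℤ) {j : ℕ} (h0 : o < j) (h1 : j < N) :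
    ∑ k ∈ Ioc 0 N, lb (V (k - 1)) (V k) (a (k - 1)) (a k) (cl o j (k - 1)) (cl o j k) =
      (a o - (a j - a (j + 1)) : ℤ) := by
  rw [sum_eq_add (o + 1) (j + 1) (by omega) (fun k hk e => ?_) (fun k => (k (mem_Ioc.2 (by omega))).elim)
    fun k => (k (mem_Ioc.2 (by omega))).elim]
  · simp only [Nat.add_sub_cancel]
    rw [h.vo, h.v (o + 1) (by omega), h.d h0, h.v (j + 1) (by omega), lb_d]
    simp [cl, h0, lb, dt, rho, Nat.succ_le_of_lt h0]; ring
  · rw [mem_Ioc] at hk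
    by_cases q : o + 1 < k
    · obtain ⟨k, rfl⟩ : ∃ k', k = k' + 1 := ⟨k - 1, by omega⟩
      rw [Nat.add_sub_cancel, h.d (show o < k by omega), h.v (k + 1) (by omega), lb_d,
        show cl o j k - cl o j (k + 1) = 0 by unfold cl; split_ifs <;> omega]
      simp
    · rw [cl, cl, if_neg (by omega), if_neg (by omega)]; simp [lb]

/-! ### twists -/

/-- the twists in the rods `j + 2, …, 3` -/
def tl (u : ℕ → ℤ) (V : ℕ → Z2) : ℕ → List Tw
  | 0 => []
  | j + 1 => twk u V (j + 2) :: tl u V j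

/-- the orders after the twists -/
def sh (j : ℕ) (m : ℕ → ℤ) (k : ℕ) : ℤ := if 3 ≤ k ∧ k ≤ j + 2 then m (k - 1) - 1 else m k

theorem tl_mem {j : ℕ} {τ : Tw} (h : τ ∈ tl u V j) : ∃ k < j, τ = twk u V (k + 2) := by
  induction j with
  | zero => simp [tl] at h
  | succ j ih =>
    rcases List.mem_cons.1 h with h | h
    exacts [⟨j, by omega, h⟩, (ih h).imp fun k q => ⟨by omega, q.2⟩]

theorem vv3 (hv : ∀ k, 1 < k → V k = (β - k, 1)) (k : ℕ) :
    Uni (V (k + 2)) (V (k + 2 + 1)) ∧ V (k + 2 + 2) = -V (k + 2) + (2 : ℤ) • V (k + 2 + 1) := by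
  rw [hv _ (by omega), hv _ (by omega), hv _ (by omega)]
  exact ⟨.inl (by simp [dt]), by ext <;> simp; ring⟩

theorem tl_acts (hv : ∀ k, 1 < k → V k = (β - k, 1)) {j : ℕ} (hj : j + 3 ≤ N) (p : Pt w n κ u V m N)
    (e : m (j + 2) = m (j + 3) + 1) : Pt w (acts w (tl u V j) n) κ u V (sh j m) N := by
  induction j generalizing n m with
  | zero => exact p.congr fun k _ => (if_neg (by omega)).symm
  | succ j ih =>
    refine (ih (by omega) (p.twk_act (k := j + 2) (by omega) (vv3 hv j).2) ?_).congr fun k _ => ?_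
    · rw [Function.update_of_ne (by omega), Function.update_self]
      simp only [add_assoc, Nat.reduceAdd] at e ⊢; omega
    · simp only [sh, Function.update_apply, add_assoc, Nat.reduceAdd] at e ⊢
      split_ifs <;> first | rfl | omega | (subst_vars; simp only [Nat.reduceSubDiff]; omega)

/-! ### windows of a turn -/

variable {F : Fm Γ} {v v' : ℝ × ℝ} {σ : Finset Bs}

/-- a window with `b⁺ = 1`, `Λ² - σ = 1` -/
structure Tw1 (F : Fm Γ) (n : Wt) (z s t : ℤ) (v v' : ℝ × ℝ) : Prop where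
  cw : Cw F s t z
  tz : t ≤ z
  elp : S F.w n lp s t = 1
  euu : S F.w n uu s t = 1
  le : v' ≤ v

/-- an arc with `In1` -/
structure Ar (F : Fm Γ) (n : Wt) (s t x y : ℤ) : Prop where
  ok : (Bs.sA x y).OK F.w
  lo : s < x
  hi : y < t
  i : In1 F.w n x y

/-- a slice with charge `c`, definite on the right -/
structure Sc1 (F : Fm Γ) (n : Wt) (s t x : ℤ) (v v' : ℝ × ℝ) (c U : ℤ) : Prop where
  ok : (Bs.sS x).OK F.w
  lo : s < x
  hi : x < t
  hc : |c| ≤ 1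
  df : Df F.w x t
  elp : S F.w n lp x t = 0
  euu : S F.w n uu x t = U
  l1 : 1 + 2 * (U : ℝ) - 4 * c ≤ 4 * v.1
  l2 : (5 + U - 2 * c - 3 * ((1 - U) % 4) : ℤ) ≤ 2 * v.2
  r1 : 4 * v'.1 ≤ 2 * U + 13 - 4 * c
  r2 : v'.2 ≤ S F.w n psi x t + (1 - c)

theorem Ar.out (A : Ar F n s t x y) {t' : ℤ} (h : y ≤ t') :
    S F.w n lp s x + S F.w n lp y t' + vv F.w lp n (.sA x y) = S F.w n lp s t' ∧
      S F.w n uu s x + S F.w n uu y t' + vv F.w uu n (.sA x y) = S F.w n uu s t' - 1 := by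
  have xy := A.ok.1.lt
  rw [S_cut A.lo.le (xy.le.trans h), S_cut xy.le h, S_cut (φ := uu) A.lo.le (xy.le.trans h), S_cut xy.le h]
  exact ⟨by linarith [A.i.1], by linarith [A.i.2]⟩

namespace Tw1

variable (h : Tw1 F n z s t v v') {c U : ℤ}
include h

theorem p0 (k : (wn s t σ).Nonempty) (η : Bs → Bool) : F.Pc z 0 n σ ∅ (cf 0) s t v v' η :=
  pc_0 (m := 1) h.cw (by exact_mod_cast k.card_pos) (by
    rw [h.elp, h.euu]
    exact ⟨by linarith [h.le.1], .inr ⟨1, .inr ⟨.inr h.tz, rr1⟩, by linarith [h.le.2]⟩⟩)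

theorem nq (B : Finset Bs) (η : Bs → Bool) : Nq F n B η s t z (v'.1 - v.1) (v'.2 - v.2) 1 (1 - 1) 0 0 (-3) :=
  ⟨by linarith [h.le.1], .inr ⟨0, .inl rfl, by linarith [h.le.2]⟩⟩

theorem a (A : Ar F n s t x y) : Wp F z n s t v v' {.sA x y} := ⟨0, by simp, fun σ η => by
  cases e : η (.sA x y)
  · exact pc_in h.cw (by simpa [Bs.pin] using ⟨A.ok, A.hi⟩) (mem_singleton_self _) A.lo e A.i _ (by simp)
  · exact pc_o h.cw A.ok A.lo A.hi e (by rw [(A.out A.hi.le).1, (A.out A.hi.le).2, h.elp, h.euu]; exact h.nq _ _)⟩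

theorem aa (A : Ar F n s t x y) (A' : Ar F n s t x' y') (h1 : x' < x) (h2 : y < y') :
    Wp F z n s t v v' {.sA x y, .sA x' y'} := ⟨0, by simp, fun σ η => by
  have xy := A.ok.1.lt
  cases e : η (.sA x y)
  · exact pc_in h.cw (by simpa [Bs.pin] using ⟨⟨A.ok, A.hi⟩, A'.ok, A'.hi⟩) (by simp) A.lo e A.i _
      (by simp [Bs.hi, Bs.lo, Bs.arc, h1, h2])
  cases e' : η (.sA x' y')
  · refine pc_aa h.cw A.ok A'.ok A'.lo h1 h2 A'.hi e e' ?_
    obtain ⟨a1, a2⟩ := (⟨A.ok, h1, h2, A.i⟩ : Ar F n x' y' x y).out h2.le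
    rw [← add_sub_assoc, ← add_sub_assoc, a1, a2, A'.i.1, sub_right_comm, A'.i.2]
    exact ⟨by norm_num, .inr ⟨0, .inl rfl, by norm_num⟩⟩
  · exact pc_oo h.cw A.ok A'.ok A'.lo h1 h2 A'.hi e e'
      (by rw [(A'.out A'.hi.le).1, (A'.out A'.hi.le).2, h.elp, h.euu]; exact h.nq _ _)⟩

variable (B : Sc1 F n s t x v v' c U)
include B

theorem lft : S F.w n lp s x = 1 ∧ S F.w n uu s x = (1 - U : ℤ) := by
  have a1 := h.elp
  have a2 := h.euu
  rw [S_cut B.lo.le B.hi.le] at a1 a2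
  push_cast
  exact ⟨by linarith [B.elp], by linarith [B.euu]⟩

omit h in
theorem rgt : v'.1 ≤ S F.w n al x t + (13 / 4 - c) := by rw [S_al, B.elp, B.euu]; linarith [B.r1]

theorem sl : Wp F z n s t v v' {.sS x} := ⟨c, B.hc, fun σ η => by
  cases e : η (.sS x)
  · refine pc_l h.cw B.ok B.lo B.hi e ?_
    rw [(h.lft B).1, (h.lft B).2]
    have := B.l2
    exact ⟨by push_cast; linarith [B.l1], .inr ⟨_, .inr ⟨.inr h.tz, rr_int _⟩, by push_cast at *; linarith⟩⟩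
  · exact pd_r h.cw h.tz B.lo B.hi B.df e (rgt B) B.r2⟩

theorem as (A : Ar F n s t x' y') (k : y' < x) : Wp F z n s t v v' {.sA x' y', .sS x} := ⟨c, B.hc, fun σ η => by
  have xy := A.ok.1.lt
  cases e : η (.sA x' y')
  · exact pc_in h.cw (by simpa [Bs.pin] using ⟨⟨A.ok, A.hi⟩, B.ok, B.hi⟩) (by simp) A.lo e A.i _
      (by simp [Bs.lo, k])
  cases e' : η (.sS x)
  · refine pc_al h.cw A.ok B.ok A.lo k B.hi e e' ?_
    rw [(A.out k.le).1, (A.out k.le).2, (h.lft B).1, (h.lft B).2, show ((1 - U : ℤ) : ℝ) - 1 = (-U : ℤ) by simp]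
    have := B.l2
    have : (((1 - U) % 4 : ℤ) : ℝ) ≤ (-U % 4 + 1 : ℤ) := Int.cast_le.2 (by omega)
    exact ⟨by push_cast; linarith [B.l1], .inr ⟨_, .inr ⟨.inr h.tz, rr_int _⟩, by push_cast at *; linarith⟩⟩
  · exact pd_ar h.cw h.tz xy A.lo k B.hi B.df e e' (rgt B) B.r2⟩

end Tw1

end Crest.Agent.X212.Nm96
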