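import Crest.Agent.X212.Nm96.Pc

/-!
# Row 212, `p = 1` (helper96), part d: the states of the walk
-/

set_option autoImplicit false
noncomputable section

namespace Crest.Agent.X212.Nm96

open Crest.Agent.X212.Rod53 Crest.Agent.X212.Wd38 Finset Cn

variable {Γ : Nm}

variable (Γ) in
/-- the fixed tail -/
structure Fx where
  F : Fm Γ
  n : Wt
  A : Finset Bs
  z : ℤ
  b : ℤ

/-- right of the gap: definite up to `b`, couplings `g 0 < … < g (K - 1)`, the tail is fixed -/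
structure Am (X : Fx Γ) (F : Fm Γ) (n : Wt) (y : ℤ) (K : ℕ) (g : ℕ → ℤ) (c : Cn) : Prop where
  cb : F.Cut X.b
  df : Df F.w y X.b
  g1 : ∀ i < K, y < g i ∧ g i ≤ X.b ∧ F.Cut (g i)
  g2 : ∀ i, i + 1 < K → g i < g (i + 1)
  r : F.w.r = X.F.w.r
  aq : Aq X.F.w F.w X.n n (X.b ≤ ·)
  twf : ∀ a ∈ F.fz, X.b < a.lo → a ∈ X.A
  twc : ∀ a ∈ c.walls, X.b < a.b.lo → a.b ∈ X.A

/-- **the state**: the rod `v` of order `μ` on the gap `[x, y]` -/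
structure St (P : Pm Γ) (T : WTh Γ) (κ : Γ.ι) (X : Fx Γ) (v : Z2) (μ : ℤ) (k : ℝ) (F : Fm Γ) (n : Wt) (x y Q : ℤ)
    (K : ℕ) (g : ℕ → ℤ) (d : ℕ) (c : Cn) : Prop where
  fr : Fr P F n X.z x y X.b
  cx : F.Cut x
  cy : F.Cut y
  fz : ∀ a ∈ F.fz, a.lo ≤ x ∨ y ≤ a.lo
  rd : Rd F.w n κ v μ x y
  am : Am X F n y K g c
  q : -2 ≤ Q ∧ Q ≤ 5
  cc : Cc P F n X.z x y X.b ((13 - Q) / 4, k) Q K g d c
  ne : T.Z F d c ≠ 0

/-- the rods of the turn on `(-i, 1)` -/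
def VT (q i k : ℕ) : Z2 := if k = 0 then (-(i : ℤ), 1) else if k = 1 then (1, 0) else ((q : ℤ) + 2 - k, 1)

/-- its orders -/
def mu (q i tL tR k : ℕ) : ℤ := if k = 0 ∨ k = q + i + 2 then q - i else if k = 1 then 1 else
  q - i + 1 + 2 * (tL + tR) - 2 * (min (k - 2) tL + min (k - (q + 2)) tR : ℕ)

/-- **terminal states**: `a = u 1 + 4`, `h = u 2 + 1`, `s = u (q + 2) + 4`; the type is `(i, tL, tR, Q)` -/
structure Tr (P : Pm Γ) (T : WTh Γ) (κ : Γ.ι) (X : Fx Γ) (q i tL tR : ℕ) (Q : ℤ) (F : Fm Γ) (n : Wt) (u : ℕ → ℤ)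
    (K : ℕ) (g : ℕ → ℤ) (d : ℕ) (c : Cn) : Prop where
  i1 : 1 ≤ i ∧ i ≤ q ∧ tL ≤ q ∧ tR < i
  st : St P T κ X (q, 1) (mu q i tL tR 2) 5 F n (u 2 + 1) (u 3 - 2) Q K g d c
  pt : Pt F.w n κ u (VT q i) (mu q i tL tR) (q + i + 2)
  gap : ∀ k, u k + 8 ≤ u (k + 1)
  hi : u (q + i + 2) < X.b
  fa : .yS (u 1 + 4) ∈ F.fz
  side : ∀ a ∈ c.walls.image Wl.b ∪ F.fz,
    a = .yS (u 1 + 4) ∨ a = .yS (u 2 + 1) ∨ a.hi < u 1 + 4 ∨ u 2 + 1 < a.lo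
  s : ↑(Bs.sS (u (q + 2) + 4)) ∈ c.walls
  nl : ∀ p ∈ c.support, ∃ v v', F.Win X.z 0 n (p.2.image Wl.b) (F.w.l - 1) (u 1 + 4) v v' ∧
    v'.1 + S F.w n al (u 1 + 4) (u 2 + 1) = (13 - Q) / 4

/-- the head has a fixed length -/
def Off (q : ℕ) (u : ℕ → ℤ) : Prop := ∀ k, 1 ≤ k → k ≤ q + 2 → u k = u 1 + 8 * (k - 1 : ℤ)

/-- TERMINAL: no terminal state of a given type with many letters -/
def TrStmt : Prop := ∀ {Γ : Nm} (P : Pm Γ) (T : WTh Γ) (κ : Γ.ι) (X : Fx Γ) (q i tL tR : ℕ) (Q : ℤ),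
  Tm38.FactW P T → ∃ N₀, ∀ F n u K g d c, N₀ ≤ K → Off q u → ¬Tr P T κ X q i tL tR Q F n u K g d c

/-- ENTRY: long rods `(q, 1)` in front of a fixed tail -/
def EnStmt : Prop := ∀ {Γ : Nm} (P : Pm Γ) (T : WTh Γ) (κ : Γ.ι) (c ci : Γ.J) (q : ℕ), 1 ≤ q → Ax0 P T →
  Ent P κ c ci → ∃ X : Fx Γ, ∀ L, ∃ μ F n x y Q d c, St P T κ X (q, 1) μ 5 F n x y Q 0 (fun _ => 0) d c ∧ x + L ≤ y

variable {q i tL tR : ℕ}

theorem ht_mu (hL : tL ≤ q) (hR : tR < i) :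
    Ht (VT q i) (mu q i tL tR) (q + i + 2) 1 (q + i + 2) (q + 2) :=
  ⟨rfl, fun k h => by rw [VT, if_neg (by omega), if_neg (by omega)], fun k h h' => by
    have a : min (k + 1 - 2) tL + min (k + 1 - (q + 2)) tR = min (k - 2) tL + min (k - (q + 2)) tR ∨
      min (k + 1 - 2) tL + min (k + 1 - (q + 2)) tR = min (k - 2) tL + min (k - (q + 2)) tR + 1 := by omega
    have b : k + 1 = q + i + 2 → min (k - 2) tL + min (k - (q + 2)) tR = tL + tR := by omega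
    unfold mu
    generalize min (k + 1 - 2) tL + min (k + 1 - (q + 2)) tR = A at *
    generalize min (k - 2) tL + min (k - (q + 2)) tR = B at *
    rw [if_neg (show ¬(k = 0 ∨ _) by omega), if_neg (show k ≠ 1 by omega)]
    by_cases e : k + 1 = q + i + 2
    · rw [if_pos e, if_pos (.inr e)]; omega
    · rw [if_neg e, if_neg (by omega), if_neg (by omega)]; omega⟩

variable {P : Pm Γ} {X : Fx Γ} {F F' : Fm Γ} {n n' : Wt} {x y y' : ℤ} {K : ℕ} {g : ℕ → ℤ} {c c' : Cn}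

theorem Am.tr (h : Am X F n y K g c) (yb : y ≤ X.b) (r : F'.w.r = F.w.r) (e : Aq F.w F'.w n n' (y ≤ ·))
    (f : F.fz ⊆ F'.fz) (f' : ∀ a ∈ F'.fz, a ∈ F.fz ∨ a.lo ≤ y) (h1 : y' ≤ y) (df : Df F'.w y' y)
    (w : ∀ a ∈ c'.walls, a ∈ c.walls ∨ a.b.lo ≤ y) : Am X F' n' y' K g c' :=
  have cut : ∀ j, y ≤ j → F.Cut j → F'.Cut j := fun j p k => ⟨f k.1, (e j p).1 ▸ k.2⟩
  ⟨cut _ yb h.cb, df.trans fun j p q => by
      rw [Shp.lf, Shp.rt, (e j p.le).1, (e (j - 1) (by simp only; omega)).1]; exact h.df j p q,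
    fun i k => ⟨h1.trans_lt (h.g1 i k).1, (h.g1 i k).2.1, cut _ (h.g1 i k).1.le (h.g1 i k).2.2⟩, h.g2,
    r.trans h.r, h.aq.trans (e.mono fun _ q => yb.trans q),
    fun a k q => (f' a k).elim (h.twf a · q) fun i => by omega,
    fun a k q => (w a k).elim (h.twc a · q) fun i => by omega⟩

/-- one more coupling -/
def gs (y : ℤ) (g : ℕ → ℤ) : ℕ → ℤ
  | 0 => y
  | i + 1 => g i

theorem cnt_gs (u : ℤ) : cnt (gs y g) (K + 1) u = cnt g K u + if u < y then 1 else 0 := by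
  rw [cnt, cnt, card_filter, card_filter, sum_range_succ']; rfl

theorem Am.gs (h : Am X F n y K g c) (h' : Am X F n y' K g c') (lt : y' < y) (yb : y ≤ X.b) (cy : F.Cut y) :
    Am X F n y' (K + 1) (gs y g) c' :=
  { h' with
    g1 := fun i k => match i with
      | 0 => ⟨lt, yb, cy⟩
      | i + 1 => h'.g1 i (by omega)
    g2 := fun i k => match i with
      | 0 => (h.g1 0 (by omega)).1
      | i + 1 => h.g2 i (by omega) }

theorem Am.cnt (h : Am X F n y K g c) {u : ℤ} (k : u ≤ y) : cnt g K u = K := by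
  rw [Nm96.cnt, filter_true_of_mem fun i q => k.trans_lt (h.g1 i (mem_range.1 q)).1, card_range]

theorem walls_mp (f : Wt → Wt) : ∀ a ∈ (c.mp f id ∅).walls, a ∈ c.walls := fun a k => by
  obtain ⟨_, hq, i⟩ := mem_walls.1 k
  obtain ⟨p, hp, rfl⟩ := mem_mp hq
  exact mem_walls.2 ⟨p, hp, by simpa using i⟩

theorem walls_J {a e i : Wl} (k : i ∈ (J a e c).walls) : i ∈ c.walls ∨ i = a ∨ i = e := by
  obtain ⟨_, hq, j⟩ := mem_walls.1 k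
  obtain ⟨p, hp, rfl | rfl⟩ := mem_J hq <;> rcases mem_insert.1 j with j | j
  exacts [.inr (.inl j), .inl (mem_walls.2 ⟨p, hp, j⟩), .inr (.inr j), .inl (mem_walls.2 ⟨p, hp, j⟩)]

end Crest.Agent.X212.Nm96
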