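import Crest.Agent.X212.Nm96.Pd

/-!
# Row 212, `p = 1` (helper96), part e: tools for one turn
-/

set_option autoImplicit false
noncomputable section

namespace Crest.Agent.X212.Nm96

open Crest.Agent.X212.Rod53 Crest.Agent.X212.Wd38 Finset Cn

variable {Γ : Nm} {P : Pm Γ} {T : WTh Γ} {F : Fm Γ} {w : Shp Γ} {n : Wt} {κ : Γ.ι} {u m : ℕ → ℤ} {V : ℕ → Z2}
  {x y z b s t x' y' β Q Q' : ℤ} {N o sp k q i d K : ℕ} {ts : List Tw} {v v' vL : ℝ × ℝ} {a e : Wl} {σ : Finset Bs}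
  {c : Cn} {ρ : Finset Wl} {g : ℕ → ℤ}

theorem Ax0_ne (X : Ax0 P T) (cl : F.Cl P d c) (h : T.Z F d c ≠ 0) : c.support.Nonempty := by
  refine Finsupp.support_nonempty_iff.2 fun e => h ?_
  subst e
  have := X.add F d 0 0 cl cl
  rw [add_zero] at this
  exact this.trans (CharTwo.add_self_eq_zero _)

theorem Ht.sh {j : ℕ} (h : Ht V m (j + 4) 1 (j + 4) β) : Ht V (sh (j + 1) m) (j + 4) 1 3 β :=
  ⟨h.vo, h.v, fun k p q => by
    have a := h.h (j + 3) (by omega) (by omega)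
    rw [if_pos rfl] at a
    have e : Nm96.sh (j + 1) m (k + 1) = m k - 1 := by
      unfold Nm96.sh
      split_ifs
      · rfl
      · obtain rfl : k = j + 3 := by omega
        omega
    rw [e, Nm96.sh]
    by_cases r : k = 2
    · rw [if_pos (by omega), if_neg (by omega)]; omega
    · have := h.h (k - 1) (by omega) (by omega)
      rw [if_neg (by omega), show k - 1 + 1 = k by omega] at this
      rw [if_neg (by omega), if_pos (by omega)]; omega⟩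

/-- from the rod of slope `0` -/
theorem Ht.s1 (h : Ht V m N o sp β) (p : Pt w n κ u V m N) (m1 : m o = 1) (hk : o < k) (hk' : k ≤ N)
    (a0 : u o ≤ x) (a1 : x < u (o + 1)) (b0 : u k ≤ y) (b1 : y < u (k + 1)) :
    Wd38.S w n lp x y = 1 / 2 ∧ Wd38.S w n uu x y = (2 * m k - (β - k) + sx sp (o + 1) k : ℤ) := by
  have := p.mono.monotone (show o + 1 ≤ k from hk)
  have l := p.lt (o + 1)
  obtain ⟨c1, c2, -⟩ := h.S p (k0 := o + 1) (by omega) hk hk' le_rfl l b0 b1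
  rw [S_cut a1.le (by omega), S_cut (φ := uu) a1.le (by omega), c1, c2, p.S vn_lp (by omega) a0 a1 le_rfl l,
    p.S vn_uu (by omega) a0 a1 le_rfl l, Nat.Ioc_succ_singleton, sum_singleton, sum_singleton, Nat.add_sub_cancel,
    h.vo, h.v _ (by omega), m1, (v_r _ _ _).1, (v_r _ 0 _).2]
  push_cast
  exact ⟨by ring, by ring⟩

theorem Ht.ar (h : Ht V m N o sp β) (p : Pt F.w n κ u V m N) (m1 : m o = 1) (hk : o < k) (hk' : k ≤ N)
    (a0 : u o ≤ x) (a1 : x < u (o + 1)) (b0 : u k ≤ y) (b1 : y < u (k + 1)) (e : sx sp (o + 1) k = 1)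
    (lo : s < x) (hi : y < t) : Ar F n s t x y := by
  have := p.mono.monotone (show o + 1 ≤ k from hk)
  obtain ⟨c1, c2⟩ := h.s1 p m1 hk hk' a0 a1 b0 b1
  refine ⟨p.okA (by omega) a0 a1 hk' b0 b1 (by omega) (by rw [h.vo, h.v k hk]; exact .inl (by simp [dt])), lo, hi, ?_⟩
  rw [In1, c1, c2, p.vv (by omega) hk' a0 a1 b0 b1, p.vv (by omega) hk' a0 a1 b0 b1, h.vo, h.v k hk, m1,
    (v_r _ _ _).1, (v_r _ 0 _).2, e]
  push_cast
  exact ⟨by ring, by ring⟩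

/-- from the first rod of a turn -/
theorem Ht.s0 (h : Ht (VT q i) m N 1 sp (q + 2)) (p : Pt w n κ u (VT q i) m N) (m1 : m 1 = 1) (hk : 1 < k)
    (hk' : k ≤ N) (a0 : u 0 ≤ x) (a1 : x < u 1) (b0 : u k ≤ y) (b1 : y < u (k + 1)) :
    Wd38.S w n lp x y = 1 ∧ Wd38.S w n uu x y = (-i - 2 * m 0 + (2 * m k - (q + 2 - k) + sx sp 2 k) : ℤ) := by
  have := p.mono.monotone hk.le
  have l := p.lt 1
  obtain ⟨c1, c2⟩ := h.s1 p m1 hk hk' le_rfl l b0 b1
  rw [S_cut a1.le (by omega), S_cut (φ := uu) a1.le (by omega), c1, c2, p.S vn_lp (by omega) a0 a1 le_rfl l,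
    p.S vn_uu (by omega) a0 a1 le_rfl l, show Ioc 0 1 = {1} from rfl, sum_singleton, sum_singleton, m1]
  change lp (-(i : ℤ), 1) (1, 0) _ _ + _ = _ ∧ uu (-(i : ℤ), 1) (1, 0) _ _ + _ = _
  rw [(v_l _ _ _).1, (v_l _ _ 0).2]
  push_cast
  exact ⟨by ring, by ring⟩

/-! ### filling the gap -/

/-- no frozen slice inside -/
def Fz (F : Fm Γ) (x y : ℤ) : Prop := ∀ f ∈ F.fz, f.hi ≤ x ∨ y ≤ f.lo

theorem fz_of (ok : F.OK P) (h : ∀ a ∈ F.fz, a.lo ≤ x ∨ y ≤ a.lo) : Fz F x y := fun f k => by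
  obtain ⟨-, j, rfl⟩ := ok.fz f k
  exact h _ k

/-- a wall inside -/
structure Wa (F : Fm Γ) (x y : ℤ) (ts : List Tw) (a : Wl) : Prop where
  ok : a.b.OK F.w
  lo : x < a.b.lo
  hi : a.b.hi < y
  tw : a.tw = ts ∨ (a.tw = [] ∧ ∀ τ ∈ ts, τ.Off a.b)

theorem Ar.wa (A : Ar F n s t x y) : Wa F s t ts ⟨.sA x y, ts⟩ := ⟨A.ok, A.lo, A.hi, .inl rfl⟩

theorem Sc1.wa {c U : ℤ} (A : Sc1 F n s t x v v' c U) : Wa F s t ts ⟨.sS x, ts⟩ := ⟨A.ok, A.lo, A.hi, .inl rfl⟩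

theorem inn_two (ls : F.ls = ∅) (fz : Fz F x y) (h : ∀ τ ∈ ts, τ.OK F.w ∧ x < τ.x ∧ τ.y < y) (ha : Wa F x y ts a)
    (he : Wa F x y ts e) (far : a = e ∨ a.b.Far e.b) : Inn F x y ts {a, e} := by
  have w : ∀ i ∈ ({a, e} : Finset Wl), Wa F x y ts i := by simpa using ⟨ha, he⟩
  have pf := Fm.pops_full (σ := {a, e}) ls (fun τ k => ⟨(h τ k).1, fun f i => by
    have := fz f i; have := h τ k; unfold Tw.Off; omega⟩) fun i k => (w i k).tw
  have sy : a.b.Far e.b → e.b.Far a.b := by unfold Bs.Far; tauto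
  have ne : a.b.Far e.b → a.b ≠ e.b := fun k q => by
    have := lo_ne (wf_of_ok ha.ok).1 (wf_of_ok he.ok).1 k
    rw [q] at this; omega
  refine ⟨fun i p j r k => ?_, fun i k => ⟨(w i k).ok, (w i k).lo, (w i k).hi⟩, fun i p j r k => ?_,
    fun i k f r => by have := fz f r; have := (w i k).lo; have := (w i k).hi; unfold Bs.Far; omega,
    fun τ k => (h τ k).2, pf.1, pf.2⟩
  · simp only [coe_insert, coe_singleton, Set.mem_insert_iff, Set.mem_singleton_iff] at p r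
    rcases p with rfl | rfl <;> rcases r with rfl | rfl
    exacts [rfl, far.elim id fun f => (ne f k).elim, far.elim Eq.symm fun f => (ne f k.symm).elim, rfl]
  · simp only [image_insert, image_singleton, mem_insert, mem_singleton] at p r
    rcases p with rfl | rfl <;> rcases r with rfl | rfl
    exacts [(k rfl).elim, far.elim (fun f => (k (f ▸ rfl)).elim) id, far.elim (fun f => (k (f ▸ rfl)).elim) sy,
      (k rfl).elim]

theorem inn_one (ls : F.ls = ∅) (fz : Fz F x y) (h : ∀ τ ∈ ts, τ.OK F.w ∧ x < τ.x ∧ τ.y < y) (ha : Wa F x y ts a) :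
    Inn F x y ts {a} := pair_eq_singleton a ▸ inn_two ls fz h ha ha (.inl rfl)

theorem Inn.mono (I : Inn F x' y' ts ρ) (h : x ≤ x') (h' : y' ≤ y) : Inn F x y ts ρ :=
  { I with
    ok := fun a k => ⟨(I.ok a k).1, h.trans_lt (I.ok a k).2.1, (I.ok a k).2.2.trans_le h'⟩
    tw := fun a k => ⟨h.trans_lt (I.tw a k).1, (I.tw a k).2.trans_le h'⟩ }

theorem Tw1.win1 {a : Bs} (h : Tw1 F n z s t v v') (k : wn s t σ = {a}) (W : a.pin → Wp F z n s t v v' {a}) :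
    F.Win z 0 n σ s t v v' :=
  win_two (a := a) (e := a) h.cw.ls (by simp [k]) (h.p0 (by simp [k])) (fun _ => W) (fun _ => W) fun _ _ q => (q rfl).elim

theorem Tw1.fi1 (h : Tw1 F (acts F.w ts n) z x y v v') (I : Inn F x y ts {a}) (p : a.b.pin)
    (W : Wp F z (acts F.w ts n) x y v v' {a.b}) : Fi F n z x y v v' {a} :=
  ⟨ts, I, by simpa using ⟨okn_of_pin p, okn_of_pin p, .inl p⟩, fun _ k => h.win1 (by simpa using k) fun _ => W⟩

theorem Tw1.fi2 (h : Tw1 F (acts F.w ts n) z x y v v') (I : Inn F x y ts {a, e}) (p : a.b.pin) (p' : e.b.pin)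
    (W : Wp F z (acts F.w ts n) x y v v' {a.b}) (W' : Wp F z (acts F.w ts n) x y v v' {e.b})
    (W2 : Wp F z (acts F.w ts n) x y v v' {a.b, e.b}) : Fi F n z x y v v' {a, e} :=
  ⟨ts, I, by simpa using ⟨⟨okn_of_pin p, okn_of_pin p, .inl p⟩, okn_of_pin p', okn_of_pin p', .inl p'⟩,
    fun _ k => win_two h.cw.ls (by simp [k]) (h.p0 (by simp [k])) (fun _ _ => W) (fun _ _ => W') fun _ _ _ _ _ => W2⟩

theorem Tw1.fiR {x₁ y₁ : ℤ} (h : Tw1 F n z x y v v') (fz : Fz F x y) (A : Ar F n x y x₁ y₁)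
    (o : (Bs.rA x' y').OK F.w) (o' : (Bs.rA x' y').OKn F.w n) (h0 : x < x') (h1 : x' < x₁) (h2 : y₁ < y')
    (h3 : y' < y) : Fi F n z x y v v' {↑(Bs.rA x' y'), ↑(Bs.sA x₁ y₁)} :=
  ⟨[], inn_two h.cw.ls fz (by simp) ⟨o, h0, h3, .inl rfl⟩ A.wa (.inr (.inr (.inr (.inl ⟨trivial, h1, h2, trivial⟩)))),
    by simpa [acts] using ⟨o', trivial⟩, fun _ k => win_two (a := .rA x' y') (e := .sA x₁ y₁) h.cw.ls (by simp [k])
      (h.p0 (by simp [k])) (fun _ => False.elim) (fun _ _ => h.a A) fun _ _ _ => False.elim⟩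

/-- no vertex -/
def Ft (w : Shp Γ) (s t : ℤ) : Prop := ∀ c, s < c → c ≤ t → dt (w.lf c) (w.rt c) = 0

theorem ft_rd {τ : Z2} {μ : ℤ} (h : Rd w n κ τ μ s t) : Ft w s t := fun c p q => by
  rw [Shp.lf, Shp.rt, (h c p.le q).1, (h (c - 1) (by omega) (by omega)).1]; exact Wd38.dt_self _

theorem Ft.df (h : Ft w s t) : Df w s t := fun c p q => .inl (h c p q)

theorem Ft.S {φ : Z2 → Z2 → ℤ → ℤ → ℝ} (h : Ft w s t) (k : Vn φ) : S w n φ s t = 0 :=
  S_zero k fun c p q _ _ => h c p q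

theorem win_df (H : Cw F s t z) (tz : t ≤ z) (df : Df F.w s t) (k1 : v'.1 - v.1 ≤ S F.w n al s t)
    (k2 : v'.2 - v.2 ≤ S F.w n psi s t) (k : ∀ a ∈ wn s t σ, ¬a.pin) : F.Win z 0 n σ s t v v' :=
  win_of H.ls fun B hB hp => by
    rw [show B = ∅ from eq_empty_of_forall_notMem fun a q => k a (hB q) (hp a q)]
    exact ⟨0, by simp, fun η => pd_0 (m := 0) H tz df (Nat.cast_nonneg _) (by linarith) (by linarith)⟩

theorem win_ft (H : Cw F s t z) (tz : t ≤ z) (f : Ft F.w s t) (le : v' ≤ v) (k : ∀ a ∈ wn s t σ, ¬a.pin) :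
    F.Win z 0 n σ s t v v' :=
  win_df H tz f.df (by rw [f.S vn_al]; linarith [le.1]) (by rw [f.S vn_psi]; linarith [le.2]) k

theorem fi_ft (H : Cw F s t z) (tz : t ≤ z) (f : Ft F.w s t) (le : v' ≤ v) : Fi F n z s t v v' ∅ :=
  ⟨[], inn_empty, by simp, fun _ k => win_ft H tz f le (by simp [k])⟩

theorem win_hg (ls : F.ls = ∅) (h : wn s t σ = ∅) (Y : F.Y0 n y) (h1 : s ≤ y) (h2 : y ≤ t)
    (k : v'.1 - v.1 ≤ S F.w n al s t) : F.Win z 0 n σ s t v v' := win_of ls fun B hB _ => by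
  rw [subset_empty.1 (h ▸ hB : B ⊆ ∅)]
  refine ⟨0, by simp, fun η => ⟨?_, .inl ⟨y, h1, h2, Y.1, Y.2.1, Y.2.2, by simp [InV]⟩⟩⟩
  have e : ssum F.w ∅ η s t al n = S F.w n al s t := by
    rw [ssum_eq]; simp only [asum, filter_empty, sum_empty, add_zero]
    exact sum_congr (filter_congr fun c _ => by simp [InV]) fun _ _ => rfl
  have : 0 ≤ asum (σ \ ∅) ∅ η s t fun _ => 1 / 4 := sum_nonneg fun _ _ => by norm_num
  rw [Fm.Ev, e, ls]
  simp only [dp, InV, notMem_empty, false_imp_iff, implies_true, if_true, asum, filter_empty, sum_empty] at this ⊢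
  linarith

theorem vQ_le {k : ℝ} (h : 0 ≤ k) : vQ Q ≤ (((13 - Q) / 4 : ℝ), k) := ⟨by simp only [vQ]; linarith, h⟩

/-- a slice in a definite window becomes a wall of the right side -/
theorem Gd.sig {σ : Finset Wl} {c U U' : ℤ} (h : Gd P F n z x y b vL Q K g σ) (H : Fr P F n z x y b)
    (cw : Cw F y' y z) (h1 : x ≤ y') (fz : Fz F y' y) (ht : ∀ τ ∈ ts, τ.OK F.w ∧ y' < τ.x ∧ τ.y < y)
    (B : Sc1 F (acts F.w ts n) x y s v (vQ Q) c U) (lo : y' < s) (df : Df F.w y' s)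
    (e1 : S F.w (acts F.w ts n) lp y' s = 0) (e2 : S F.w (acts F.w ts n) uu y' s = U')
    (e3 : 0 ≤ S F.w (acts F.w ts n) psi y' s) (e4 : 0 ≤ S F.w (acts F.w ts n) psi s y) (c0 : 0 ≤ c)
    (q1 : Q' = Q + 2 * (U' + U) + 1) (q2 : -3 ≤ Q + 2 * U) (q3 : Q + 2 * U ≤ 9) (q4 : Q + 2 * U - 4 * c ≤ 8)
    (hg : ∀ j, j ≤ y → cnt g K j = K) :
    Gd P F n z x y' b vL Q' (K + 1) (gs y g) (σ ∪ {⟨.sS s, ts⟩}) := by
  have yz := H.yb.trans H.bz
  have a1 : S F.w (acts F.w ts n) al y' s = U' / 2 := by rw [S_al, e1, e2]; ring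
  have a2 : S F.w (acts F.w ts n) al s y = U / 2 := by rw [S_al, B.elp, B.euu]; ring
  have r1 : (Q' : ℝ) = Q + 2 * (U' + U) + 1 := by exact_mod_cast q1
  have r2 : (-3 : ℝ) ≤ Q + 2 * U := by exact_mod_cast q2
  have r3 : (Q : ℝ) + 2 * U ≤ 9 := by exact_mod_cast q3
  have r4 : (Q : ℝ) + 2 * U - 4 * c ≤ 8 := by exact_mod_cast q4
  have r5 : (0 : ℝ) ≤ c := by exact_mod_cast c0
  have hi := B.hi
  refine h.right H ((inn_one (a := ⟨.sS s, ts⟩) H.ls fz ht ⟨B.ok, lo, B.hi, .inl rfl⟩).mono h1 le_rfl) h1 cw.lt.le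
    (by simpa [Bs.pin, Bs.arc, Bs.lo] using lo) (fun τ k => (ht τ k).2.1)
    (fun σ' k => win_two (a := .sS s) (e := .sS s) H.ls (by simp [k]) (fun η => pd_0 (m := 1) cw yz (df.trans B.df)
      (by simp [k]) ?_ ?_) (fun _ _ => ?_) (fun _ _ => ?_) fun _ _ q => (q rfl).elim) ?_ rfl
    (fun j k => by rw [cnt_gs, if_neg k.not_gt, add_zero]) fun j k => ?_
  · rw [S_cut lo.le hi.le, a1, a2]; simp only [vQ]; linarith
  · rw [S_cut lo.le hi.le]; simp only [vQ]; linarith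
  iterate 2
    refine ⟨c, B.hc, fun _ η => ?_⟩
    cases e : η (.sS s)
    · exact pd_l cw yz lo hi df e (by rw [a1]; simp only [vQ]; linarith) (by simp only [vQ]; linarith)
    · exact pd_r cw yz lo hi B.df e (Tw1.rgt B) B.r2
  · rw [S_cut lo.le hi.le, a1, a2, card_singleton]; push_cast; linarith
  · obtain rfl : j = s := by simpa using k
    rw [a2, cnt_gs, if_pos hi, hg _ hi.le]
    exact ⟨by linarith, by linarith, by simp, rfl⟩

end Crest.Agent.X212.Nm96
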