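import Crest.Agent.X212.Nm96.Pe

/-!
# Row 212, `p = 1` (helper96), part f: one turn
-/

set_option autoImplicit false
noncomputable section

namespace Crest.Agent.X212.Nm96

open Crest.Agent.X212.Rod53 Crest.Agent.X212.Wd38 Finset Cn

variable {Γ : Nm} {P : Pm Γ} {T : WTh Γ} {X : Fx Γ} {F : Fm Γ} {n : Wt} {κ : Γ.ι} {u g : ℕ → ℤ} {x y Q : ℤ}
  {q i tL tR l d K : ℕ} {c : Cn}

/-- the abelian reserve on the left -/
def kap (i : ℕ) : ℤ := if i ≤ 2 then 3 else 5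

/-- the steering -/
structure Num (q i tL tR l : ℕ) (Q : ℤ) : Prop where
  i1 : 1 ≤ i ∧ i ≤ q ∧ tL ≤ q ∧ tR < i
  hq : -2 ≤ Q ∧ Q ≤ 5
  hp : -2 ≤ Q + 2 * (i - 1) - 8 * tR ∧ Q + 2 * (i - 1) - 8 * tR ≤ 7
  p2 : 2 ≤ i → 0 ≤ Q + 2 * (i - 1) - 8 * tR
  q' : -2 ≤ Q + 2 * (i - 1) - 8 * tR + 1 + 2 * q - 8 * tL ∧ Q + 2 * (i - 1) - 8 * tR + 1 + 2 * q - 8 * tL ≤ 5
  hl : min (q - 1) tL + l = tL ∧ (l = 0 ∨ l = 1 ∧ q = 1)

theorem num (h1 : 1 ≤ i) (h2 : i ≤ q) (h : -2 ≤ Q ∧ Q ≤ 5) : ∃ tL tR l, Num q i tL tR l Q := by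
  obtain ⟨tR, a⟩ : ∃ tR : ℕ, tR < i ∧ -2 ≤ Q + 2 * (i - 1) - 8 * tR ∧ Q + 2 * (i - 1) - 8 * tR ≤ 7 ∧
      (2 ≤ i → 0 ≤ Q + 2 * (i - 1) - 8 * tR) := by
    by_cases e : i = 1
    exacts [⟨0, by omega⟩, ⟨((Q + 2 * (i - 1)) / 8).toNat, by omega⟩]
  obtain ⟨tL, b⟩ : ∃ tL : ℕ, (tL : ℤ) = (Q + 2 * (i - 1) - 8 * tR + 3 + 2 * q) / 8 :=
    ⟨_, Int.toNat_of_nonneg (by omega)⟩
  exact ⟨tL, tR, tL - min (q - 1) tL, by omega, h, by omega, a.2.2.2, by omega, by omega⟩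

theorem mu_val (h : Num q i tL tR l Q) : mu q i tL tR 0 = q - i ∧ mu q i tL tR 1 = 1 ∧
    mu q i tL tR (q + i + 2) = q - i ∧ mu q i tL tR 2 = q - i + 1 + 2 * (tL + tR) ∧
    mu q i tL tR (q + 2) = q - i + 1 + 2 * tR ∧ mu q i tL tR (q + i + 1) = q - i + 1 ∧
    mu q i tL tR (q + 1) = q - i + 1 + 2 * tR + 2 * l := by
  have := h.i1
  have := h.hl
  refine ⟨rfl, ?_, if_pos (.inr rfl), ?_, ?_, ?_, ?_⟩ <;> rw [mu, if_neg (by omega)]
  · rfl
  all_goals rw [if_neg (by omega)]; omega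

theorem tq_of (h : St P T κ X (-(i : ℤ), 1) (q - i) (kap i) F n x y Q K g d c) (N : Num q i tL tR l Q)
    (gap : ∀ k, u k + 8 ≤ u (k + 1)) (u0 : u 0 = x) (uN : u (q + i + 2 + 1) = y + 1) :
    Tq F.w n κ u (VT q i) (mu q i tL tR) (q + i + 2) := by
  have := cut_lt h.fr.ok h.cy
  have := N.i1
  refine ⟨strictMono_nat_of_lt_succ fun k => by have := gap k; omega, u0 ▸ h.fr.lo, by omega, by omega,
    by rw [u0, uN, add_sub_cancel_right]; exact h.rd, fun k hk => ?_, ?_, (mu_val N).2.2.1⟩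
  · rcases k with _ | _ | k
    · exact .inr (by simp [VT, dt])
    · exact .inl (by simp [VT, dt])
    · exact (vv3 (ht_mu (tL := tL) (tR := tR) (by omega) (by omega)).v k).1
  · rw [VT, if_neg (by omega), if_neg (by omega)]; simp [VT]

/-- the situation after the turn -/
structure Af (P : Pm Γ) (T : WTh Γ) (κ : Γ.ι) (X : Fx Γ) (q i tL tR l : ℕ) (F : Fm Γ) (n : Wt) (u : ℕ → ℤ)
    (x y Q : ℤ) (K : ℕ) (g : ℕ → ℤ) (d : ℕ) (c : Cn) (ts : List Tw) : Prop where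
  num : Num q i tL tR l Q
  gap : ∀ k, u k + 8 ≤ u (k + 1)
  u0 : u 0 = x
  uN : u (q + i + 2 + 1) = y + 1
  fr : Fr P F n X.z x y X.b
  cx : F.Cut x
  cy : F.Cut y
  fz : ∀ a ∈ F.fz, a.lo ≤ x ∨ y ≤ a.lo
  am : Am X F n y K g c
  cc : Cc P F n X.z x y X.b ((13 - Q) / 4, kap i) Q K g d c
  pt : Pt F.w n κ u (VT q i) (mu q i tL tR) (q + i + 2)
  pt' : Pt F.w (acts F.w ts n) κ u (VT q i) (sh (q + i - 1) (mu q i tL tR)) (q + i + 2)
  ht' : Ht (VT q i) (sh (q + i - 1) (mu q i tL tR)) (q + i + 2) 1 3 (q + 2)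
  tw : ∀ τ ∈ ts, τ.OK F.w ∧ u 3 ≤ τ.x ∧ τ.y < u (q + i + 2)
  ne : ts ≠ []

namespace Af

variable {ts : List Tw} (A : Af P T κ X q i tL tR l F n u x y Q K g d c ts)
include A

theorem ht : Ht (VT q i) (mu q i tL tR) (q + i + 2) 1 (q + i + 2) (q + 2) := ht_mu A.num.i1.2.2.1 A.num.i1.2.2.2

theorem pos : x + 8 ≤ u 1 ∧ u 1 + 8 ≤ u 2 ∧ u 2 + 8 ≤ u 3 ∧ u 3 ≤ u (q + 2) ∧ u (q + 2) ≤ u (q + i + 1) ∧
    u (q + 2) + 8 ≤ u (q + 2 + 1) ∧ u 3 + 8 ≤ u (3 + 1) ∧ u (q + i + 1) + 8 ≤ u (q + i + 2) ∧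
    u (q + i + 2) + 7 ≤ y ∧ u (0 + 1) = u 1 ∧ u (1 + 1) = u 2 ∧ u (2 + 1) = u 3 ∧
    u (q + i + 1 + 1) = u (q + i + 2) ∧ u 0 = x ∧ u (q + i + 2 + 1) = y + 1 := by
  have := A.num.i1
  have := A.gap (q + i + 2)
  exact ⟨A.u0 ▸ A.gap 0, A.gap 1, A.gap 2, A.pt.mono.monotone (by omega), A.pt.mono.monotone (by omega), A.gap _,
    A.gap _, A.gap _, by have := A.uN; omega, rfl, rfl, rfl, rfl, A.u0, A.uN⟩

theorem mu' : sh (q + i - 1) (mu q i tL tR) 0 = q - i ∧ sh (q + i - 1) (mu q i tL tR) 1 = 1 ∧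
    sh (q + i - 1) (mu q i tL tR) (q + i + 2) = q - i ∧
    sh (q + i - 1) (mu q i tL tR) 2 = q - i + 1 + 2 * (tL + tR) ∧
    sh (q + i - 1) (mu q i tL tR) (q + 2) = q - i + 2 * tR + 2 * l := by
  obtain ⟨a, b, c, d, -, -, e⟩ := mu_val A.num
  have := A.num.i1
  refine ⟨(if_neg (by omega)).trans a, (if_neg (by omega)).trans b, (if_neg (by omega)).trans c,
    (if_neg (by omega)).trans d, (if_pos (by omega)).trans ?_⟩
  rw [show q + 2 - 1 = q + 1 from rfl, e]; ring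

theorem okS : (Bs.sS (u (q + 2) + 4)).OK F.w := by
  have := A.pos
  have := A.num.i1
  exact A.pt.okS (k0 := q + 2) (by omega) (by omega) (by omega) (by rw [A.ht.v _ (by omega)]; simp)

/-- the slice -/
theorem sc : Sc1 F n x y (u (q + 2) + 4) ((13 - Q) / 4, kap i) (vQ Q) 0 (i - 1 - 4 * tR) ∧
    0 ≤ S F.w n psi (u (q + 2) + 4) y := by
  have := A.pos
  obtain ⟨h1, h2, h3, h4, -, -⟩ := A.num
  obtain ⟨-, -, m2, -, m3, -⟩ := mu_val A.num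
  obtain ⟨a, b, c, e⟩ := A.ht.S A.pt (k0 := q + 2) (k1 := q + i + 2) (x := u (q + 2) + 4) (y := y) (by omega)
    (by omega) le_rfl (by omega) (by omega) (by omega) (by omega)
  rw [m2, m3, sx, if_pos (by omega)] at b c
  have p : 0 ≤ S F.w n psi (u (q + 2) + 4) y := by rw [c]; exact Int.cast_nonneg (by omega)
  refine ⟨⟨A.okS, by omega, by omega, by simp, e, a, b.trans (congrArg _ (by omega)), ?_, ?_, ?_, ?_⟩, p⟩
  · have : ((1 + 2 * (i - 1 - 4 * tR) : ℤ) : ℝ) ≤ (13 - Q : ℤ) := Int.cast_le.2 (by omega)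
    push_cast at *; linarith
  · have : 5 + (i - 1 - 4 * tR) - 2 * 0 - 3 * ((1 - (i - 1 - 4 * tR)) % 4) ≤ 2 * kap i := by
      unfold kap; split_ifs <;> omega
    exact (Int.cast_le.2 this).trans_eq (by push_cast; rfl)
  · have : ((9 - Q : ℤ) : ℝ) ≤ (2 * (i - 1 - 4 * tR) + 13 : ℤ) := Int.cast_le.2 (by omega)
    simp only [vQ]; push_cast at *; linarith
  · simp only [vQ]; push_cast; linarith

/-- the twisted slice -/
theorem sc' : Sc1 F (acts F.w ts n) x y (u (q + 2) + 4) ((13 - Q) / 4, kap i) (vQ Q) (1 - l) (i - 4 * tR - 4 * l) ∧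
    0 ≤ S F.w (acts F.w ts n) psi (u (q + 2) + 4) y := by
  have := A.pos
  obtain ⟨h1, h2, h3, h4, h5, h6⟩ := A.num
  obtain ⟨-, -, m2, -, m3⟩ := A.mu'
  obtain ⟨a, b, c, e⟩ := A.ht'.S A.pt' (k0 := q + 2) (k1 := q + i + 2) (x := u (q + 2) + 4) (y := y) (by omega)
    (by omega) le_rfl (by omega) (by omega) (by omega) (by omega)
  rw [m2, m3, sx, if_neg (by omega)] at b c
  have p : 0 ≤ S F.w (acts F.w ts n) psi (u (q + 2) + 4) y := by rw [c]; exact Int.cast_nonneg (by omega)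
  refine ⟨⟨A.okS, by omega, by omega, by rw [abs_le]; omega, e, a, b.trans (congrArg _ (by omega)), ?_, ?_, ?_, ?_⟩, p⟩
  · have : ((1 + 2 * (i - 4 * tR - 4 * l) - 4 * (1 - l) : ℤ) : ℝ) ≤ (13 - Q : ℤ) := Int.cast_le.2 (by omega)
    push_cast at *; linarith
  · have : 5 + (i - 4 * tR - 4 * l) - 2 * (1 - l) - 3 * ((1 - (i - 4 * tR - 4 * l)) % 4) ≤ 2 * kap i := by
      unfold kap; split_ifs <;> omega
    exact (Int.cast_le.2 this).trans_eq (by push_cast; rfl)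
  · have : ((9 - Q : ℤ) : ℝ) ≤ (2 * (i - 4 * tR - 4 * l) + 13 - 4 * (1 - l) : ℤ) := Int.cast_le.2 (by omega)
    simp only [vQ]; push_cast at *; linarith
  · simp only [vQ]; push_cast; linarith [Nat.cast_nonneg (α := ℝ) l]

omit A in
theorem le : vQ Q ≤ (((13 - Q) / 4 : ℝ), (kap i : ℝ)) := vQ_le (by unfold kap; split_ifs <;> norm_num)

theorem tw1 : Tw1 F n X.z x y ((13 - Q) / 4, kap i) (vQ Q) ∧
    Tw1 F (acts F.w ts n) X.z x y ((13 - Q) / 4, kap i) (vQ Q) := by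
  have := A.pos
  have := A.num.i1
  obtain ⟨m0, m1, m2, -⟩ := mu_val A.num
  obtain ⟨m0', m1', m2', -⟩ := A.mu'
  obtain ⟨a, b⟩ := A.ht.s0 A.pt m1 (k := q + i + 2) (x := x) (y := y) (by omega) le_rfl (by omega) (by omega)
    (by omega) (by omega)
  obtain ⟨a', b'⟩ := A.ht'.s0 A.pt' m1' (k := q + i + 2) (x := x) (y := y) (by omega) le_rfl (by omega) (by omega)
    (by omega) (by omega)
  rw [m0, m2, sx, if_pos (by omega)] at b
  rw [m0', m2', sx, if_pos (by omega)] at b'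
  have cw := A.fr.cw A.cx A.cy A.fr.xy le_rfl
  have yz := A.fr.yb.trans A.fr.bz
  exact ⟨⟨cw, yz, a, b.trans (by push_cast; ring), Af.le⟩, cw, yz, a', b'.trans (by push_cast; ring), Af.le⟩

/-- the arc `d2` -/
theorem d2 {t : ℤ} (h : u (q + i + 1) + 2 < t) : Ar F n x t (x + 2) (u (q + i + 1) + 2) := by
  have := A.pos
  have := A.num.i1
  obtain ⟨m0, m1, -, -, -, m2, -⟩ := mu_val A.num
  obtain ⟨a, b⟩ := A.ht.s0 A.pt m1 (k := q + i + 1) (x := x + 2) (y := u (q + i + 1) + 2) (by omega) (by omega)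
    (by omega) (by omega) (by omega) (by omega)
  have e : VT q i (q + i + 1) = (-(i : ℤ) + 1, 1) := by rw [A.ht.v _ (by omega)]; congr 1; push_cast; ring
  refine ⟨A.pt.okA (k0 := 0) (k1 := q + i + 1) (by omega) (by omega) (by omega) (by omega) (by omega) (by omega)
    (by omega) (by rw [e]; exact .inr (by simp [VT, dt])), by omega, h, ?_⟩
  rw [In1, a, b, A.pt.vv (k0 := 0) (k1 := q + i + 1) (by omega) (by omega) (by omega) (by omega) (by omega) (by omega),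
    A.pt.vv (k0 := 0) (k1 := q + i + 1) (by omega) (by omega) (by omega) (by omega) (by omega) (by omega), e, m0, m2,
    sx, if_neg (by omega), show VT q i 0 = (-(i : ℤ), 1) from rfl, (v_p _ _ _).1, (v_p _ _ _).2]
  push_cast
  exact ⟨by ring, by ring⟩

theorem d1 : Ar F n x y (u 1 + 1) (u (q + i + 2) + 1) ∧ Ar F (acts F.w ts n) x y (u 1 + 1) (u (q + i + 2) + 1) ∧
    Ar F (acts F.w ts n) x y (u 1 + 2) (u 3 + 1) := by
  have := A.pos
  have := A.num.i1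
  exact ⟨A.ht.ar A.pt (mu_val A.num).2.1 (k := q + i + 2) (by omega) le_rfl (by omega) (by omega) (by omega)
    (by omega) (if_pos (by omega)) (by omega) (by omega), A.ht'.ar A.pt' A.mu'.2.1 (k := q + i + 2) (by omega) le_rfl
    (by omega) (by omega) (by omega) (by omega) (if_pos (by omega)) (by omega) (by omega),
    A.ht'.ar A.pt' A.mu'.2.1 (k := 3) (by omega) (by omega) (by omega) (by omega) (by omega) (by omega) rfl
    (by omega) (by omega)⟩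

theorem fz' : Fz F x y := fz_of A.fr.ok A.fz

theorem tw' : ∀ τ ∈ ts, τ.OK F.w ∧ x < τ.x ∧ τ.y < y := fun τ k => by
  have := A.pos; have := A.tw τ k; exact ⟨this.1, by omega, by omega⟩

theorem jo : F.Jo P c (Bs.sA (x + 2) (u (q + i + 1) + 2)) ∧ F.Jo P c (Bs.sA (u 1 + 1) (u (q + i + 2) + 1)) ∧
    F.Jo P c (Bs.sS (u (q + 2) + 4)) ∧ F.Jo P c ⟨.sA (u 1 + 2) (u 3 + 1), ts⟩ ∧
    F.Jo P c ⟨.sS (u (q + 2) + 4), ts⟩ := by
  have := A.pos
  obtain ⟨t1, t2⟩ := A.tw1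
  have d2 := A.d2 (t := y) (by omega)
  have one := fun a (h : Wa F x y [] a) => inn_one A.fr.ls A.fz' (by simp) h
  exact ⟨A.cc.jo A.fr (Tw1.fi1 (ts := []) t1 (one _ d2.wa) trivial (t1.a d2)) trivial,
    A.cc.jo A.fr (Tw1.fi1 (ts := []) t1 (one _ A.d1.1.wa) trivial (t1.a A.d1.1)) trivial,
    A.cc.jo A.fr (Tw1.fi1 (ts := []) t1 (one _ A.sc.1.wa) trivial (t1.sl A.sc.1)) trivial,
    A.cc.jo A.fr (t2.fi1 (inn_one A.fr.ls A.fz' A.tw' A.d1.2.2.wa) trivial (t2.a A.d1.2.2)) trivial,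
    A.cc.jo A.fr (t2.fi1 (inn_one A.fr.ls A.fz' A.tw' A.sc'.1.wa) trivial (t2.sl A.sc'.1)) trivial⟩

/-- the two branches -/
theorem br (H : Ax0 P T) :
    T.Z F (d + 1) (J (Bs.sA (x + 2) (u (q + i + 1) + 2)) (Bs.sA (u 1 + 1) (u (q + i + 2) + 1)) c) =
      T.Z F (d + 1) (J (Bs.sA (x + 2) (u (q + i + 1) + 2)) (Bs.sS (u (q + 2) + 4)) c) +
      T.Z F (d + 1) (J (Bs.sS (u (q + 2) + 4)) ⟨.sS (u (q + 2) + 4), ts⟩ c) := by
  have := A.pos
  obtain ⟨j1, j2, j3, j4, j5⟩ := A.jo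
  obtain ⟨-, t2⟩ := A.tw1
  obtain ⟨-, a1, a2⟩ := A.d1
  rw [A.cc.split A.fr H j1 j4 j2, A.cc.two A.fr H j4 j2 (fun e => A.ne (congrArg Wl.tw e)) (t2.fi2
      (inn_two A.fr.ls A.fz' A.tw' a2.wa ⟨a1.ok, a1.lo, a1.hi, .inr ⟨rfl, fun τ k => .inr (.inr ⟨trivial, by
        have := A.tw τ k; change u 1 + 1 < _; omega, by have := A.tw τ k; change _ < u _ + 1; omega⟩)⟩⟩
        (.inr (.inr (.inr (.inr ⟨trivial, by change u 1 + 1 < u 1 + 2; omega,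
          by change u 3 + 1 < u _ + 1; omega, trivial⟩))))) trivial trivial (t2.a a2) (t2.a a1)
      (t2.aa a2 a1 (by omega) (by omega))), add_zero, A.cc.split A.fr H j1 j5 j4, J_comm _ (⟨.sA _ _, ts⟩ : Wl),
    A.cc.two A.fr H j4 j5 nofun (t2.fi2 (inn_two A.fr.ls A.fz' A.tw' a2.wa A.sc'.1.wa
      (.inr (.inl (by change u 3 + 1 < u _ + 4; omega)))) trivial trivial (t2.a a2) (t2.sl A.sc'.1)
      (t2.as A.sc'.1 a2 (by omega))), add_zero, A.cc.split A.fr H j1 j3 j5]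

/-- the end of the descent -/
theorem one (H : Ax0 P T) (e : i = 1) :
    T.Z F (d + 1) (J (Bs.sA (x + 2) (u (q + i + 1) + 2)) (Bs.sS (u (q + 2) + 4)) c) = 0 := by
  subst e
  have := A.pos
  have e : u (q + 1 + 1) = u (q + 2) := rfl
  obtain ⟨t1, -⟩ := A.tw1
  have d2 := A.d2 (t := y) (by omega)
  exact A.cc.two A.fr H A.jo.1 A.jo.2.2.1 nofun (Tw1.fi2 (ts := []) t1 (inn_two A.fr.ls A.fz' (by simp) d2.wa
    A.sc.1.wa (.inr (.inl (by change u _ + 2 < u _ + 4; omega)))) trivial trivial (t1.a d2) (t1.sl A.sc.1)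
    (t1.as A.sc.1 d2 (by omega)))

end Af

theorem rs_mu {w : Shp Γ} (N : Num q i tL tR l Q) (tq : Tq w n κ u (VT q i) (mu q i tL tR) (q + i + 2)) (ok : w.OK)
    (fz : Finset Bs) (gap : ∀ k, u k + 8 ≤ u (k + 1)) (u0 : u 0 = x) (uN : u (q + i + 2 + 1) = y + 1) :
    Fm.RS ⟨pw w κ u (VT q i) (q + i + 2), fz, ∅⟩ (pn u (mu q i tL tR) (q + i + 2) n) (x + 1) (y - 1)
      (.sA (x + 2) (u (q + i + 1) + 2)) (.sA (u 1 + 1) (u (q + i + 2) + 1)) := by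
  have i1 := N.i1
  have ht := ht_mu (q := q) i1.2.2.1 i1.2.2.2
  have m1 := (mu_val N).2.1
  have g0 : u 0 + 8 ≤ u 1 := gap 0
  have g1 := gap (q + i + 2)
  have g2 : u 1 + 8 ≤ u (1 + 1) := gap 1
  have g3 : u (q + i + 1) + 8 ≤ u (q + i + 2) := gap _
  have g4 : u (0 + 1) = u 1 := rfl
  refine tq.rs (by omega) (by omega) (by omega) (by omega) ok fz rfl
    (fun k : Fin (q + i) => cl 1 (k + 2)) ⟨q + i - 1, by omega⟩ (fun k => ⟨rfl, if_neg (by omega)⟩) (fun a b => ?_)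
    (fun a => ?_) (k0 := 0) (k1 := q + i + 1) (k0' := 1) (k1' := q + i + 2) (b := 1) (b' := 0) (by omega) (by omega)
    (by omega) (by omega) (by omega) (by omega) (by omega) (by omega) (fun k a b => ?_) (fun k a b => ?_) (by decide)
  · rw [ht.pr _ (by omega) (by omega)]
    simp only [cl, Fin.ext_iff]
    split_ifs <;> first | omega | simp
  · rw [ht.pr _ (by omega) (by omega), m1]
    have := ht.h (a + 2) (by omega) (by omega)
    simp only [Fin.ext_iff]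
    split_ifs at this ⊢ <;> first | omega | (rw [this]; simp) | (rcases this with e | e <;> rw [e] <;> norm_num)
  · rcases (show k = 0 ∨ k = q + i + 1 ∨ k = q + i + 2 by omega) with rfl | rfl | rfl
    · simp [cl, Wd38.dt_self]
    · rw [ht.v (q + i + 1) (by omega), cl, if_pos (by simp only; omega)]; simp [VT, dt]; ring
    · rw [tq.vN, cl, if_neg (by simp only; omega)]; simp [Wd38.dt_self]
  · rw [cl, if_neg (by simp only; omega)]; simp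

/-- **the turn** -/
theorem turn1 (H : Ax0 P T) (h : St P T κ X (-(i : ℤ), 1) (q - i) (kap i) F n x y Q K g d c) (N : Num q i tL tR l Q)
    (gap : ∀ k, u k + 8 ≤ u (k + 1)) (u0 : u 0 = x) (uN : u (q + i + 2 + 1) = y + 1) :
    ∃ F n c ts, Af P T κ X q i tL tR l F n u x y Q K g d c ts ∧
      T.Z F (d + 1) (J (Bs.sA (x + 2) (u (q + i + 1) + 2)) (Bs.sA (u 1 + 1) (u (q + i + 2) + 1)) c) ≠ 0 := by
  have tq := tq_of h N gap u0 uN
  have i1 := N.i1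
  have ht := ht_mu (q := q) i1.2.2.1 i1.2.2.2
  obtain ⟨m0, m1, m2, -, -, m3, -⟩ := mu_val N
  have g0 : u 0 + 8 ≤ u 1 := gap 0
  have g1 := gap (q + i + 2)
  have g2 := tq.mono.monotone tq.pos
  have ag := (pw_ag (w := F.w) (κ := κ) (u := u) (V := VT q i) (m := mu q i tL tR) (N := q + i + 2) n).mono
    (s' := fun j => j ≤ x + 1 ∨ y - 1 ≤ j) fun j k => by omega
  have ok := tq.ok h.fr.ok.w h.fr.lok.ok
  have H' := h.fr.tr ok.1 ok.2 (p1_pw h.fr.p1 fun k => by unfold VT; split_ifs <;> simp) rfl rfl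
    (fun j k => (ag j (by omega)).1) rfl rfl
  obtain ⟨j, hj⟩ : ∃ j, q + i = j + 2 := ⟨q + i - 2, by omega⟩
  have A : Af P T κ X q i tL tR l { F with w := pw F.w κ u (VT q i) (q + i + 2) }
      (pn u (mu q i tL tR) (q + i + 2) n) u x y Q K g d (c.mp (pn u (mu q i tL tR) (q + i + 2)) id ∅)
      (tl u (VT q i) (q + i - 1)) :=
    ⟨N, gap, u0, uN, H', ⟨h.cx.1, (ag x (by omega)).1 ▸ h.cx.2⟩, ⟨h.cy.1, (ag y (by omega)).1 ▸ h.cy.2⟩, h.fz,
      h.am.tr h.fr.yb rfl (ag.mono fun j k => by omega) Subset.rfl (fun _ => .inl) le_rfl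
        (fun _ _ _ => by omega) fun a k => .inl (walls_mp _ a k),
      h.cc.tr h.fr _ h.fr.ls rfl rfl (ag.mono fun j k => by omega) Subset.rfl fun _ => .inl, tq.pt,
      tl_acts ht.v (by omega) tq.pt (by
        rw [show q + i - 1 + 2 = q + i + 1 by omega, show q + i - 1 + 3 = q + i + 2 by omega, m2, m3]),
      by rw [hj] at ht ⊢; exact ht.sh, fun τ k' => by
        obtain ⟨k, hk, rfl⟩ := tl_mem k'
        exact ⟨tq.pt.twk_ok (by omega) (vv3 ht.v k).1 (vv3 ht.v k).2, tq.mono.monotone (by omega),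
          Int.sub_one_lt_iff.2 (tq.mono.monotone (by omega))⟩, by rw [hj]; exact List.cons_ne_nil _ _⟩
  refine ⟨_, _, _, _, A, ?_⟩
  have ps := A.pos
  have cw := h.fr.cw h.cx h.cy h.fr.xy le_rfl
  have yz := h.fr.yb.trans h.fr.bz
  have sur := tq.sur (x := x + 1) (y := y - 1) (by omega) (by omega) (by omega) (by omega)
  have r0 := h.rd (x + 1) (by omega) (by omega)
  have r1 := h.rd (y - 1) (by omega) (by omega)
  have R : ∀ {w n}, w.Rg (x + 1) (y - 1) → Pr (w.s (x + 1)).r.2 → w.s (x + 1) = .rod (κ, (-(i : ℤ), 1)) →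
      w.s (y - 1) = .rod (κ, (-(i : ℤ), 1)) → n.nl (y - 1) = n.nr (x + 1) →
      (Bs.rA (x + 1) (y - 1)).OK w ∧ (Bs.rA (x + 1) (y - 1)).OKn w n := fun a p b c e =>
    ⟨⟨a, .inl (by rw [b, c]; rfl)⟩, fun _ => e, fun k => (Pr.ne_neg p (by rw [b, c] at *; exact k)).elim⟩
  have pr := (h.fr.ok.w.pr (x + 1) sur.rg'.lo (sur.rg'.lt.le.trans sur.rg'.hi)).2
  obtain ⟨o1, o2⟩ := R (n := n) sur.rg' pr r0.1 r1.1 (r1.2.1.trans r0.2.2.symm)
  obtain ⟨a1, a2, a3⟩ := ag (x + 1) (.inl le_rfl)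
  obtain ⟨b1, b2, b3⟩ := ag (y - 1) (.inr le_rfl)
  obtain ⟨o3, o4⟩ := R sur.rg (a1 ▸ pr) (a1.trans r0.1) (b1.trans r1.1)
    (b2.trans (r1.2.1.trans (r0.2.2.symm.trans a3.symm)))
  rw [h.cc.rf h.fr H A.cc H' sur (by omega) (by omega) (fun j a b => by rw [r0.1]; exact (h.rd j (by omega) (by omega)).1)
    (pn_chg (by omega) (by omega)) (h.fr.ls ▸ rs_mu N tq h.fr.ok.w F.fz gap u0 uN)
    (fi_ft cw yz (ft_rd h.rd) Af.le) ⟨[], inn_one h.fr.ls (fz_of h.fr.ok h.fz) (by simp)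
      ⟨o1, by change x < x + 1; omega, by change y - 1 < y; omega, .inl rfl⟩, by simpa [acts] using o2,
      fun σ k => win_ft cw yz (ft_rd h.rd) Af.le (by simp [k, Bs.pin])⟩
    (A.tw1.1.fiR A.fz' (A.d2 (by omega)) o3 o4 (by omega) (by omega) (by omega) (by omega))
    (A.tw1.1.fiR A.fz' A.d1.1 o3 o4 (by omega) (by omega) (by omega) (by omega)) A.jo.1 A.jo.2.1]
  exact h.ne

end Crest.Agent.X212.Nm96
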