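import Crest.Agent.X212.Nm96.Pf

/-!
# Row 212, `p = 1` (helper96), part g: the two branches, the junctions
-/

set_option autoImplicit false
noncomputable section

namespace Crest.Agent.X212.Nm96

open Crest.Agent.X212.Rod53 Crest.Agent.X212.Wd38 Finset Cn

variable {Γ : Nm} {P : Pm Γ} {T : WTh Γ} {X : Fx Γ} {F : Fm Γ} {n : Wt} {κ : Γ.ι} {u g : ℕ → ℤ} {x y s t Q : ℤ}
  {q i tL tR l d K : ℕ} {c : Cn} {ts : List Tw} {v v' : ℝ × ℝ}

theorem Ar.fz {x' y' : ℤ} (A : Ar F n s t x' y') (fz : Finset Bs) : Ar { F with fz := fz } n s t x' y' :=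
  ⟨A.ok, A.lo, A.hi, A.i⟩

theorem Sc1.fz {c U : ℤ} (A : Sc1 F n s t x v v' c U) (fz : Finset Bs) : Sc1 { F with fz := fz } n s t x v v' c U :=
  { A with }

theorem kap_le : (0 : ℝ) ≤ kap i ∧ (kap i : ℝ) ≤ kap (i + 1) ∧ (kap i : ℝ) ≤ 5 := by
  unfold kap; split_ifs <;> norm_num; omega

namespace Af

variable (H : Ax0 P T)
include H

/-- a letter on the left -/
theorem hl (A : Af P T κ X q (i + 1) tL tR l F n u x y Q K g d c ts) (h1 : 1 ≤ i)
    (ne : T.Z F (d + 1) (J (Bs.sA (x + 2) (u (q + (i + 1) + 1) + 2)) (Bs.sS (u (q + 2) + 4)) c) ≠ 0) :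
    ∃ F c, St P T κ X (-(i : ℤ), 1) (q - i) (kap i) F n (u (q + (i + 1) + 1) + 3) (u (q + (i + 1) + 2) - 1) Q K g
      (d + 1) c := by
  have ps := A.pos
  obtain ⟨n1, n2, n3, n4, -, -⟩ := A.num
  obtain ⟨m0, m1, m2, -, m3, m4, -⟩ := mu_val A.num
  have g1 : u (q + 2 + 1) ≤ u (q + (i + 1) + 1) := A.pt.mono.monotone (by omega)
  have ev : VT q (i + 1) (q + (i + 1) + 1) = (-(i : ℤ), 1) := by
    rw [A.ht.v _ (by omega)]; congr 1; push_cast; ring
  have rd := A.pt.rd (q + (i + 1) + 1) (by omega)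
  rw [ev, m4, show (q : ℤ) - (i + 1 : ℕ) + 1 = q - i by push_cast; ring] at rd
  set x' := u (q + (i + 1) + 1) + 3 with hx
  set y' := u (q + (i + 1) + 2) - 1 with hy
  have sub : F.fz ⊆ insert (.yS x') (insert (.yS y') F.fz) := (subset_insert _ _).trans (subset_insert _ _)
  have H' := A.fr.frz sub (by
    simp only [mem_insert, forall_eq_or_imp]
    exact ⟨.inr ⟨_, rfl, by omega, by omega⟩, .inr ⟨_, rfl, by omega, by omega⟩, fun _ => .inl⟩)
  have C' := A.cc.frz A.fr sub (by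
    simp only [mem_insert, forall_eq_or_imp, Bs.lo, Bs.hi]
    exact ⟨.inr (by omega), .inr (by omega), fun _ => .inl⟩)
  set F' : Fm Γ := { F with fz := insert (.yS x') (insert (.yS y') F.fz) } with hF
  have cx : F'.Cut x := ⟨sub A.cx.1, A.cx.2⟩
  have cy : F'.Cut y := ⟨sub A.cy.1, A.cy.2⟩
  have cx' : F'.Cut x' := ⟨by simp [hF], by rw [(rd x' (by omega) (by omega)).1]; exact one_ne_zero⟩
  have cy' : F'.Cut y' := ⟨by simp [hF], by rw [(rd y' (by omega) (by omega)).1]; exact one_ne_zero⟩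
  have fz : ∀ a ∈ F'.fz, a.lo ≤ x ∨ a.lo = x' ∨ a.lo = y' ∨ y ≤ a.lo := by
    simp only [hF, mem_insert, forall_eq_or_imp, Bs.lo, true_or, or_true, true_and]
    exact fun a k => (A.fz a k).imp_right fun k => .inr (.inr k)
  have yz := A.fr.yb.trans A.fr.bz
  obtain ⟨a1, a2⟩ := A.ht.s0 A.pt m1 (k := q + (i + 1) + 1) (x := x) (y := x') (by omega) (by omega) (by omega)
    (by omega) (by omega) (by omega)
  rw [m0, m4, sx, if_neg (by omega)] at a2
  have W : Tw1 F' n X.z x x' ((13 - Q) / 4, kap (i + 1)) ((13 - Q) / 4, kap i) :=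
    ⟨H'.cw cx cx' (by omega) (by omega), by omega, a1, a2.trans (by push_cast; ring), le_rfl, kap_le.2.1⟩
  obtain ⟨b1, b2, b3, b4⟩ := A.ht.S A.pt (k0 := q + 2) (k1 := q + (i + 1) + 1) (x := u (q + 2) + 4) (y := x')
    (by omega) (by omega) (by omega) (by omega) (by omega) (by omega) (by omega)
  rw [m3, m4, sx, if_neg (by omega)] at b2 b3
  have B : Sc1 F' n x x' (u (q + 2) + 4) ((13 - Q) / 4, kap (i + 1)) ((13 - Q) / 4, kap i) 0
      ((i + 1 : ℕ) - 1 - 4 * tR) :=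
    ⟨A.okS, by omega, by omega, by simp, b4, b1, b2.trans (congrArg _ (by omega)), A.sc.1.l1, A.sc.1.l2, by
      have : ((-Q : ℤ) : ℝ) ≤ (2 * ((i + 1 : ℕ) - 1 - 4 * tR) : ℤ) := Int.cast_le.2 (by omega)
      push_cast at *; linarith, by
      have : kap i ≤ 2 * (i - tR) + 1 := by unfold kap; split_ifs <;> omega
      refine (Int.cast_le.2 this).trans_eq ?_
      erw [b3]; push_cast; ring⟩
  have d2 := (A.d2 (t := x') (by omega)).fz F'.fz
  have fz' : Fz F' x x' := fz_of H'.ok fun a k => by have := fz a k; omega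
  have L : ∀ a : Bs, Wa F' x x' [] a → a.pin → Wp F' X.z n x x' ((13 - Q) / 4, kap (i + 1)) ((13 - Q) / 4, kap i) {a} →
      a.pin ∧ (a.lo ≤ a.hi ∧ x < a.lo ∧ a.hi < y) ∧ ∀ σ, Gd P F' n X.z x y X.b ((13 - Q) / 4, kap (i + 1)) Q K g σ →
        Gd P F' n X.z x' y X.b ((13 - Q) / 4, kap i) Q K g (σ ∪ {↑a}) := fun a w p k =>
    ⟨p, ⟨(wf_of_ok w.ok).1.1, w.lo, w.hi.trans (by omega)⟩, fun σ h => h.left H' ((inn_one H'.ls fz' (by simp) w).mono
      le_rfl (by omega)) (by omega) (by omega) (by simpa using ⟨p, w.hi⟩) fun _ e => W.win1 (by simpa using e) fun _ => k⟩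
  have C2 := C'.ofJ H' (a := Bs.sA (x + 2) (u (q + (i + 1) + 1) + 2)) (e := Bs.sS (u (q + 2) + 4)) (x' := x') (y' := y)
    (Q' := Q) (K' := K) (g' := g) (v' := ((13 - Q) / 4, kap i)) nofun (by
      simp only [mem_insert, mem_singleton, forall_eq_or_imp, forall_eq]
      exact ⟨L _ d2.wa trivial (W.a d2), L _ B.wa trivial (W.sl B)⟩) (by omega) (by omega)
    (.inl (by simpa using ⟨d2.hi, B.hi⟩))
  obtain ⟨c1, c2, c3, c4⟩ := A.ht.S A.pt (k0 := q + (i + 1) + 1) (k1 := q + (i + 1) + 2) (x := y') (y := y)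
    (by omega) (by omega) (by omega) (by omega) (by omega) (by omega) (by omega)
  rw [m2, m4, sx, if_pos (by omega)] at c2 c3
  have c5 : S F.w n al y' y = 0 := by rw [S_al, c1, c2]; push_cast; ring
  have C3 := C2.right0 (Q' := Q) (y' := y') (H'.mono (by omega) (by omega) le_rfl) (by omega) (by omega)
    (fun σ k => win_df (H'.cw cy' cy (by omega) le_rfl) yz c4 (by rw [sub_self]; exact c5.ge)
      (by rw [sub_self]; erw [c3]; push_cast; linarith) (by simp [k])) (by erw [c5]; ring)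
  have H3 : Fr P F' n X.z x' y' X.b := H'.mono (by omega) (by omega) (by omega)
  have rd' := rd.mono (a' := x') (b' := y') (by omega) (by omega)
  refine ⟨F', _, H3, cx', cy', fun a k => by have := fz a k; omega, rd', A.am.tr A.fr.yb rfl
    (fun _ _ => ⟨rfl, rfl, rfl⟩) sub (by
      simp only [hF, mem_insert, forall_eq_or_imp, Bs.lo]
      exact ⟨.inr (by omega), .inr (by omega), fun _ => .inl⟩) (by omega) c4 (fun a k => (walls_J k).imp_right ?_),
    n2, C3, ?_⟩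
  · rintro (rfl | rfl) <;> simp only [Bs.lo] <;> omega
  · rwa [← H.frz F _ _ _ sub (A.cc.pre.clJ A.fr.ls A.jo.1 A.jo.2.2.1) (C3.cl H3
      (fi_ft (H3.cw cx' cy' H3.xy le_rfl) (by omega) (ft_rd rd') (vQ_le kap_le.1)))]

/-- a letter on the right -/
theorem hr (A : Af P T κ X q i tL tR l F n u x y Q K g d c ts)
    (ne : T.Z F (d + 1) (J (Bs.sS (u (q + 2) + 4)) ⟨.sS (u (q + 2) + 4), ts⟩ c) ≠ 0) :
    ∃ Q F g c, Tr P T κ X q i tL tR Q F n u (K + 1) g (d + 1) c := by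
  have ps := A.pos
  obtain ⟨n1, n2, n3, n4, n5, n6⟩ := A.num
  obtain ⟨m0, m1, m2, m3, m4, -⟩ := mu_val A.num
  obtain ⟨-, -, -, m3', m4'⟩ := A.mu'
  have rd := A.pt.rd 2 (by omega)
  rw [A.ht.v 2 (by omega), show (q : ℤ) + 2 - (2 : ℕ) = q by simp] at rd
  have r1 := A.pt.rd 1 (by omega) (u 1 + 4) (by omega) (by omega)
  set Q' := Q + 2 * (i - 1) - 8 * tR + 1 + 2 * q - 8 * tL with hQ
  have sub : F.fz ⊆ insert (.yS (u 1 + 4)) (insert (.yS (u 2 + 1)) (insert (.yS (u 3 - 2)) F.fz)) :=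
    (subset_insert _ _).trans ((subset_insert _ _).trans (subset_insert _ _))
  have H' := A.fr.frz sub (by
    simp only [mem_insert, forall_eq_or_imp]
    exact ⟨.inr ⟨_, rfl, by omega, by omega⟩, .inr ⟨_, rfl, by omega, by omega⟩, .inr ⟨_, rfl, by omega, by omega⟩,
      fun _ => .inl⟩)
  have C' := A.cc.frz A.fr sub (by
    simp only [mem_insert, forall_eq_or_imp, Bs.lo, Bs.hi]
    exact ⟨.inr (by omega), .inr (by omega), .inr (by omega), fun _ => .inl⟩)
  set F' : Fm Γ := { F with fz := insert (.yS (u 1 + 4)) (insert (.yS (u 2 + 1)) (insert (.yS (u 3 - 2)) F.fz)) }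
    with hF
  have cy : F'.Cut y := ⟨sub A.cy.1, A.cy.2⟩
  have cx' : F'.Cut (u 2 + 1) := ⟨by simp [hF], by rw [(rd _ (by omega) (by omega)).1]; exact one_ne_zero⟩
  have cy' : F'.Cut (u 3 - 2) := ⟨by simp [hF], by rw [(rd _ (by omega) (by omega)).1]; exact one_ne_zero⟩
  have Y : F'.Y0 n (u 1 + 4) := ⟨by simp [hF], by rw [r1.1]; rfl, by rw [r1.2.2, m1]; exact odd_one⟩
  have fz : ∀ a ∈ F'.fz, a.lo ≤ x ∨ a = .yS (u 1 + 4) ∨ a = .yS (u 2 + 1) ∨ a.lo = u 3 - 2 ∨ y ≤ a.lo := by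
    simp only [hF, mem_insert, forall_eq_or_imp, Bs.lo, true_or, or_true, true_and]
    exact fun a k => (A.fz a k).imp_right fun k => .inr (.inr (.inr k))
  have fz2 : ∀ a ∈ F'.fz, a.lo ≤ u 2 + 1 ∨ a.lo = u 3 - 2 ∨ y ≤ a.lo := fun a k => by
    rcases fz a k with e | rfl | rfl | e <;> simp only [Bs.lo] at * <;> omega
  have fz' : Fz F' (u 3 - 2) y := fz_of H'.ok fun a k => by have := fz2 a k; omega
  have cw := H'.cw cy' cy (by omega) le_rfl
  obtain ⟨b1, b2, b3, b4⟩ := A.ht.S A.pt (k0 := 2) (k1 := q + 2) (x := u 3 - 2) (y := u (q + 2) + 4)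
    (by omega) (by omega) (by omega) (by omega) (by omega) (by omega) (by omega)
  obtain ⟨c1, c2, c3, -⟩ := A.ht'.S A.pt' (k0 := 2) (k1 := q + 2) (x := u 3 - 2) (y := u (q + 2) + 4)
    (by omega) (by omega) (by omega) (by omega) (by omega) (by omega) (by omega)
  rw [m3, m4, sx, if_neg (by omega)] at b2 b3
  rw [m3', m4', sx, if_pos (by omega)] at c2 c3
  have nt : (Bs.sS (u (q + 2) + 4) : Wl) ≠ ⟨.sS (u (q + 2) + 4), ts⟩ := fun e => A.ne (congrArg Wl.tw e).symm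
  have pp : u (q + 2) + 4 ≤ u (q + 2) + 4 ∧ x < u (q + 2) + 4 ∧ u (q + 2) + 4 < y := by omega
  have C2 := C'.ofJ H' (x' := x) (y' := u 3 - 2) (Q' := Q') (K' := K + 1) (g' := gs y g) nt (by
    simp only [mem_insert, mem_singleton, forall_eq_or_imp, forall_eq]
    exact ⟨⟨trivial, pp, fun σ h => h.sig (ts := []) H' cw (by omega) fz' (by simp) (A.sc.1.fz _) (by omega) b4 b1 b2
      (by erw [b3]; exact Int.cast_nonneg (by omega)) A.sc.2 le_rfl (by omega) (by omega) (by omega) (by omega)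
      fun _ => A.am.cnt⟩, trivial, pp, fun σ h => h.sig H' cw (by omega) fz' (fun τ k => by
        have := A.tw τ k; exact ⟨this.1, by omega, by omega⟩) (A.sc'.1.fz _) (by omega) b4 c1 c2
      (by erw [c3]; exact Int.cast_nonneg (by omega)) A.sc'.2 (by omega) (by omega) (by omega) (by omega) (by omega)
      fun _ => A.am.cnt⟩) le_rfl (by omega) (.inr (by simpa [Bs.lo] using pp.2.1))
  have H2 : Fr P F' n X.z x (u 3 - 2) X.b := H'.mono le_rfl (by omega) (by omega)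
  obtain ⟨a1, a2⟩ := A.ht.s0 A.pt m1 (k := 2) (x := x) (y := u 2 + 1) (by omega) (by omega) (by omega)
    (by omega) (by omega) (by omega)
  rw [m0, m3, sx, if_neg (by omega)] at a2
  have a3 : S F.w n al x (u 1 + 4) + S F.w n al (u 1 + 4) (u 2 + 1) = (Q - Q') / 4 := by
    rw [← S_cut (by omega) (by omega), S_al, a1, a2, hQ]; push_cast; ring
  have C3 := C2.left0 H2 (x' := u 1 + 4) (v' := ((13 - Q') / 4 - S F.w n al (u 1 + 4) (u 2 + 1), 5)) (by omega)
    (by omega) fun σ k => win_hg H'.ls k Y (by omega) le_rfl (by change _ ≤ S F.w _ _ _ _; simp only; linarith)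
  have C4 := C3.left0 (H2.mono (by omega) (by omega) le_rfl) (x' := u 2 + 1) (v' := ((13 - Q') / 4, 5)) (by omega)
    (by omega) fun σ k => win_hg H'.ls k Y le_rfl (by omega) (by change _ ≤ S F.w _ _ _ _; simp only; linarith)
  have H3 : Fr P F' n X.z (u 2 + 1) (u 3 - 2) X.b := H'.mono (by omega) (by omega) (by omega)
  have rd' := rd.mono (a' := u 2 + 1) (b' := u 3 - 2) (by omega) (by omega)
  have cl := A.cc.pre.clJ A.fr.ls A.jo.2.2.1 A.jo.2.2.2.2
  have f' : ∀ a ∈ F'.fz, a ∈ F.fz ∨ a.lo ≤ y := by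
    simp only [hF, mem_insert, forall_eq_or_imp, Bs.lo]
    exact ⟨.inr (by omega), .inr (by omega), .inr (by omega), fun _ => .inl⟩
  have yb := A.fr.yb
  obtain ⟨p, hp⟩ := Ax0_ne H cl ne
  obtain ⟨p', hp', -⟩ := mem_J hp
  refine ⟨Q', F', gs y g, _, n1, ⟨H3, cx', cy', fun a k => by have := fz2 a k; omega, rd',
    (A.am.tr (F' := F') (c' := c) yb rfl (fun _ _ => ⟨rfl, rfl, rfl⟩) sub f' le_rfl (fun _ _ _ => by omega) fun _ => .inl).gs
      (A.am.tr (F' := F') yb rfl (fun _ _ => ⟨rfl, rfl, rfl⟩) sub f' (by omega) (b4.trans A.sc.1.df)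
        fun a k => (walls_J k).imp_right ?_) (by omega) yb cy, n5, C4, ?_⟩, A.pt, A.gap, by omega, Y.1, fun a k => ?_,
    mem_walls.2 ⟨_, mem_J' nt (A.cc.notMem A.fr pp) hp', mem_insert_self _ _⟩, fun p hp => ?_⟩
  · rintro (rfl | rfl) <;> exact pp.2.2.le
  · rwa [← H.frz F _ _ _ sub cl (C4.cl H3 (fi_ft (H3.cw cx' cy' H3.xy le_rfl) (by have := A.fr.bz; omega) (ft_rd rd')
      (vQ_le (by norm_num))))]
  · rcases mem_union.1 k with k | k
    · obtain ⟨a, k', rfl⟩ := mem_image.1 k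
      obtain ⟨p, hp, k⟩ := mem_walls.1 k'
      have := (C3.cell p hp).2.pos H2.yb (mem_image_of_mem Wl.b k)
      exact .inr (.inr (by omega))
    · obtain ⟨-, j, rfl⟩ := H'.ok.fz a k
      rcases fz _ k with e | e | e | e
      exacts [.inr (.inr (.inl (by simp only [Bs.lo, Bs.hi] at *; omega))), .inl e, .inr (.inl e),
        .inr (.inr (.inr (by omega)))]
  · obtain ⟨v, W⟩ := (C3.cell p hp).2.wl
    exact ⟨v, _, W, sub_add_cancel _ _⟩

end Af

/-- the cosmetic junction and its inverse -/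
structure J1 (P : Pm Γ) (κ : Γ.ι) (q : ℕ) (f fi : Γ.J) : Prop where
  src : Γ.src f = (κ, ((q : ℤ), 1))
  tgt : Γ.tgt f = (κ, (-(q : ℤ), 1))
  src' : Γ.src fi = Γ.tgt f
  tgt' : Γ.tgt fi = Γ.src f
  iv : P.iv f fi
  ok : ∀ μ μ', P.Λ.ok f μ μ' ∧ P.Λ.ok fi μ' μ

theorem St.can {f fi : Γ.J} {μ : ℤ} (H : Ax0 P T) (D : J1 P κ q f fi)
    (h : St P T κ X (q, 1) μ 5 F n x y Q K g d c) (L : x + 8 ≤ y) :
    ∃ F n c, St P T κ X (-(q : ℤ), 1) (q - q) (kap q) F n (x + 3) (y - 3) Q K g d c := by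
  have lo := h.fr.lo
  have hi := (cut_lt h.fr.ok h.cy).2
  have yz := h.fr.yb.trans h.fr.bz
  have rd : Rd F.w n (Γ.src f).1 (Γ.src f).2 μ (x + 2 - 1) (y - 2 + 1) := D.src ▸ h.rd.mono (by omega) (by omega)
  have ok := can_ok (μ' := q - q) h.fr.ok.w h.fr.lok.ok (by omega) (by omega) (by omega) rd D.src' D.tgt'
    (D.tgt ▸ ⟨(1, 0), .inr (by simp [dt])⟩) (D.ok _ _).1 (D.ok _ _).2
  have ag := can_ag (w := F.w) (J := f) (J' := fi) (μ' := q - q) n (show x + 2 < y - 2 by omega)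
  have r2 := can_rd (w := F.w) (J := f) (J' := fi) (x := x + 2) (y := y - 2) (μ' := q - q) n
  obtain ⟨x1, -⟩ := can_x (w := F.w) (J := f) (J' := fi) (μ' := q - q) n (show x + 2 < y - 2 by omega)
  obtain ⟨y1, -⟩ := can_y (w := F.w) (J := f) (J' := fi) (μ' := q - q) n (show x + 2 < y - 2 by omega)
  have can := can_can (J' := fi) (by omega) (show x + 2 < y - 2 by omega) (by omega) rd
  rw [D.tgt, show x + 2 + 1 = x + 3 by ring, show y - 2 - 1 = y - 3 by ring] at r2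
  set w := Wd38.Shp.can F.w f fi (x + 2) (y - 2) with hw
  have sl : ∀ j, x ≤ j → j ≤ y → (w.s j).l.2 = if x + 2 < j ∧ j ≤ y - 2 then (-(q : ℤ), 1) else ((q : ℤ), 1) :=
    fun j a b => by
      rcases (show j < x + 2 ∨ y - 2 < j ∨ j = x + 2 ∨ j = y - 2 ∨ (x + 3 ≤ j ∧ j ≤ y - 3) by omega) with
        e | e | rfl | rfl | e
      · rw [(ag j (.inl e)).1, (h.rd j a b).1, if_neg (by omega)]; rfl
      · rw [(ag j (.inr e)).1, (h.rd j a b).1, if_neg (by omega)]; rfl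
      · rw [x1, if_neg (by omega), Sl.l, D.src]
      · rw [y1, if_pos (by omega), Sl.l, D.src', D.tgt]
      · rw [(r2 j e.1 e.2).1, if_pos (by omega)]; rfl
  have sr : ∀ j, x ≤ j → j ≤ y → (w.s j).r.2 = if x + 2 ≤ j ∧ j < y - 2 then (-(q : ℤ), 1) else ((q : ℤ), 1) :=
    fun j a b => by
      rcases (show j < x + 2 ∨ y - 2 < j ∨ j = x + 2 ∨ j = y - 2 ∨ (x + 3 ≤ j ∧ j ≤ y - 3) by omega) with
        e | e | rfl | rfl | e
      · rw [(ag j (.inl e)).1, (h.rd j a b).1, if_neg (by omega)]; rfl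
      · rw [(ag j (.inr e)).1, (h.rd j a b).1, if_neg (by omega)]; rfl
      · rw [x1, if_pos (by omega), Sl.r, D.tgt]
      · rw [y1, if_neg (by omega), Sl.r, D.tgt', D.src]
      · rw [(r2 j e.1 e.2).1, if_pos (by omega)]; rfl
  have ft : Ft w x y := fun j a b => by
    rw [Shp.lf, Shp.rt, sl j a.le b, sr _ (by omega) (by omega)]
    split_ifs <;> first | exact Wd38.dt_self _ | omega
  have H' := h.fr.tr ok.1 ok.2 (fun j => by
    by_cases e : x ≤ j ∧ j ≤ y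
    · rw [sl j e.1 e.2, sr j e.1 e.2]; split_ifs <;> simp
    · rw [(ag j (by omega)).1]; exact h.fr.p1 j) rfl rfl (fun j k => (ag j (by omega)).1) rfl rfl
  have C' := h.cc.tr h.fr (F' := { F with w := w }) (Wt.can (x + 2) (y - 2) (q - q)) h.fr.ls rfl rfl
    (ag.mono fun j k => by omega) Subset.rfl fun _ => .inl
  have cx : Fm.Cut { F with w := w } x := ⟨h.cx.1, (ag x (by omega)).1 ▸ h.cx.2⟩
  have cy : Fm.Cut { F with w := w } y := ⟨h.cy.1, (ag y (by omega)).1 ▸ h.cy.2⟩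
  have cl := C'.cl H' (fi_ft (H'.cw cx cy H'.xy le_rfl) yz ft (vQ_le (by norm_num)))
  have e1 := h.cc.can h.fr H can D.iv (by rw [D.src]; exact one_ne_zero) can_chg (by omega) (by omega) h.fz
    (fi_ft (h.fr.cw h.cx h.cy h.fr.xy le_rfl) yz (ft_rd h.rd) (vQ_le (by norm_num))) cl
  have sub : F.fz ⊆ insert (.yS (x + 3)) (insert (.yS (y - 3)) F.fz) := (subset_insert _ _).trans (subset_insert _ _)
  have H2 := H'.frz sub (by
    simp only [mem_insert, forall_eq_or_imp]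
    exact ⟨.inr ⟨_, rfl, by omega, by omega⟩, .inr ⟨_, rfl, by omega, by omega⟩, fun _ => .inl⟩)
  have C2 := C'.frz H' sub (by
    simp only [mem_insert, forall_eq_or_imp, Bs.lo, Bs.hi]
    exact ⟨.inr (by omega), .inr (by omega), fun _ => .inl⟩)
  set F' : Fm Γ := ⟨w, insert (.yS (x + 3)) (insert (.yS (y - 3)) F.fz), F.ls⟩ with hF
  have cx' : F'.Cut (x + 3) := ⟨by simp [hF], by rw [(r2 _ le_rfl (by omega)).1]; exact one_ne_zero⟩
  have cy' : F'.Cut (y - 3) := ⟨by simp [hF], by rw [(r2 _ (by omega) le_rfl).1]; exact one_ne_zero⟩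
  have f1 : Ft w x (x + 3) := fun j a b => ft j a (by omega)
  have f2 : Ft w (y - 3) y := fun j a b => ft j (by omega) b
  have C3 := (C2.left0 H2 (x' := x + 3) (v' := ((13 - Q) / 4, kap q)) (by omega) (by omega) fun σ k =>
    win_ft (H2.cw ⟨sub cx.1, cx.2⟩ cx' (by omega) (by omega)) (by omega) f1 ⟨le_rfl, kap_le.2.2⟩ (by simp [k])).right0
    (Q' := Q) (y' := y - 3) (H2.mono (by omega) (by omega) le_rfl) (by omega) (by omega) (fun σ k =>
      win_ft (H2.cw cy' ⟨sub cy.1, cy.2⟩ (by omega) le_rfl) yz f2 le_rfl (by simp [k])) (by erw [f2.S vn_al]; ring)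
  have H3 : Fr P F' _ X.z (x + 3) (y - 3) X.b := H2.mono (by omega) (by omega) (by omega)
  refine ⟨F', _, _, H3, cx', cy', ?_, r2, h.am.tr h.fr.yb rfl (ag.mono fun j k => by omega) sub ?_ (by omega) f2.df
    fun a k => .inl (walls_mp _ a k), h.q, C3, ?_⟩
  · simp only [hF, mem_insert, forall_eq_or_imp, Bs.lo, le_refl, true_or, or_true, true_and]
    exact fun a k => (h.fz a k).imp (fun k => k.trans (by omega)) fun k => le_trans (by omega) k
  · simp only [hF, mem_insert, forall_eq_or_imp, Bs.lo]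
    exact ⟨.inr (by omega), .inr (by omega), fun _ => .inl⟩
  · rw [← H.frz { F with w := w } _ _ _ sub cl (C3.cl H3 (fi_ft (H3.cw cx' cy' H3.xy le_rfl) (by omega) (ft_rd r2)
      (vQ_le kap_le.1))), e1]
    exact h.ne

end Crest.Agent.X212.Nm96
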