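import Crest.Agent.X212.Nm96.Pg

/-!
# Row 212, `p = 1` (helper96), part h: the walk
-/

set_option autoImplicit false
noncomputable section

namespace Crest.Agent.X212.Nm96

open Crest.Agent.X212.Rod53 Crest.Agent.X212.Wd38 Finset Cn

variable {Γ : Nm} {P : Pm Γ} {T : WTh Γ} {X : Fx Γ} {κ : Γ.ι} {q : ℕ} {f fi : Γ.J}

/-- the end of a descent -/
def En (P : Pm Γ) (T : WTh Γ) (κ : Γ.ι) (X : Fx Γ) (q A K : ℕ) : Prop := ∃ i tL tR Q F n u g d c,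
  Tr P T κ X q i tL tR Q F n u K g d c ∧ u 3 = u 2 + 8 + A ∧ (A = 0 → Off q u)

/-- **the descent** -/
theorem desc (H : Ax0 P T) (A i : ℕ) (h1 : 1 ≤ i) (h2 : i ≤ q) : ∃ L : ℕ, ∀ F n x y Q K g d c,
    St P T κ X (-(i : ℤ), 1) (q - i) (kap i) F n x y Q K g d c → x + L ≤ y → En P T κ X q A (K + 1) := by
  have key : ∀ i : ℕ, 1 ≤ i → i ≤ q → ∀ (B : ℕ) F n x y Q K g d c,
      St P T κ X (-(i : ℤ), 1) (q - i) (kap i) F n x y Q K g d c → x + (8 * (q + i + 3) + A + B : ℕ) ≤ y →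
      En P T κ X q A (K + 1) ∨ ∃ tL tR l F n u c ts, Af P T κ X q i tL tR l F n u x y Q K g d c ts ∧
        u (q + i + 1) + 8 + B ≤ u (q + i + 2) ∧
        T.Z F (d + 1) (J (Bs.sA (x + 2) (u (q + i + 1) + 2)) (Bs.sS (u (q + 2) + 4)) c) ≠ 0 := by
    intro i h1 h2 B F n x y Q K g d c h L
    obtain ⟨tL, tR, l, N⟩ := num h1 h2 h.q
    obtain ⟨u, hu⟩ : ∃ u : ℕ → ℤ, ∀ k, u k = x + 8 * k + (if 3 ≤ k then (A : ℤ) else 0) +
        if q + i + 2 ≤ k then y + 1 - x - 8 * (q + i + 3) - A else 0 := ⟨_, fun _ => rfl⟩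
    obtain ⟨F, n, c, ts, a, ne⟩ := turn1 (u := u) H h N (fun k => by rw [hu, hu]; split_ifs <;> omega)
      (by rw [hu]; split_ifs <;> omega) (by rw [hu]; split_ifs <;> omega)
    rw [a.br H] at ne
    by_cases e : T.Z F (d + 1) (J (Bs.sA (x + 2) (u (q + i + 1) + 2)) (Bs.sS (u (q + 2) + 4)) c) = 0
    · obtain ⟨Q, F, g, c, t⟩ := a.hr H (by rwa [e, zero_add] at ne)
      exact .inl ⟨_, _, _, _, _, _, _, _, _, _, t, by rw [hu, hu]; split_ifs <;> omega,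
        fun e k p r => by rw [hu, hu]; split_ifs <;> omega⟩
    · exact .inr ⟨_, _, _, _, _, _, _, _, a, by rw [hu, hu]; split_ifs <;> omega, e⟩
  induction i, h1 using Nat.le_induction with
  | base =>
    refine ⟨_, fun F n x y Q K g d c h L => (key 1 le_rfl h2 0 F n x y Q K g d c h L).resolve_right ?_⟩
    rintro ⟨_, _, _, _, _, _, _, _, a, -, ne⟩
    exact ne (a.one H rfl)
  | succ i h1 ih =>
    obtain ⟨B, ih⟩ := ih (by omega)
    refine ⟨_, fun F n x y Q K g d c h L => (key (i + 1) (by omega) h2 B F n x y Q K g d c h L).elim id ?_⟩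
    rintro ⟨_, _, _, _, _, _, _, _, a, k, ne⟩
    obtain ⟨F, c, s⟩ := a.hl H h1 ne
    exact ih _ _ _ _ _ _ _ _ _ s (by omega)

/-- **the walk** -/
theorem walk1 (H : Ax0 P T) (D : J1 P κ q f fi) (h1 : 1 ≤ q) (r : ℕ) : ∃ L : ℕ, ∀ μ F n x y Q K g d c,
    St P T κ X (q, 1) μ 5 F n x y Q K g d c → x + L ≤ y → En P T κ X q 0 (K + r + 1) := by
  induction r with
  | zero =>
    obtain ⟨L, k⟩ := desc (X := X) (κ := κ) H 0 q h1 le_rfl
    refine ⟨L + 8, fun μ F n x y Q K g d c h l => ?_⟩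
    obtain ⟨F, n, c, s⟩ := h.can H D (by omega)
    exact k _ _ _ _ _ _ _ _ _ s (by omega)
  | succ r ih =>
    obtain ⟨A, ih⟩ := ih
    obtain ⟨L, k⟩ := desc (X := X) (κ := κ) H A q h1 le_rfl
    refine ⟨L + 8, fun μ F n x y Q K g d c h l => ?_⟩
    obtain ⟨F, n, c, s⟩ := h.can H D (by omega)
    obtain ⟨i, tL, tR, Q, F, n, u, g, d, c, t, e, -⟩ := k _ _ _ _ _ _ _ _ _ s (by omega)
    rw [show K + (r + 1) + 1 = K + 1 + r + 1 by omega]
    exact ih _ _ _ _ _ _ _ _ _ _ t.st (by omega)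

/-- **`p = 1`** from the entry and the terminal statement -/
theorem opp_of (tr : TrStmt) (en : EnStmt) {c ci : Γ.J} (H : Ax0 P T) (Fw : Tm38.FactW P T) (E : Ent P κ c ci)
    (D : J1 P κ q f fi) (h1 : 1 ≤ q) : False := by
  obtain ⟨X, hX⟩ := en P T κ c ci q h1 H E
  choose N hN using fun t : ℕ × ℕ × ℕ × ℤ => tr P T κ X q t.1 t.2.1 t.2.2.1 t.2.2.2 Fw
  obtain ⟨L, k⟩ := walk1 (X := X) H D h1 ((range (q + 1) ×ˢ range (q + 1) ×ˢ range (q + 1) ×ˢ Icc (-2) 5).sup N)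
  obtain ⟨μ, F, n, x, y, Q, d, c, s, l⟩ := hX L
  obtain ⟨i, tL, tR, Q, F, n, u, g, d, c, t, -, o⟩ := k _ _ _ _ _ _ _ _ _ _ s l
  refine hN (i, tL, tR, Q) _ _ _ _ _ _ _ ((le_sup ?_).trans (Nat.le_succ_of_le (Nat.le_add_left _ 0))) (o rfl) t
  have := t.i1
  have := t.st.q
  simp only [mem_product, mem_range, mem_Icc]
  omega

end Crest.Agent.X212.Nm96
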