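import Crest.Agent.X212.Nm96.Ph

/-!
# Row 212, `p = 1` (helper96), part i: the entry
-/

set_option autoImplicit false
noncomputable section

namespace Crest.Agent.X212.Nm96

open Crest.Agent.X212.Rod53 Crest.Agent.X212.Wd38 Finset Cn

variable {Γ : Nm} {P : Pm Γ} {T : WTh Γ} {X : Fx Γ} {F F₀ : Fm Γ} {n n₀ : Wt} {κ : Γ.ι} {u g m : ℕ → ℤ}
  {x y z s t x' y' μ Q : ℤ} {q r d K N : ℕ} {c c₀ : Cn} {V : ℕ → Z2} {v v' : ℝ × ℝ}

/-- the first state -/
theorem st_of (H : Ax0 P T) (S : Sam t F₀ n₀ c₀ F n c) (h : SKs P T κ 0 F n z t d c x μ) (lt : x < t) :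
    ∃ F, St P T κ ⟨F₀, n₀, c₀.walls.image Wl.b ∪ F₀.fz, z, t⟩ (1, 1) μ 5 F n x t 5 0 (fun _ => 0) d c := by
  have B := h.bas
  obtain ⟨ct, -, cz⟩ := B.hi.resolve_right (by have := h.tr; omega)
  have rd : Rd F.w n κ (1, 1) μ x t := h.rd
  have H0 : Fr P F n z x t t := ⟨B.ok, B.ls, B.lok, B.p1, h.lo, lt, le_rfl, h.tz, cz⟩
  have sub : F.fz ⊆ insert (.yS x) F.fz := subset_insert _ _
  have H1 := H0.frz sub (by
    simp only [mem_insert, forall_eq_or_imp]; exact ⟨.inr ⟨_, rfl, le_rfl, lt.le⟩, fun _ => .inl⟩)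
  set F' : Fm Γ := { F with fz := insert (.yS x) F.fz } with hF
  have cx : F'.Cut x := ⟨mem_insert_self _ _, by rw [(rd x le_rfl lt.le).1]; exact one_ne_zero⟩
  have cy : F'.Cut t := ⟨sub ct.1, ct.2⟩
  have C : Cc P F' n z x t t ((13 - (5 : ℤ)) / 4, 5) 5 0 (fun _ => 0) d c := by
    refine ⟨h.ch.pre, fun p hp => ?_, fun p hp q hq => ?_⟩
    · obtain ⟨e, tw, k⟩ := h.ch.cell p hp
      have k := k.tr (F' := F') (n' := n) B.ls B.ls rfl rfl (fun _ _ => ⟨rfl, rfl, rfl⟩) sub (by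
        simp only [hF, mem_insert, forall_eq_or_imp]; exact ⟨.inr lt.le, fun _ => .inl⟩)
      have o := fun a i => k.ok _ (mem_image_of_mem Wl.b (a := a) i)
      have e0 : wn t t (p.2.image Wl.b) = ∅ := eq_empty_of_forall_notMem fun a i => by have := mem_wn.1 i; omega
      refine ⟨e, fun a i a' i' e => ?_, fun a i => ⟨(o a i).2.1, (o a i).2.2, .inr (.inr ⟨tw a i, (o a i).1⟩)⟩, k.far,
        fun a i => k.fz _ (mem_image_of_mem _ i), head ⟨B.ls, B.ok.w, B.p1, (sub_one_lt _).trans h.lo, .inl rfl,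
          .inl ⟨cx, lt.le.trans h.tz⟩⟩ fun A hA _ => ?_, ⟨[], by simp, trivial, tw, (k.win h.tr).mono
          ⟨by simp [vT, vQ]; norm_num, by simp [vT, vQ]⟩ le_rfl, ?_, by rw [e0]; rfl, fun j a b i => ?_⟩, k.win h.tr⟩
      · have := tw a i; have := tw a' i'
        cases a; cases a'; simp_all
      · rw [show A = ∅ from eq_empty_of_forall_notMem fun a i => by
          have := mem_wn.1 (hA i); have := k.ok a this.1; omega]
        exact br_nil
      · rw [pot, e0, S_self]; simp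
      · have : t < j := (k.ok _ i).1
        omega
    · have o : ∀ p ∈ c.support, ∀ a ∈ p.2, t < a.b.lo ∧ a.b.lo ≤ a.b.hi := fun p hp a i =>
        have := (h.ch.cell p hp).2.2.ok _ (mem_image_of_mem Wl.b i)
        ⟨this.1, (wf_of_ok this.2.2).1.1⟩
      rwa [filter_false_of_mem fun a i => by have := o p hp a i; omega, empty_union,
        filter_true_of_mem fun a i => by have := o q hq a i; omega]
  refine ⟨F', H1, cx, cy, ?_, rd, ⟨cy, fun _ a b => (b.not_gt a).elim, by simp, by simp, S.r, S.aq, ?_, fun a k _ =>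
    mem_union_left _ (mem_image_of_mem _ (walls_mp _ a (S.c ▸ k)))⟩, by norm_num, C, ?_⟩
  · simp only [hF, mem_insert, forall_eq_or_imp]; exact ⟨.inl le_rfl, fun a k => .inr (B.fz a k)⟩
  · simp only [hF, mem_insert, forall_eq_or_imp]
    exact ⟨fun k => (k.not_gt lt).elim, fun a k _ => mem_union_right _ (S.fz ▸ k)⟩
  · rw [← H.frz F _ _ _ sub (h.ch.cl B) (C.cl H1 (fi_ft (H1.cw cx cy lt le_rfl) h.tz (ft_rd rd)
      (vQ_le (by norm_num))))]
    exact h.ne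

/-- left of a slice, an arc right of it -/
theorem pc_la {σ : Finset Bs} {η : Bs → Bool} {k : ℤ} (H : Cw F s t z) (o : (Bs.sA x y).OK F.w)
    (o' : (Bs.sS x').OK F.w) (h : s < x') (h1 : x' < x) (h' : y < t) (hη : η (.sA x y) = true)
    (hη' : η (.sS x') = false)
    (e : Nq F n {.sA x y, .sS x'} η s t z (-v.1) (-v.2) (S F.w n lp s x') (S F.w n uu s x') 0 0 (-k)) :
    F.Pc z 0 n σ {.sA x y, .sS x'} (cf k) s t v v' η :=
  have xy := o.1.lt
  have ne : Bs.sA x y ≠ .sS x' := nofun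
  pc_ne (x := s) (y := x') (x' := x') (y' := x') H (by simp [Bs.pin, Bs.hi, o, o', h']; omega) {.sS x'}
    (fun c a b => by simp [InV, Bs.side, hη, hη', a]; omega)
    (fun b => by
      rw [adj_two ne]
      simp [Bs.lo, Bs.side, hη, hη', h.le, show x' < t by omega, show ¬x ≤ x' by omega, show x' ≤ x by omega])
    le_rfl le_rfl (by omega) h.le le_rfl (by simp [S_self, sv, Bs.arc]) (by simp [S_self, sv, Bs.arc]) asum_nn
    (by simp [dp, InV, Bs.side, hη, hη', h, show x' < t by omega, show s < x by omega])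
    (by simp [dp, InV, Bs.side, hη, hη', h, show x' < t by omega, show s < x by omega])
    (fun ε => by rw [sum_singleton]; simp [Bs.side, Bs.lo, Bs.arc, cf, hη']) e

/-- a turn on the gap -/
theorem St.rf {τ : Z2} {k : ℝ} {x₁ y₁ x₂ y₂ : ℤ} (H : Ax0 P T) (h : St P T κ X τ μ k F n x y Q K g d c) (k0 : 0 ≤ k)
    (tq : Tq F.w n κ u V m N) (u0 : u 0 = x) (u1 : x + 1 < u 1) (u2 : u N < y) (uN : u (N + 1) = y + 1)
    (H' : Fr P { F with w := pw F.w κ u V N } (pn u m N n) X.z x y X.b)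
    (C' : Cc P { F with w := pw F.w κ u V N } (pn u m N n) X.z x y X.b ((13 - Q) / 4, k) Q K g d
      (c.mp (pn u m N) id ∅))
    (W : Tw1 { F with w := pw F.w κ u V N } (pn u m N n) X.z x y ((13 - Q) / 4, k) (vQ Q))
    (a : Ar { F with w := pw F.w κ u V N } (pn u m N n) x y x₁ y₁) (a1 : x + 1 < x₁) (a2 : y₁ < y - 1)
    (e : Ar { F with w := pw F.w κ u V N } (pn u m N n) x y x₂ y₂) (e1 : x + 1 < x₂) (e2 : y₂ < y - 1)
    (rs : Fm.RS ⟨pw F.w κ u V N, F.fz, ∅⟩ (pn u m N n) (x + 1) (y - 1) (.sA x₁ y₁) (.sA x₂ y₂)) :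
    T.Z { F with w := pw F.w κ u V N } (d + 1) (J (Bs.sA x₁ y₁) (Bs.sA x₂ y₂) (c.mp (pn u m N) id ∅)) ≠ 0 := by
  have g2 := tq.mono.monotone tq.pos
  have ag := (pw_ag (w := F.w) (κ := κ) (u := u) (V := V) (m := m) (N := N) n).mono
    (s' := fun j => j ≤ x + 1 ∨ y - 1 ≤ j) fun j k => by omega
  have cw := h.fr.cw h.cx h.cy h.fr.xy le_rfl
  have yz := h.fr.yb.trans h.fr.bz
  have sur := tq.sur (x := x + 1) (y := y - 1) (by omega) (by omega) (by omega) (by omega)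
  have r0 := h.rd (x + 1) (by omega) (by omega)
  have r1 := h.rd (y - 1) (by omega) (by omega)
  have R : ∀ {w n}, w.Rg (x + 1) (y - 1) → Pr (w.s (x + 1)).r.2 → w.s (x + 1) = .rod (κ, τ) →
      w.s (y - 1) = .rod (κ, τ) → n.nl (y - 1) = n.nr (x + 1) →
      (Bs.rA (x + 1) (y - 1)).OK w ∧ (Bs.rA (x + 1) (y - 1)).OKn w n := fun a p b c e =>
    ⟨⟨a, .inl (by rw [b, c]; rfl)⟩, fun _ => e, fun k => (Pr.ne_neg p (by rw [b, c] at *; exact k)).elim⟩
  have pr := (h.fr.ok.w.pr (x + 1) sur.rg'.lo (sur.rg'.lt.le.trans sur.rg'.hi)).2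
  obtain ⟨o1, o2⟩ := R (n := n) sur.rg' pr r0.1 r1.1 (r1.2.1.trans r0.2.2.symm)
  obtain ⟨a1', a2', a3⟩ := ag (x + 1) (.inl le_rfl)
  obtain ⟨b1, b2, b3⟩ := ag (y - 1) (.inr le_rfl)
  obtain ⟨o3, o4⟩ := R sur.rg (a1' ▸ pr) (a1'.trans r0.1) (b1.trans r1.1)
    (b2.trans (r1.2.1.trans (r0.2.2.symm.trans a3.symm)))
  have fz : Fz { F with w := pw F.w κ u V N } x y := fz_of H'.ok h.fz
  have one := fun a (i : Wa _ x y [] a) => inn_one H'.ls fz (by simp) i
  rw [h.cc.rf h.fr H C' H' sur (by omega) (by omega) (fun j a b => by rw [r0.1]; exact (h.rd j (by omega) (by omega)).1)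
    (pn_chg (by omega) (by omega)) (h.fr.ls ▸ rs) (fi_ft cw yz (ft_rd h.rd) (vQ_le k0))
    ⟨[], inn_one h.fr.ls (fz_of h.fr.ok h.fz) (by simp)
      ⟨o1, by change x < x + 1; omega, by change y - 1 < y; omega, .inl rfl⟩, by simpa [acts] using o2,
      fun σ k => win_ft cw yz (ft_rd h.rd) (vQ_le k0) (by simp [k, Bs.pin])⟩
    (W.fiR fz a o3 o4 (by omega) a1 a2 (by omega)) (W.fiR fz e o3 o4 (by omega) e1 e2 (by omega))
    (C'.jo H' (Tw1.fi1 (ts := []) W (one _ a.wa) trivial (W.a a)) trivial)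
    (C'.jo H' (Tw1.fi1 (ts := []) W (one _ e.wa) trivial (W.a e)) trivial)]
  exact h.ne

/-- the rods of the entry turn -/
def VE (q k : ℕ) : Z2 := if k = 0 then (1, 1) else if k = 1 then (0, 1) else if k = 2 then (1, 0) else
  ((q : ℤ) + 3 - k, 1)

/-- its orders -/
def mE (μ : ℤ) (r k : ℕ) : ℤ := if k = 0 then μ else if k = 1 then μ - 1 else if k = 2 then 1 else
  μ + 2 * (r - (k - 3) : ℕ)

theorem ht_E : Ht (VE q) (mE μ r) (q + 2) 2 0 (q + 3) :=
  ⟨rfl, fun k h => by rw [VE, if_neg (by omega), if_neg (by omega), if_neg (by omega)], fun k h _ => by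
    rw [if_neg (by omega)]; unfold mE; split_ifs <;> first | contradiction | omega⟩

theorem pr_E (a : ℕ → ℤ) : ∑ k ∈ Ioc 0 (q + 2), lb (VE q (k - 1)) (VE q k) (a (k - 1)) (a k) (cl 0 1 (k - 1))
    (cl 0 1 k) = (a 0 - a 1 - a 2 : ℤ) := by
  rw [sum_eq_add 1 2 (by omega) (fun k hk e => ?_) (fun k => (k (mem_Ioc.2 (by omega))).elim)
    fun k => (k (mem_Ioc.2 (by omega))).elim]
  · simp [VE, cl, lb, dt, rho]; ring
  · rw [mem_Ioc] at hk
    rw [cl, cl, if_neg (by omega), if_neg (by omega)]; simp [lb]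

theorem rs_E {w : Shp Γ} (tq : Tq w n κ u (VE q) (mE μ r) (q + 2)) (ok : w.OK) (fz : Finset Bs) (h1 : 1 ≤ q)
    (gap : ∀ k, u k + 8 ≤ u (k + 1)) (u0 : u 0 = x) (uN : u (q + 2 + 1) = y + 1) :
    Fm.RS ⟨pw w κ u (VE q) (q + 2), fz, ∅⟩ (pn u (mE μ r) (q + 2) n) (x + 1) (y - 1)
      (.sA (x + 2) (u 2 + 1)) (.sA (u 1 + 2) (u (q + 2) + 1)) := by
  have g0 : u 0 + 8 ≤ u 1 := gap 0
  have g1 := gap (q + 2)
  have g2 : u 1 + 8 ≤ u (1 + 1) := gap 1
  have g3 := tq.mono.monotone (show 2 ≤ q + 2 by omega)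
  have g4 : u (0 + 1) = u 1 := rfl
  have ht := ht_E (q := q) (μ := μ) (r := r)
  refine tq.rs (by omega) (by omega) (by omega) (by omega) ok fz rfl
    (fun k : Fin q => if k.1 = 0 then cl 0 1 else cl 2 (k + 2)) ⟨0, h1⟩ (fun k => ?_) (fun a b => ?_)
    (fun a => ?_) (k0 := 0) (k1 := 2) (k0' := 1) (k1' := q + 2) (b := 0) (b' := -1) (by omega) (by omega)
    (by omega) (by omega) (by omega) (by omega) (by omega) (by omega) (fun k a b => ?_) (fun k a b => ?_) (by decide)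
  · split_ifs <;> exact ⟨rfl, if_neg (by omega)⟩
  · by_cases e : b.1 = 0
    · simp only [if_pos e, pr_E, Fin.ext_iff]
      split_ifs <;> first | omega | simp [cl]
    · simp only [if_neg e, Fin.ext_iff]
      rw [ht.pr _ (by omega) (by omega)]
      split_ifs <;> simp only [cl] <;> split_ifs <;> first | omega | simp
  · by_cases e : a.1 = 0
    · simp only [if_pos e, pr_E, Fin.ext_iff]
      simp [mE]
    · simp only [if_neg e, Fin.ext_iff]
      rw [ht.pr _ (by omega) (by omega), show mE μ r 2 = 1 from rfl]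
      have := ht.h (a + 2) (by omega) (by omega)
      rw [if_neg (by omega)] at this
      rcases this with e | e <;> rw [e] <;> norm_num
  · rw [if_pos rfl, cl, if_neg (by omega)]; simp
  · rcases (show k = 0 ∨ k = 1 ∨ k = q + 2 by omega) with rfl | rfl | rfl
    · simp [cl, Wd38.dt_self]
    · simp [cl, VE, dt]
    · rw [tq.vN, if_pos rfl, cl, if_neg (by omega)]; simp [Wd38.dt_self]

/-- **the entry turn** -/
theorem St.ent (H : Ax0 P T) (h : St P T κ X (1, 1) μ 5 F n x y 5 K g d c) (h2 : 2 ≤ q)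
    (gap : ∀ k, u k + 8 ≤ u (k + 1)) (u0 : u 0 = x) (uN : u (q + 2 + 1) = y + 1) :
    ∃ μ F n Q c, St P T κ X (q, 1) μ 5 F n (u 3 + 1) (u 4 - 2) Q K g (d + 1) c := by
  obtain ⟨r, hr⟩ : ∃ r : ℕ, q - 1 ≤ 4 * r ∧ 4 * r ≤ q + 2 := ⟨(q + 2) / 4, by omega⟩
  have ht := ht_E (q := q) (μ := μ) (r := r)
  have mono : StrictMono u := strictMono_nat_of_lt_succ fun k => by have := gap k; omega
  have g0 : u 0 + 8 ≤ u 1 := gap 0
  have g1 : u 1 + 8 ≤ u 2 := gap 1
  have g2 : u 2 + 8 ≤ u 3 := gap 2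
  have g3 : u 3 + 8 ≤ u 4 := gap 3
  have g4 := mono.monotone (show 4 ≤ q + 2 by omega)
  have g5 := gap (q + 2)
  have g6 : u (0 + 1) = u 1 ∧ u (1 + 1) = u 2 ∧ u (2 + 1) = u 3 ∧ u (3 + 1) = u 4 := ⟨rfl, rfl, rfl, rfl⟩
  have mN : mE μ r (q + 2) = μ := by
    rw [mE, if_neg (by omega), if_neg (by omega), if_neg (by omega), show r - (q + 2 - 3) = 0 by omega]; simp
  have vN : VE q (q + 2) = (1, 1) := by rw [ht.v _ (by omega)]; simp
  have yr := cut_lt h.fr.ok h.cy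
  have yz := h.fr.yb.trans h.fr.bz
  have tq : Tq F.w n κ u (VE q) (mE μ r) (q + 2) :=
    ⟨mono, u0 ▸ h.fr.lo, by omega, by omega, by rw [u0, uN, add_sub_cancel_right]; exact h.rd, fun k hk => by
      rcases k with _ | _ | _ | k
      · exact .inl (by simp [VE, dt])
      · exact .inr (by simp [VE, dt])
      · exact .inl (by simp [VE, dt])
      · rw [ht.d (by omega), ht.v (k + 1 + 1 + 1 + 1) (by omega)]; exact .inl (by simp [dt]), vN, mN⟩
  have ag := (pw_ag (w := F.w) (κ := κ) (u := u) (V := VE q) (m := mE μ r) (N := q + 2) n).mono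
    (s' := fun j => j ≤ x ∨ y ≤ j) fun j k => by omega
  have ok := tq.ok h.fr.ok.w h.fr.lok.ok
  have H1 := h.fr.tr ok.1 ok.2 (p1_pw h.fr.p1 fun k => by unfold VE; split_ifs <;> simp) rfl rfl
    (fun j k => (ag j k).1) rfl rfl
  have C1 := h.cc.tr h.fr (F' := { F with w := pw F.w κ u (VE q) (q + 2) }) (pn u (mE μ r) (q + 2)) h.fr.ls rfl rfl ag
    Subset.rfl fun _ => .inl
  have am := h.am.tr (F' := { F with w := pw F.w κ u (VE q) (q + 2) }) h.fr.yb rfl (ag.mono fun j k => .inr k)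
    Subset.rfl (fun _ => .inl) le_rfl (fun _ _ _ => by omega) fun a k => .inl (walls_mp (pn u (mE μ r) (q + 2)) a k)
  have rf := fun W a a1 a2 e e1 e2 => h.rf H (by norm_num) tq u0 (by omega) (by omega) uN H1 C1 W a a1 a2 e e1 e2
    (rs_E tq h.fr.ok.w F.fz (by omega) gap u0 uN)
  have pt := tq.pt
  have cx : Fm.Cut { F with w := pw F.w κ u (VE q) (q + 2) } x := ⟨h.cx.1, (ag x (.inl le_rfl)).1 ▸ h.cx.2⟩
  have cy : Fm.Cut { F with w := pw F.w κ u (VE q) (q + 2) } y := ⟨h.cy.1, (ag y (.inr le_rfl)).1 ▸ h.cy.2⟩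
  have fz0 : ∀ a ∈ Fm.fz { F with w := pw F.w κ u (VE q) (q + 2) }, a.lo ≤ x ∨ y ≤ a.lo := h.fz
  change Pt (Fm.w { F with w := pw F.w κ u (VE q) (q + 2) }) _ _ _ _ _ _ at pt
  clear tq ag ok
  generalize ({ F with w := pw F.w κ u (VE q) (q + 2) } : Fm Γ) = F at *
  generalize c.mp (pn u (mE μ r) (q + 2)) id ∅ = c at *
  generalize pn u (mE μ r) (q + 2) n = n at *
  have s01 : ∀ a b, u 0 ≤ a → a < u 1 → u 1 ≤ b → b < u 2 → S F.w n lp a b = 0 ∧ S F.w n uu a b = 0 :=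
    fun a b a0 a1 b0 b1 => by
      rw [pt.S vn_lp (k0 := 0) (k1 := 1) (by omega) a0 a1 b0 b1, pt.S vn_uu (k0 := 0) (k1 := 1) (by omega) a0 a1 b0 b1,
        show Ioc 0 1 = {1} from rfl, sum_singleton, sum_singleton]
      have := v_d 0 μ (μ - 1)
      exact ⟨this.1, this.2.trans (by push_cast; ring)⟩
  have s12 : ∀ a b, u 1 ≤ a → a < u 2 → u 2 ≤ b → b < u 3 →
      S F.w n lp a b = 1 / 2 ∧ S F.w n uu a b = 2 - 2 * μ := fun a b a0 a1 b0 b1 => by
    rw [pt.S vn_lp (k0 := 1) (k1 := 2) (by omega) a0 a1 b0 b1, pt.S vn_uu (k0 := 1) (k1 := 2) (by omega) a0 a1 b0 b1,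
      show Ioc 1 2 = {2} from rfl, sum_singleton, sum_singleton]
    exact ⟨(v_l 0 _ _).1, (v_l 0 (μ - 1) 0).2.trans (by push_cast; ring)⟩
  have s1k : ∀ a b k, u 1 ≤ a → a < u 2 → 2 < k → k ≤ q + 2 → u k ≤ b → b < u (k + 1) →
      S F.w n lp a b = 1 ∧ S F.w n uu a b = 2 - 2 * μ + (2 * mE μ r k - (q + 3 - k)) := fun a b k a0 a1 k0 k1 b0 b1 => by
    have := mono.monotone k0.le
    obtain ⟨p1, p2⟩ := s12 a (u 2) a0 a1 le_rfl (by omega)
    obtain ⟨p3, p4⟩ := ht.s1 pt rfl k0 k1 le_rfl (by omega) b0 b1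
    rw [S_cut a1.le (by omega), S_cut (φ := uu) a1.le (by omega), p1, p2, p3, p4, sx, if_neg (by omega)]
    exact ⟨by norm_num, by push_cast; ring⟩
  have s1N : ∀ a b, u 1 ≤ a → a < u 2 → u (q + 2) ≤ b → b ≤ y → S F.w n lp a b = 1 ∧ S F.w n uu a b = 1 :=
    fun a b a0 a1 b0 b1 => (s1k a b (q + 2) a0 a1 (by omega) le_rfl b0 (by omega)).imp_right fun e =>
      e.trans (by rw [mN]; push_cast; ring)
  obtain ⟨l1, l2⟩ := s01 x (u 1 + 1) (by omega) (by omega) (by omega) (by omega)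
  obtain ⟨r1, r2⟩ := s1N (u 1 + 1) y (by omega) (by omega) (by omega) le_rfl
  have cw := H1.cw cx cy H1.xy le_rfl
  have W : Tw1 F n X.z x y ((13 - (5 : ℤ)) / 4, 5) (vQ 5) :=
    ⟨cw, yz, by rw [S_cut (y := u 1 + 1) (by omega) (by omega), l1, r1, zero_add],
      by rw [S_cut (y := u 1 + 1) (by omega) (by omega), l2, r2, zero_add], vQ_le (by norm_num)⟩
  have E : ∀ {t}, u 2 + 1 < t → Ar F n x t (x + 2) (u 2 + 1) := fun k => by
    obtain ⟨p1, p2⟩ := s01 (x + 2) (u 1) (by omega) (by omega) le_rfl (by omega)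
    obtain ⟨p3, p4⟩ := s12 (u 1) (u 2 + 1) le_rfl (by omega) (by omega) (by omega)
    refine ⟨pt.okA (k0 := 0) (k1 := 2) (by omega) (by omega) (by omega) (by omega) (by omega) (by omega) (by omega)
      (.inr (by simp [VE, dt])), by omega, k, ?_⟩
    rw [In1, S_cut (y := u 1) (by omega) (by omega), S_cut (φ := uu) (y := u 1) (by omega) (by omega), p1, p2, p3, p4,
      pt.vv (k0 := 0) (k1 := 2) (by omega) (by omega) (by omega) (by omega) (by omega) (by omega),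
      pt.vv (k0 := 0) (k1 := 2) (by omega) (by omega) (by omega) (by omega) (by omega) (by omega)]
    change _ - lp (1, 1) (1, 0) _ _ = 0 ∧ _ - uu (1, 1) (1, 0) μ 1 = 1
    rw [(v_l _ _ _).1, (v_l _ _ 0).2]
    exact ⟨by ring, by push_cast; ring⟩
  have D : Ar F n x y (u 1 + 2) (u (q + 2) + 1) := by
    obtain ⟨p1, p2⟩ := s1N (u 1 + 2) (u (q + 2) + 1) (by omega) (by omega) (by omega) (by omega)
    refine ⟨pt.okA (k0 := 1) (k1 := q + 2) (by omega) (by omega) (by omega) (by omega) (by omega) (by omega) (by omega)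
      (by rw [vN]; exact .inr (by simp [VE, dt])), by omega, by omega, ?_⟩
    rw [In1, p1, p2, pt.vv (k0 := 1) (k1 := q + 2) (by omega) (by omega) (by omega) (by omega) (by omega) (by omega),
      pt.vv (k0 := 1) (k1 := q + 2) (by omega) (by omega) (by omega) (by omega) (by omega) (by omega), vN, mN]
    change _ - lp (0, 1) (0 + 1, 1) _ _ = 0 ∧ _ - uu (0, 1) (0 + 1, 1) (μ - 1) μ = 1
    rw [(v_p _ _ _).1, (v_p _ _ _).2]
    exact ⟨by ring, by push_cast; ring⟩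
  have oS : (Bs.sS (u 1 + 1)).OK F.w := pt.okS (k0 := 1) (by omega) (by omega) (by omega) (by simp [VE])
  have nl : ∀ {F : Fm Γ} B η t, Nq F n B η x t X.z (-((13 - (5 : ℤ)) / 4)) (-5) 0 0 0 0 (-(0 : ℤ)) :=
    fun B η t => ⟨by norm_num, .inr ⟨0, .inl rfl, by norm_num⟩⟩
  have ws : Wp F X.z n x y ((13 - (5 : ℤ)) / 4, 5) (vQ 5) {.sS (u 1 + 1)} := ⟨0, by simp, fun σ η => by
    cases e : η (.sS (u 1 + 1))
    · exact pc_l cw oS (by omega) (by omega) e (by rw [l1, l2]; exact nl _ _ _)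
    · exact pc_r cw oS (by omega) (by omega) e (by
        rw [r1, r2]; exact ⟨by norm_num [vQ], .inr ⟨1, .inr ⟨.inr yz, rr1⟩, by norm_num [vQ]⟩⟩)⟩
  have wd : Wp F X.z n x y ((13 - (5 : ℤ)) / 4, 5) (vQ 5) {.sA (u 1 + 2) (u (q + 2) + 1), .sS (u 1 + 1)} :=
    ⟨0, by simp, fun σ η => by
      cases e : η (.sA (u 1 + 2) (u (q + 2) + 1))
      · exact pc_in cw (by simpa [Bs.pin] using ⟨⟨D.ok, D.hi⟩, oS, by change u 1 + 1 < y; omega⟩) (by simp) D.lo e D.i _
          (by simp [Bs.hi])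
      cases e' : η (.sS (u 1 + 1))
      · exact pc_la cw D.ok oS (by omega) (by omega) D.hi e e' (by rw [l1, l2]; exact nl _ _ _)
      · obtain ⟨p1, p2⟩ := (⟨D.ok, by omega, D.hi, D.i⟩ : Ar F n (u 1 + 1) y _ _).out D.hi.le
        exact pc_ra cw D.ok oS (by omega) (by omega) D.hi e e' (by
          rw [p1, p2, r1, r2]; exact ⟨by norm_num [vQ], .inr ⟨0, .inl rfl, by norm_num [vQ]⟩⟩)⟩
  have fz : Fz F x y := fz_of H1.ok fz0
  have wS : ∀ {F : Fm Γ} t, (Bs.sS (u 1 + 1)).OK F.w → u 1 + 1 < t → Wa F x t [] (Bs.sS (u 1 + 1)) :=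
    fun t o k => ⟨o, by change x < u 1 + 1; omega, k, .inl rfl⟩
  have one := fun a (i : Wa _ x y [] a) => inn_one H1.ls fz (by simp) i
  have jE := C1.jo H1 (Tw1.fi1 (ts := []) W (one _ (E (by omega)).wa) trivial (W.a (E (by omega)))) trivial
  have jD := C1.jo H1 (Tw1.fi1 (ts := []) W (one _ D.wa) trivial (W.a D)) trivial
  have jS := C1.jo H1 (Tw1.fi1 (ts := []) W (one _ (wS _ oS (by omega))) trivial ws) trivial
  have ne := rf W (E (by omega)) (by omega) (by omega) D (by omega) (by omega)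
  rw [C1.split H1 H jE jS jD, J_comm _ (⟨.sA (u 1 + 2) _, []⟩ : Wl), C1.two H1 H jD jS nofun (Tw1.fi2 (ts := []) W
    (inn_two H1.ls fz (by simp) D.wa (wS _ oS (by omega)) (.inr (.inr (.inl (by change u 1 + 1 < u 1 + 2; omega)))))
    trivial trivial (W.a D) ws wd), add_zero] at ne
  have rd := pt.rd 3 (by omega)
  rw [ht.v 3 (by omega), show (q : ℤ) + 3 - (3 : ℕ) = q by simp] at rd
  have r2' := pt.rd 2 (by omega) (u 2 + 3) (by omega) (by omega)
  have sub : F.fz ⊆ insert (.yS (u 2 + 3)) (insert (.yS (u 3 + 1)) (insert (.yS (u 4 - 2)) F.fz)) :=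
    (subset_insert _ _).trans ((subset_insert _ _).trans (subset_insert _ _))
  have H' := H1.frz sub (by
    simp only [mem_insert, forall_eq_or_imp]
    exact ⟨.inr ⟨_, rfl, by omega, by omega⟩, .inr ⟨_, rfl, by omega, by omega⟩, .inr ⟨_, rfl, by omega, by omega⟩,
      fun _ => .inl⟩)
  have C' := C1.frz H1 sub (by
    simp only [mem_insert, forall_eq_or_imp, Bs.lo, Bs.hi]
    exact ⟨.inr (by omega), .inr (by omega), .inr (by omega), fun _ => .inl⟩)
  set F' : Fm Γ := { F with fz := insert (.yS (u 2 + 3)) (insert (.yS (u 3 + 1)) (insert (.yS (u 4 - 2)) F.fz)) }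
    with hF
  have cx' : F'.Cut (u 3 + 1) := ⟨by simp [hF], by rw [(rd _ (by omega) (by omega)).1]; exact one_ne_zero⟩
  have cy' : F'.Cut (u 4 - 2) := ⟨by simp [hF], by rw [(rd _ (by omega) (by omega)).1]; exact one_ne_zero⟩
  have hg : ∀ B η, InV B η (u 2 + 3 + 1) → F'.HgW n B η x (u 3 + 1) := fun B η i =>
    ⟨_, by omega, by omega, by simp [hF], by rw [r2'.1]; rfl, by rw [r2'.2.2]; exact odd_one, i⟩
  have fz1 : ∀ a ∈ F'.fz, a.lo ≤ x ∨ a.lo = u 2 + 3 ∨ a.lo = u 3 + 1 ∨ a.lo = u 4 - 2 ∨ y ≤ a.lo := by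
    simp only [hF, mem_insert, forall_eq_or_imp, Bs.lo, true_or, or_true, true_and]
    exact fun a k => (fz0 a k).imp_right fun k => .inr (.inr (.inr k))
  have fz' : Fz F' x (u 2 + 3) := fz_of H'.ok fun a k => by have := fz1 a k; omega
  have cw' := H'.cw ⟨sub cx.1, cx.2⟩ cx' (by omega) (by omega)
  set Q' : ℤ := 3 + 2 * q - 8 * r with hQ
  obtain ⟨m1, m2⟩ := s1k (u 1 + 1) (u 3 + 1) 3 (by omega) (by omega) (by omega) (by omega) (by omega) (by omega)
  rw [show mE μ r 3 = μ + 2 * r from rfl] at m2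
  have m3 : S F.w n lp x (u 3 + 1) = 1 := by rw [S_cut (y := u 1 + 1) (by omega) (by omega), l1, m1, zero_add]
  have m4 : S F.w n uu x (u 3 + 1) = 2 + 4 * r - q := by
    rw [S_cut (y := u 1 + 1) (by omega) (by omega), l2, m2]; push_cast; ring
  have L : ∀ a : Bs, Wa F' x (u 2 + 3) [] a → a.pin →
      Wp F' X.z n x (u 3 + 1) ((13 - (5 : ℤ)) / 4, 5) ((13 - Q') / 4, 5) {a} →
      a.pin ∧ (a.lo ≤ a.hi ∧ x < a.lo ∧ a.hi < y) ∧ ∀ σ, Gd P F' n X.z x y X.b ((13 - (5 : ℤ)) / 4, 5) 5 K g σ →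
        Gd P F' n X.z (u 3 + 1) y X.b ((13 - Q') / 4, 5) 5 K g (σ ∪ {↑a}) := fun a w p k =>
    ⟨p, ⟨(wf_of_ok w.ok).1.1, w.lo, w.hi.trans (by omega)⟩, fun σ h => h.left H' ((inn_one H'.ls fz' (by simp) w).mono
      le_rfl (by omega)) (by omega) (by omega) (by simpa using ⟨p, (w.hi.trans (show u 2 + 3 < u 3 + 1 by omega)).trans_le' le_rfl |> Int.lt_add_one_iff.1⟩) fun _ e =>
        win_two (a := a) (e := a) H'.ls (by simp [e]) (fun η => pc_0 (m := 1) cw' (by simp [e]) ⟨by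
          erw [m3, m4]; rw [hQ]; push_cast; linarith, .inl (hg _ _ (by simp [InV]))⟩) (fun _ _ => k) (fun _ _ => k)
          fun _ _ q => (q rfl).elim⟩
  have E' := (E (t := u 3 + 1) (by omega)).fz F'.fz
  have C2 := C'.ofJ H' (a := Bs.sA (x + 2) (u 2 + 1)) (e := Bs.sS (u 1 + 1)) (x' := u 3 + 1) (y' := y)
    (Q' := 5) (K' := K) (g' := g) (v' := ((13 - Q') / 4, 5)) nofun (by
      simp only [mem_insert, mem_singleton, forall_eq_or_imp, forall_eq]
      refine ⟨L _ ((E (by omega)).fz _).wa trivial ⟨0, by simp, fun σ η => ?_⟩,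
        L _ (wS _ oS (by omega)) trivial ⟨0, by simp, fun σ η => ?_⟩⟩
      · cases e : η (.sA (x + 2) (u 2 + 1))
        · exact pc_in cw' (by simpa [Bs.pin] using ⟨E'.ok, Int.lt_add_one_iff.1 E'.hi⟩) (mem_singleton_self _) E'.lo e E'.i _ (by simp)
        · refine pc_o cw' E'.ok E'.lo E'.hi e ⟨?_, .inl (hg _ _ (by simp [InV, Bs.side, e]))⟩
          erw [(E'.out E'.hi.le).1, (E'.out E'.hi.le).2, m3, m4]; rw [hQ]; push_cast; linarith
      · cases e : η (.sS (u 1 + 1))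
        · exact pc_l cw' oS (by omega) (by omega) e (by erw [l1, l2]; exact nl _ _ _)
        · refine pc_r cw' oS (by omega) (by omega) e ⟨?_, .inl (hg _ _ (by simp [InV, Bs.side, e]; omega))⟩
          erw [m1, m2]; rw [hQ]; push_cast; linarith) (by omega) (by omega)
    (.inl (by simp [Bs.hi]; omega))
  obtain ⟨c1, c2, c3, c4⟩ := ht.S pt (k0 := 3) (k1 := q + 2) (x := u 4 - 2) (y := y)
    (by omega) (by omega) (by omega) (by omega) (by omega) (by omega) (by omega)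
  rw [mN, show mE μ r 3 = μ + 2 * r from rfl, sx, if_neg (by omega)] at c2 c3
  have c5 : 4 * S F.w n al (u 4 - 2) y = Q' - (5 : ℤ) := by rw [S_al, c1, c2, hQ]; push_cast; ring
  have C3 := C2.right0 (Q' := Q') (y' := u 4 - 2) (H'.mono (by omega) (by omega) le_rfl) (by omega) (by omega)
    (fun σ k => win_df (H'.cw cy' ⟨sub cy.1, cy.2⟩ (by omega) le_rfl) yz c4
      (by change _ ≤ S F.w _ _ _ _; simp only [vQ]; push_cast at *; linarith)
      (by simp only [vQ, sub_self]; erw [c3]; exact Int.cast_nonneg (by omega)) (by simp [k])) c5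
  have H3 : Fr P F' n X.z (u 3 + 1) (u 4 - 2) X.b := H'.mono (by omega) (by omega) (by omega)
  have rd' := rd.mono (a' := u 3 + 1) (b' := u 4 - 2) (by omega) (by omega)
  refine ⟨_, F', n, Q', _, H3, cx', cy', fun a k => by have := fz1 a k; omega, rd', am.tr H1.yb rfl
    (fun _ _ => ⟨rfl, rfl, rfl⟩) sub (by
      simp only [hF, mem_insert, forall_eq_or_imp, Bs.lo]
      exact ⟨.inr (by omega), .inr (by omega), .inr (by omega), fun _ => .inl⟩) (by omega) c4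
      (fun a k => (walls_J k).imp_right ?_), by omega, C3, ?_⟩
  · rintro (rfl | rfl) <;> simp only [Bs.lo] <;> omega
  · rwa [← H.frz F _ _ _ sub (C1.pre.clJ H1.ls jE jS) (C3.cl H3
      (fi_ft (H3.cw cx' cy' H3.xy le_rfl) (by omega) (ft_rd rd') (vQ_le (by norm_num))))]

/-- **ENTRY** -/
theorem enStmt : EnStmt := fun P T κ c ci q h1 H E => by
  obtain ⟨F₀, n₀, c₀, z, t, d, μ, h⟩ := E.skf0 H
  refine ⟨⟨F₀, n₀, c₀.walls.image Wl.b ∪ F₀.fz, z, t⟩, fun L => ?_⟩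
  obtain ⟨F, n, c, x, S, k, l⟩ := h (|L| + 8 * (q + 3))
  have := le_abs_self L
  have := abs_nonneg L
  obtain ⟨F, s⟩ := st_of H S k (by omega)
  rcases h1.eq_or_lt with rfl | h2
  · exact ⟨_, _, _, _, _, _, _, _, s, by omega⟩
  · obtain ⟨u, hu⟩ : ∃ u : ℕ → ℤ, ∀ k, u k = x + 8 * k + if 4 ≤ k then t + 1 - x - 8 * (q + 3) else 0 :=
      ⟨_, fun _ => rfl⟩
    obtain ⟨μ, F, n, Q, c, s⟩ := s.ent (u := u) H h2 (fun k => by rw [hu, hu]; split_ifs <;> omega)
      (by rw [hu]; split_ifs <;> omega) (by rw [hu]; split_ifs <;> omega)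
    exact ⟨_, _, _, _, _, _, _, _, s, by rw [hu, hu]; split_ifs <;> omega⟩

end Crest.Agent.X212.Nm96
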