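import Crest.Agent.X212.Nm96.Defs

/-!
# Row 212, layer G (helper96): window certificates for `NumC`

`Fm.Win z δ n σ s t v v'`: the walls of `σ` between the slots `s` and `t` are certified, a piece that comes in
through `s` has to bring the reserve `v`, a piece that goes out through `t` takes the reserve `v'` along
(first component: irreducible points, second component: abelian points).
-/

set_option autoImplicit false
noncomputable section

namespace Crest.Agent.X212.Nm96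

open Crest.Agent.X212.Rod53 Crest.Agent.X212.Wd38 Finset

variable {Γ : Nm} {a b : Bs} {c s t u : ℤ} {B B₁ U U₁ σ : Finset Bs} {η : Bs → Bool} {π : Prop}

theorem side_arc (h : a.arc) : a.side c = true ↔ ¬(a.lo < c ∧ c ≤ a.hi) := by
  cases a <;> simp_all [Bs.arc, Bs.side, Bs.lo, Bs.hi] <;> omega

theorem side_sl (h : ¬a.arc) : (a.side c = true ↔ a.lo < c) ∧ a.hi = a.lo := by
  cases a <;> simp_all [Bs.arc, Bs.side, Bs.lo, Bs.hi]

theorem side_of_le {c' : ℤ} (h : c ≤ a.lo) (h' : c' ≤ a.lo) : a.side c = a.side c' := by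
  rw [Bool.eq_iff_iff]
  by_cases k : a.arc
  · rw [side_arc k, side_arc k]; omega
  · rw [(side_sl k).1, (side_sl k).1]; omega

theorem side_of_gt (h : a.hi < c) : a.side c = true := by
  by_cases k : a.arc
  · rw [side_arc k]; omega
  · rw [(side_sl k).1, ← (side_sl (c := c) k).2]; exact h

/-- the walls with first slot in `[s, t)` -/
def wn (s t : ℤ) (σ : Finset Bs) : Finset Bs := {a ∈ σ | s ≤ a.lo ∧ a.lo < t}

theorem mem_wn : a ∈ wn s t σ ↔ a ∈ σ ∧ s ≤ a.lo ∧ a.lo < t := mem_filter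

/-- a sum over the adjacent walls of `U` in a window -/
def asum (U B : Finset Bs) (η : Bs → Bool) (s t : ℤ) (f : Bs → ℝ) : ℝ :=
  ∑ a ∈ U with s ≤ a.lo ∧ a.lo < t ∧ Adj B η a, f a

theorem sum_cut {α : Type} (S : Finset α) (x : α → ℤ) (q : α → Prop) [DecidablePred q] (f : α → ℝ)
    (h : s ≤ t) (h' : t ≤ u) : ∑ a ∈ S with s ≤ x a ∧ x a < u ∧ q a, f a =
      ∑ a ∈ S with s ≤ x a ∧ x a < t ∧ q a, f a + ∑ a ∈ S with t ≤ x a ∧ x a < u ∧ q a, f a := by
  simp only [sum_filter, ← sum_add_distrib]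
  refine sum_congr rfl fun a _ => ?_
  by_cases k : q a
  · simp only [k, and_true]; split_ifs <;> first | omega | simp
  · simp [k]

theorem asum_cut (f : Bs → ℝ) (h : s ≤ t) (h' : t ≤ u) :
    asum U B η s u f = asum U B η s t f + asum U B η t u f := sum_cut U Bs.lo _ f h h'

/-- the virtual vertex of an arc -/
def vv (w : Shp Γ) (φ : Z2 → Z2 → ℤ → ℤ → ℝ) (n : Wt) (a : Bs) : ℝ :=
  φ (w.s a.lo).r.2 (w.s a.hi).l.2 (n.nr a.lo) (n.nl a.hi)

/-- the vertex at an integer point -/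
def vx (w : Shp Γ) (φ : Z2 → Z2 → ℤ → ℤ → ℝ) (n : Wt) (c : ℤ) : ℝ :=
  φ (w.lf c) (w.rt c) (n.nr (c - 1)) (n.nl c)

variable {w : Shp Γ} {φ : Z2 → Z2 → ℤ → ℤ → ℝ} {n n' : Wt}

theorem ssum_eq : ssum w B η s t φ n =
    ∑ c ∈ Ioc w.l w.r with s + 1 ≤ c ∧ c < t + 1 ∧ InV B η c, vx w φ n c +
      asum B B η s t fun a => if a.arc then (if η a then 1 else -1) * vv w φ n a else 0 := by
  rw [ssum, asum, ← sum_filter, filter_filter]
  congr 1
  · exact sum_congr (filter_congr fun c _ => by rw [Int.lt_add_one_iff, Int.add_one_le_iff]) fun _ _ => rfl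
  · exact sum_congr (filter_congr fun c _ => by tauto) fun _ _ => rfl

theorem ssum_cut (h : s ≤ t) (h' : t ≤ u) :
    ssum w B η s u φ n = ssum w B η s t φ n + ssum w B η t u φ n := by
  simp only [ssum_eq]
  rw [asum_cut _ h h', sum_cut (t := t + 1) _ (fun c => c) _ _ (by omega) (by omega)]
  ring

theorem ssum_self : ssum w B η s s φ n = 0 := by
  have := ssum_cut (w := w) (B := B) (η := η) (φ := φ) (n := n) (le_refl s) le_rfl
  linarith

/-- on the window only the walls `B₁` matter, if the piece is there at all -/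
structure Rs (B B₁ : Finset Bs) (η : Bs → Bool) (s t : ℤ) (π : Prop) : Prop where
  pt : ∀ c, s < c → c ≤ t → (InV B η c ↔ InV B₁ η c ∧ π)
  adj : ∀ a : Bs, s ≤ a.lo → a.lo < t → (Adj B η a ↔ Adj B₁ η a ∧ π)
  mem : ∀ a : Bs, s ≤ a.lo → a.lo < t → (a ∈ B ↔ a ∈ B₁)

theorem Rs.mono {s' t' : ℤ} (h : Rs B B₁ η s t π) (h1 : s ≤ s') (h2 : t' ≤ t) : Rs B B₁ η s' t' π :=
  ⟨fun c a b => h.pt c (by omega) (by omega), fun c a b => h.adj c (by omega) (by omega),
    fun c a b => h.mem c (by omega) (by omega)⟩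

theorem Rs.asum [Decidable π] (h : Rs B B₁ η s t π) {f f₁ : Bs → ℝ}
    (hU : ∀ a : Bs, s ≤ a.lo → a.lo < t → (a ∈ U ↔ a ∈ U₁))
    (hf : ∀ a ∈ U₁, s ≤ a.lo → a.lo < t → f a = f₁ a) :
    asum U B η s t f = if π then asum U₁ B₁ η s t f₁ else 0 := by
  split_ifs with k
  · refine sum_congr (Finset.ext fun a => ?_) fun a ha => ?_
    · simp only [mem_filter]
      have := hU a; have := h.adj a; tauto
    · have := mem_filter.1 ha
      exact hf a this.1 this.2.1 this.2.2.1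
  · refine sum_eq_zero fun a ha => ?_
    have := mem_filter.1 ha
    exact (k ((h.adj a this.2.1 this.2.2.1).1 this.2.2.2).2).elim

theorem Rs.ssum [Decidable π] (h : Rs B B₁ η s t π) :
    ssum w B η s t φ n = if π then ssum w B₁ η s t φ n else 0 := by
  simp only [ssum_eq]
  rw [h.asum h.mem fun _ _ _ _ => rfl]
  split_ifs with k
  · congr 1
    refine sum_congr (filter_congr fun c _ => ?_) fun _ _ => rfl
    have := h.pt c
    simp only [Int.lt_add_one_iff, Int.add_one_le_iff]; tauto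
  · rw [add_zero]
    refine sum_eq_zero fun c hc => ?_
    have := (mem_filter.1 hc).2
    exact (k ((h.pt c (by omega) (by omega)).1 this.2.2).2).elim

/-- the wall is away from the slot `t` -/
def Sp (t : ℤ) (a : Bs) : Prop := a.lo ≤ a.hi ∧ (a.hi < t ∨ t < a.lo)

theorem inV_left (hB : B ⊆ wn s u B) (h : ∀ a ∈ B, Sp t a) (hc : c ≤ t + 1) (E : Finset Bs) :
    InV (B \ E) η c ↔ InV (wn s t B \ E) η c ∧ InV (wn t u B \ E) η (t + 1) := by
  simp only [InV, mem_sdiff, mem_wn]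
  refine ⟨fun k => ⟨fun a ha => k a ⟨ha.1.1, ha.2⟩, fun a ha => ?_⟩, fun k a ha => ?_⟩
  · have := h a ha.1.1
    rw [← k a ⟨ha.1.1, ha.2⟩]; unfold Sp at this
    exact side_of_le (by omega) (by omega)
  · have := h a ha.1; have := mem_wn.1 (hB ha.1); unfold Sp at *
    by_cases e : a.lo < t
    · exact k.1 a ⟨⟨ha.1, by omega, e⟩, ha.2⟩
    · rw [← k.2 a ⟨⟨ha.1, by omega, by omega⟩, ha.2⟩]
      exact side_of_le (by omega) (by omega)

theorem inV_right (hB : B ⊆ wn s u B) (h : ∀ a ∈ B, Sp t a) (hc : t ≤ c) (E : Finset Bs) :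
    InV (B \ E) η c ↔ InV (wn t u B \ E) η c ∧ InV (wn s t B \ E) η t := by
  simp only [InV, mem_sdiff, mem_wn]
  refine ⟨fun k => ⟨fun a ha => k a ⟨ha.1.1, ha.2⟩, fun a ha => ?_⟩, fun k a ha => ?_⟩
  · have := h a ha.1.1
    rw [← k a ⟨ha.1.1, ha.2⟩]; unfold Sp at this
    rw [side_of_gt (by omega), side_of_gt (by omega)]
  · have := h a ha.1; have := mem_wn.1 (hB ha.1); unfold Sp at *
    by_cases e : a.lo < t
    · rw [← k.2 a ⟨⟨ha.1, by omega, e⟩, ha.2⟩, side_of_gt (by omega), side_of_gt (by omega)]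
    · exact k.1 a ⟨⟨ha.1, by omega, by omega⟩, ha.2⟩

theorem sdiff_out (h : a.lo < t ∨ u ≤ a.lo) : wn t u B \ {a} = wn t u B :=
  sdiff_eq_self_of_disjoint (disjoint_singleton_right.2 fun k => by have := mem_wn.1 k; omega)

theorem rs_left (hB : B ⊆ wn s u B) (h : ∀ a ∈ B, Sp t a) :
    Rs B (wn s t B) η s t (InV (wn t u B) η (t + 1)) :=
  ⟨fun c _ h2 => by simpa using inV_left hB h (c := c) (by omega) ∅, fun a h1 h2 => by
    simp only [Adj, erase_eq]
    rw [inV_left hB h (by omega), sdiff_out (.inl h2)], fun a h1 h2 => by simp [mem_wn, h1, h2]⟩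

theorem rs_right (hB : B ⊆ wn s u B) (h : ∀ a ∈ B, Sp t a) :
    Rs B (wn t u B) η t u (InV (wn s t B) η t) :=
  ⟨fun c _ h2 => by simpa using inV_right hB h (c := c) (by omega) ∅, fun a h1 h2 => by
    simp only [Adj, erase_eq]
    rw [inV_right hB h (by omega), sdiff_out (.inr h1)], fun a h1 h2 => by simp [mem_wn, h1, h2]⟩

/-! ### the certificate -/

/-- irreducible points -/
def al (u v : Z2) (x y : ℤ) : ℝ := -3 / 4 * lp u v x y + (lq u v x y - lg u v x y) / 2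

/-- abelian points -/
def om (u v : Z2) (x y : ℤ) : ℝ := -3 * lp u v x y + (lq u v x y - lg u v x y) / 2

/-- the size of the charges -/
def Sz (a : Bs) (c : Bool → ℤ) : Prop :=
  if a.arc then c false ≤ 4 ∧ c true ≤ -2 else c false ≤ 1 ∧ c true ≤ 1

/-- `TOK` and `Par` on a window -/
structure Tp (w : Shp Γ) (n n' : Wt) (s t : ℤ) : Prop where
  rod : ∀ j τ, s < j → j < t → w.l < j → j < w.r → w.s j = .rod τ → n'.nl j = n'.nr j
  eq : ∀ j, s < j → j ≤ t → w.l < j → j ≤ w.r → w.lf j = w.rt j → n'.nr (j - 1) = n'.nl j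
  neg : ∀ j, s < j → j ≤ t → w.l < j → j ≤ w.r → w.lf j = -w.rt j → n'.nr (j - 1) = -n'.nl j
  l : ∀ j, s < j → j ≤ t → w.l < j → j ≤ w.r →
    Even (n'.nl j - n.nl j - (w.s j).l.2.1 * (w.s j).l.2.2)
  r : ∀ j, s ≤ j → j < t → w.l ≤ j → j < w.r →
    Even (n'.nr j - n.nr j - (w.s j).r.2.1 * (w.s j).r.2.2)

theorem Tp.mono {s' t' : ℤ} (h : Tp w n n' s t) (h1 : s ≤ s') (h2 : t' ≤ t) : Tp w n n' s' t' :=
  ⟨fun j τ a b => h.rod j τ (by omega) (by omega), fun j a b => h.eq j (by omega) (by omega),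
    fun j a b => h.neg j (by omega) (by omega), fun j a b => h.l j (by omega) (by omega),
    fun j a b => h.r j (by omega) (by omega)⟩

/-- the change of the reserve -/
def dp (B : Finset Bs) (η : Bs → Bool) (s t : ℤ) (x x' : ℝ) : ℝ :=
  (if InV B η t then x' else 0) - if InV B η (s + 1) then x else 0

/-- the end of the window for the square of an abelian class -/
def ee (z : ℤ) (B : Finset Bs) (η : Bs → Bool) (t : ℤ) : ℤ := if z < t ∧ InV B η t then z else t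

namespace Fm

variable (F : Fm Γ)

/-- sites, parameters, cuts, entry and charges -/
def Ev (n : Wt) (σ B : Finset Bs) (η : Bs → Bool) (ch : Bs → Bool → ℤ) (φ : Z2 → Z2 → ℤ → ℤ → ℝ)
    (μ e : ℝ) (s t : ℤ) : ℝ :=
  ssum F.w B η s t φ n + asum (σ \ B) B η s t (fun _ => μ) +
    asum F.ls B η s t (fun l => if ∀ a ∈ B, a.Far l then -2 * μ else 0) +
    asum B B η s t fun a => (if a.side (a.lo + 1) = η a then e else 0) - ch a (η a)

/-- `AbC.loc` on a window -/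
def Loc (n' : Wt) (B : Finset Bs) (η : Bs → Bool) (s t : ℤ) : Prop :=
  ∀ s' t', s ≤ s' → t' ≤ t → s' = F.w.l - 1 ∨ F.Cut s' → (t' = F.w.r + 1 ∧ ¬F.Lst B η) ∨ F.Cut t' →
    ssum F.w B η s' t' lq n' ≤ 0

/-- `Hg` on a window -/
def HgW (n : Wt) (B : Finset Bs) (η : Bs → Bool) (s t : ℤ) : Prop :=
  ∃ y, s ≤ y ∧ y ≤ t ∧ .yS y ∈ F.fz ∧ (F.w.s y).r.2.2 = 0 ∧ Odd (n.nr y) ∧ InV B η (y + 1)

/-- the inequalities for one piece -/
def Pc (z : ℤ) (δ : ℝ) (n : Wt) (σ B : Finset Bs) (ch : Bs → Bool → ℤ) (s t : ℤ) (v v' : ℝ × ℝ)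
    (η : Bs → Bool) : Prop :=
  dp B η s t v.1 v'.1 ≤ F.Ev n σ B η ch al (1 / 4) ((13 - δ) / 4) s t ∧
    (F.HgW n B η s t ∨ ∀ n', Tp F.w n n' s t → F.Loc n' B η s t → dp B η s t v.2 v'.2 ≤
      -3 / 2 * ssum F.w B η s (ee z B η t) lq n' + F.Ev n σ B η ch om 1 (1 - δ) s t)

/-- **certified windows** -/
def Win (z : ℤ) (δ : ℝ) (n : Wt) (σ : Finset Bs) (s t : ℤ) (v v' : ℝ × ℝ) : Prop :=
  ∀ B ⊆ wn s t σ, (∀ a ∈ B, a.pin) → ∃ ch : Bs → Bool → ℤ,
    2 * (#{l ∈ wn s t F.ls | ∃ a ∈ B, ¬a.Far l} : ℤ) ≤ ∑ a ∈ B, (ch a true + ch a false) ∧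
    (∀ a ∈ B, Sz a (ch a)) ∧ ∀ η, F.Pc z δ n σ B ch s t v v' η

variable {F} {z : ℤ} {δ μ e : ℝ} {ch ch₁ : Bs → Bool → ℤ} {v v' v'' : ℝ × ℝ}

theorem Ev_cut (h : s ≤ t) (h' : t ≤ u) :
    F.Ev n σ B η ch φ μ e s u = F.Ev n σ B η ch φ μ e s t + F.Ev n σ B η ch φ μ e t u := by
  simp only [Ev, ssum_cut h h', asum_cut _ h h']; ring

theorem Ev_rs [Decidable π] (h : Rs B B₁ η s t π) (hc : ∀ a ∈ B₁, ch a = ch₁ a)
    (hl : ∀ l ∈ F.ls, s ≤ l.lo → l.lo < t → ((∀ a ∈ B, a.Far l) ↔ ∀ a ∈ B₁, a.Far l)) :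
    F.Ev n σ B η ch φ μ e s t = if π then F.Ev n σ B₁ η ch₁ φ μ e s t else 0 := by
  rw [Ev, h.ssum, h.asum (U₁ := σ \ B₁) (fun a h1 h2 => by simp [h.mem a h1 h2]) fun _ _ _ _ => rfl,
    h.asum (fun _ _ _ => Iff.rfl) fun l k h1 h2 => if_congr (hl l k h1 h2) rfl rfl,
    h.asum h.mem fun a k _ _ => by rw [hc a k]]
  split_ifs
  · rfl
  · simp

theorem Win.mono {x x' : ℝ × ℝ} (h : F.Win z δ n σ s t v v') (h1 : v ≤ x) (h2 : x' ≤ v') :
    F.Win z δ n σ s t x x' := fun B hB hp => by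
  obtain ⟨ch, k1, k2, k3⟩ := h B hB hp
  have e : ∀ {a a' b b' : ℝ} η, a ≤ b → b' ≤ a' → dp B η s t b b' ≤ dp B η s t a a' :=
    fun η p q => by unfold dp; split_ifs <;> linarith
  exact ⟨ch, k1, k2, fun η => ⟨(e η h1.1 h2.1).trans (k3 η).1,
    (k3 η).2.imp_right fun k n' a b => (e η h1.2 h2.2).trans (k n' a b)⟩⟩

/-- **composition** -/
theorem Win.trans (h : F.Win z δ n σ s t v v') (h' : F.Win z δ n σ t u v' v'') (h1 : s ≤ t)
    (h2 : t ≤ u) (hz : t ≤ z) (hr : t ≤ F.w.r) (hσ : ∀ a ∈ wn s u σ, Sp t a)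
    (hl : ∀ l ∈ wn s u F.ls, Sp t l) : F.Win z δ n σ s u v v'' := fun B hB hp => by
  have b0 : B ⊆ wn s u B := fun a k => mem_wn.2 ⟨k, (mem_wn.1 (hB k)).2⟩
  have b1 : ∀ a ∈ B, Sp t a := fun a k => hσ a (hB k)
  have sub : ∀ x y, wn x y B ⊆ wn x y σ := fun x y a k =>
    mem_wn.2 ⟨(mem_wn.1 (hB (mem_wn.1 k).1)).1, (mem_wn.1 k).2⟩
  obtain ⟨c1, p1, q1, r1⟩ := h _ (sub s t) fun a k => hp a (mem_wn.1 k).1
  obtain ⟨c2, p2, q2, r2⟩ := h' _ (sub t u) fun a k => hp a (mem_wn.1 k).1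
  set ch : Bs → Bool → ℤ := fun a => if a.lo < t then c1 a else c2 a with hch
  have e1 : ∀ a ∈ wn s t B, ch a = c1 a := fun a k => if_pos (mem_wn.1 k).2.2
  have e2 : ∀ a ∈ wn t u B, ch a = c2 a := fun a k => if_neg (not_lt.2 (mem_wn.1 k).2.1)
  have un : ∀ X, wn s u X = wn s t X ∪ wn t u X := fun X => Finset.ext fun a => by
    simp only [mem_union, mem_wn, ← and_or_left]; exact and_congr_right fun _ => by omega
  have dj : ∀ X, Disjoint (wn s t X) (wn t u X) := fun X => disjoint_left.2 fun a k k' => by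
    have := mem_wn.1 k; have := mem_wn.1 k'; omega
  have f1 : ∀ l ∈ F.ls, s ≤ l.lo → l.lo < t → ((∀ a ∈ B, a.Far l) ↔ ∀ a ∈ wn s t B, a.Far l) :=
    fun l k x y => ⟨fun g a ha => g a (mem_wn.1 ha).1, fun g a ha => by
      have := hl l (mem_wn.2 ⟨k, x, by omega⟩); have := b1 a ha; have := mem_wn.1 (b0 ha)
      unfold Sp at *
      by_cases i : a.lo < t
      exacts [g a (mem_wn.2 ⟨ha, by omega, i⟩), .inr (.inl (by omega))]⟩
  have f2 : ∀ l ∈ F.ls, t ≤ l.lo → l.lo < u → ((∀ a ∈ B, a.Far l) ↔ ∀ a ∈ wn t u B, a.Far l) :=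
    fun l k x y => ⟨fun g a ha => g a (mem_wn.1 ha).1, fun g a ha => by
      have := hl l (mem_wn.2 ⟨k, by omega, y⟩); have := b1 a ha; have := mem_wn.1 (b0 ha)
      unfold Sp at *
      by_cases i : a.lo < t
      exacts [.inl (by omega), g a (mem_wn.2 ⟨ha, by omega, by omega⟩)]⟩
  have eB : B = wn s t B ∪ wn t u B := by
    rw [← un]; exact (filter_subset _ _).antisymm' b0
  refine ⟨ch, ?_, fun a k => ?_, fun η => ?_⟩
  · have g : ∀ x y, (∀ l ∈ F.ls, x ≤ l.lo → l.lo < y → ((∀ a ∈ B, a.Far l) ↔ ∀ a ∈ wn x y B, a.Far l)) →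
        {l ∈ wn x y F.ls | ∃ a ∈ B, ¬a.Far l} = {l ∈ wn x y F.ls | ∃ a ∈ wn x y B, ¬a.Far l} :=
      fun x y f => filter_congr fun l k => by
        have := f l (mem_wn.1 k).1 (mem_wn.1 k).2.1 (mem_wn.1 k).2.2
        simpa using not_congr this
    rw [un, filter_union, card_union_of_disjoint (disjoint_filter_filter (dj _)), g s t f1, g t u f2]
    conv_rhs => rw [eB, sum_union (dj B)]
    rw [sum_congr rfl fun a k => by rw [e1 a k], sum_congr (s₁ := wn t u B) rfl fun a k => by rw [e2 a k]]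
    push_cast; linarith
  · rcases mem_union.1 (eB ▸ k :) with k | k
    exacts [e1 a k ▸ q1 a k, e2 a k ▸ q2 a k]
  have L := rs_left (η := η) b0 b1
  have R := rs_right (η := η) b0 b1
  have iL : ∀ c, c ≤ t + 1 → (InV B η c ↔ InV (wn s t B) η c ∧ InV (wn t u B) η (t + 1)) :=
    fun c k => by simpa using inV_left b0 b1 k ∅
  have iR : ∀ c, t ≤ c → (InV B η c ↔ InV (wn t u B) η c ∧ InV (wn s t B) η t) :=
    fun c k => by simpa using inV_right b0 b1 k ∅
  have key : ∀ x x' x'' X X' : ℝ, (InV (wn t u B) η (t + 1) → dp (wn s t B) η s t x x' ≤ X) →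
      (InV (wn s t B) η t → dp (wn t u B) η t u x' x'' ≤ X') → dp B η s u x x'' ≤
      (if InV (wn t u B) η (t + 1) then X else 0) + if InV (wn s t B) η t then X' else 0 := by
    intro x x' x'' X X' k k'
    simp only [dp, iL (s + 1) (by omega), iR u h2] at k k' ⊢
    by_cases i : InV (wn t u B) η (t + 1) <;> by_cases j : InV (wn s t B) η t <;>
      simp only [i, j, if_true, if_false, and_true, and_false, true_imp_iff] at k k' ⊢ <;> linarith
  refine ⟨?_, ?_⟩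
  · rw [Ev_cut h1 h2, Ev_rs L e1 f1, Ev_rs R e2 f2]
    exact key _ _ _ _ _ (fun _ => (r1 η).1) fun _ => (r2 η).1
  by_cases g : F.HgW n B η s u
  · exact .inl g
  refine .inr fun n' tp lc => ?_
  have hE : ssum F.w B η s (ee z B η u) lq n' =
      (if InV (wn t u B) η (t + 1) then ssum F.w (wn s t B) η s (ee z (wn s t B) η t) lq n' else 0) +
      if InV (wn s t B) η t then ssum F.w (wn t u B) η t (ee z (wn t u B) η u) lq n' else 0 := by
    have a1 : t ≤ ee z B η u := by unfold ee; split_ifs <;> omega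
    have a2 : ee z B η u ≤ u := by unfold ee; split_ifs <;> omega
    rw [ssum_cut h1 a1, L.ssum, (R.mono le_rfl a2).ssum, show ee z (wn s t B) η t = t from
      if_neg (by omega)]
    congr 1
    split_ifs with j
    · simp only [ee, iR u h2, j, and_true]
    · rfl
  have := key v.2 v'.2 v''.2 _ _ (fun i => ((r1 η).2.resolve_left fun ⟨y, y1, y2, y3, y4, y5, y6⟩ =>
      g ⟨y, y1, by omega, y3, y4, y5, (iL _ (by omega)).2 ⟨y6, i⟩⟩) n' (tp.mono le_rfl h2)
      fun s' t' k1 k2 k3 k4 => by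
        have := lc s' t' k1 (by omega) k3 (.inr (k4.resolve_left (by omega)))
        rwa [(L.mono k1 k2).ssum, if_pos i] at this)
    fun j => ((r2 η).2.resolve_left fun ⟨y, y1, y2, y3, y4, y5, y6⟩ =>
      g ⟨y, by omega, y2, y3, y4, y5, (iR _ (by omega)).2 ⟨y6, j⟩⟩) n' (tp.mono h1 le_rfl)
      fun s' t' k1 k2 k3 k4 => by
        have := lc s' t' (by omega) k2 k3 (k4.imp_left fun k => ⟨k.1, fun m =>
          k.2 fun a ha => m a (mem_wn.1 ha).1⟩)
        rwa [(R.mono k1 k2).ssum, if_pos j] at this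
  rw [hE, Ev_cut h1 h2, Ev_rs L e1 f1, Ev_rs R e2 f2]
  split_ifs at this ⊢ <;> linarith

end Fm

end Crest.Agent.X212.Nm96
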