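import Crest.Agent.X212.Nm96.Win

/-!
# Row 212, layer G (helper96): `Win ⇒ NumC`, locality, ends on `Y₀`, facets
-/

set_option autoImplicit false
noncomputable section

namespace Crest.Agent.X212.Nm96

open Crest.Agent.X212.Rod53 Crest.Agent.X212.Wd38 Finset

variable {Γ : Nm} {a b : Bs} {c s t u : ℤ} {B σ σ' : Finset Bs} {η : Bs → Bool}
  {w w' : Shp Γ} {φ ψ : Z2 → Z2 → ℤ → ℤ → ℝ} {n n' : Wt}

theorem irr_int {β sg l2 k : ℝ} {m h : ℕ} {g : ℤ} (hl : Lv sg l2 k) (hi : -1 ≤ dl β m h k)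
    (hA : (g : ℝ) ≤ -3 / 4 * (β - 1) + (l2 - sg) / 2 + m / 4 - h / 2 + 13 / 4) :
    (g : ℝ) ≤ wg β sg l2 m h k := by
  obtain ⟨-, j, rfl⟩ := hl
  unfold wg; unfold dl at hi
  by_contra hn
  have h1 : 3 - 2 * j < g := by exact_mod_cast (by linarith : (3 : ℝ) - 2 * j < g)
  have h2 : g < 4 - 2 * j := by exact_mod_cast (by linarith : (g : ℝ) < 4 - 2 * j)
  omega

theorem ssum_add : ssum w B η s t (fun u v x y => φ u v x y + ψ u v x y) n =
    ssum w B η s t φ n + ssum w B η s t ψ n := by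
  simp only [ssum, mul_add, sum_add_distrib]; ring

theorem ssum_mul (r : ℝ) : ssum w B η s t (fun u v x y => r * φ u v x y) n = r * ssum w B η s t φ n := by
  simp only [ssum, mul_add, mul_sum, mul_left_comm r]

/-- `Λ² - σ` -/
def uu (u v : Z2) (x y : ℤ) : ℝ := lq u v x y - lg u v x y

theorem ssum_uu : ssum w B η s t uu n = ssum w B η s t lq n - ssum w B η s t lg n := by
  rw [sub_eq_add_neg, ← neg_one_mul, ← ssum_mul, ← ssum_add]
  congr 1; funext u v x y; unfold uu; ring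

theorem ssum_al : ssum w B η s t al n = -3 / 4 * ssum w B η s t lp n + ssum w B η s t uu n / 2 := by
  rw [div_eq_inv_mul _ (2 : ℝ), ← ssum_mul, ← ssum_mul, ← ssum_add]
  congr 1; funext u v x y; unfold al uu; ring

theorem ssum_om : ssum w B η s t om n = -3 * ssum w B η s t lp n + ssum w B η s t uu n / 2 := by
  rw [div_eq_inv_mul _ (2 : ℝ), ← ssum_mul, ← ssum_mul, ← ssum_add]
  congr 1; funext u v x y; unfold om uu; ring

theorem ssum_of_le (h : t ≤ s) : ssum w B η s t φ n = 0 := by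
  rw [ssum, sum_eq_zero, sum_eq_zero, add_zero] <;> intro a ha <;> have := (mem_filter.1 ha).2 <;> omega

theorem lp_indep (n' : Wt) : ssum w B η s t lp n = ssum w B η s t lp n' := rfl

/-! ### the shape of a piece -/

/-- well formed walls -/
def Wf (a : Bs) : Prop := a.lo ≤ a.hi ∧ (a.arc → a.lo < a.hi)

theorem wf_of_ok (h : a.OK w) : Wf a ∧ w.l ≤ a.lo ∧ a.hi ≤ w.r := by
  cases a
  case sS x => exact ⟨⟨le_rfl, False.elim⟩, h.1, h.2.1.le⟩
  case yS x => exact ⟨⟨le_rfl, False.elim⟩, h.1, h.2.le⟩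
  all_goals exact ⟨⟨h.1.lt.le, fun _ => h.1.lt⟩, h.1.lo, h.1.hi⟩

theorem side_ne (h : Wf a) (hc : c ≤ a.lo) : a.side c ≠ a.side (a.lo + 1) := by
  rw [Ne, Bool.eq_iff_iff]
  by_cases k : a.arc
  · have := h.2 k; rw [side_arc k, side_arc k]; omega
  · rw [(side_sl k).1, (side_sl k).1]; omega

theorem lo_ne (ha : Wf a) (hb : Wf b) (h : a.Far b) : a.lo < b.lo ∨ b.lo < a.lo := by
  have := ha.1; have := hb.1; unfold Bs.Far at h; omega

theorem Adj.side (h : Adj B η a) (hb : b ∈ B) (e : b ≠ a) : b.side (a.lo + 1) = η b :=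
  h b (mem_erase.2 ⟨e, hb⟩)

/-- laminar families -/
structure Lam (B : Finset Bs) : Prop where
  wf : ∀ a ∈ B, Wf a
  far : ∀ a ∈ B, ∀ b ∈ B, a ≠ b → a.Far b

theorem Lam.mono (h : Lam σ) (k : B ⊆ σ) : Lam B :=
  ⟨fun a x => h.wf a (k x), fun a x b y => h.far a (k x) b (k y)⟩

theorem Lam.uq (h : Lam B) (ha : a ∈ B) (hb : b ∈ B) (a1 : Adj B η a) (b1 : Adj B η b)
    (a2 : a.side (a.lo + 1) = η a) (b2 : b.side (b.lo + 1) = η b) : a = b := by
  by_contra e
  rcases lo_ne (h.wf a ha) (h.wf b hb) (h.far a ha b hb e) with k | k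
  · exact side_ne (h.wf b hb) k ((a1.side hb (Ne.symm e)).trans b2.symm)
  · exact side_ne (h.wf a ha) k ((b1.side ha e).trans a2.symm)

/-- the number of entry walls -/
def ent (B : Finset Bs) (η : Bs → Bool) (s t : ℤ) : ℝ :=
  asum B B η s t fun a => if a.side (a.lo + 1) = η a then 1 else 0

theorem ent_eq : ent B η s t =
    #{a ∈ B | (s ≤ a.lo ∧ a.lo < t ∧ Adj B η a) ∧ a.side (a.lo + 1) = η a} := by
  rw [ent, asum, sum_boole, filter_filter]

theorem Lam.ent_le (h : Lam B) : ent B η s t ≤ 1 := by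
  rw [ent_eq]
  exact_mod_cast card_le_one.2 fun a ha b hb => by
    have := mem_filter.1 ha; have := mem_filter.1 hb
    exact h.uq (η := η) (by tauto) (by tauto) (by tauto) (by tauto) (by tauto) (by tauto)

theorem Lam.chg_le (h : Lam B) {ch : Bs → Bool → ℤ} (hs : ∀ a ∈ B, Sz a (ch a)) {l r : ℤ}
    (hr : ∀ a ∈ B, l ≤ a.lo ∧ a.hi < r) (hn : ∃ a ∈ B, Adj B η a) :
    ∑ a ∈ B with Adj B η a, ch a (η a) + (if InV B η l then 3 else 0) + (if InV B η r then 3 else 0) ≤ 4 := by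
  by_cases h0 : ∃ a ∈ B, Adj B η a ∧ a.arc ∧ η a = false
  · obtain ⟨a, ha, a1, a2, a3⟩ := h0
    have a4 := (h.wf a ha).2 a2
    have a5 := hr a ha
    rw [if_neg fun k => by have := (side_arc a2).not.1 (by rw [k a ha, a3]; simp); omega,
      if_neg fun k => by have := (side_arc a2).not.1 (by rw [k a ha, a3]; simp); omega,
      ← add_sum_erase _ _ (mem_filter.2 ⟨ha, a1⟩), a3]
    have := ((if_pos a2).mp (hs a ha)).1
    have : ∑ b ∈ {a ∈ B | Adj B η a}.erase a, ch b (η b) ≤ 0 := sum_nonpos fun b hb => by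
      obtain ⟨e, hb⟩ := mem_erase.1 hb
      obtain ⟨hb, b1⟩ := mem_filter.1 hb
      by_cases k : b.arc
      · have b4 := (h.wf b hb).2 k
        have b5 := ((if_pos k).mp (hs b hb)).2
        cases b3 : η b
        · refine (e (h.uq hb ha b1 a1 ?_ ?_)).elim
          · rw [b3, ← Bool.not_eq_true, side_arc k]; omega
          · rw [a3, ← Bool.not_eq_true, side_arc a2]; omega
        · omega
      · have b2 := (side_arc a2).not.1 (by rw [b1.side ha (Ne.symm e), a3]; simp)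
        have b3 := (side_sl (c := 0) k).2
        have b4 := h.far b hb a ha e
        unfold Bs.Far at b4
        have : ¬(b.hi < a.lo ∨ a.hi < b.lo) := by omega
        tauto
    linarith
  have e : ∑ a ∈ B with Adj B η a, ch a (η a) ≤ -2 * #{a ∈ B | Adj B η a ∧ a.arc} +
      #{a ∈ B | Adj B η a ∧ ¬a.arc ∧ η a = true} + #{a ∈ B | Adj B η a ∧ ¬a.arc ∧ η a = false} := by
    simp only [card_filter, sum_filter, Nat.cast_sum, mul_sum, ← sum_add_distrib]
    refine sum_le_sum fun a ha => ?_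
    have := hs a ha
    unfold Sz at this
    by_cases k : Adj B η a <;> by_cases k' : a.arc <;> cases k'' : η a <;> simp_all
  have e1 : #{a ∈ B | Adj B η a ∧ ¬a.arc ∧ η a = true} ≤ if InV B η l then 0 else 1 := by
    split_ifs with k
    · refine (card_eq_zero.2 (filter_eq_empty_iff.2 fun a ha g => ?_)).le
      have := (side_sl g.2.1).1.1 ((k a ha).trans g.2.2); have := hr a ha; omega
    · refine card_le_one.2 fun a ha b hb => ?_
      obtain ⟨ha, a1, a2, a3⟩ := mem_filter.1 ha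
      obtain ⟨hb, b1, b2, b3⟩ := mem_filter.1 hb
      exact h.uq ha hb a1 b1 (by rw [a3, (side_sl a2).1]; omega) (by rw [b3, (side_sl b2).1]; omega)
  have e2 : #{a ∈ B | Adj B η a ∧ ¬a.arc ∧ η a = false} ≤ if InV B η r then 0 else 1 := by
    split_ifs with k
    · refine (card_eq_zero.2 (filter_eq_empty_iff.2 fun a ha g => ?_)).le
      have := (side_sl g.2.1).1.not.1 (by rw [k a ha, g.2.2]; simp)
      have := hr a ha; have := (h.wf a ha).1; omega
    · refine card_le_one.2 fun a ha b hb => ?_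
      obtain ⟨ha, a1, a2, a3⟩ := mem_filter.1 ha
      obtain ⟨hb, b1, b2, b3⟩ := mem_filter.1 hb
      by_contra e
      rcases lo_ne (h.wf a ha) (h.wf b hb) (h.far a ha b hb e) with k | k
      · have := (side_sl a2).1.not.1 (by rw [b1.side ha e, a3]; simp); omega
      · have := (side_sl b2).1.not.1 (by rw [a1.side hb (Ne.symm e), b3]; simp); omega
  have e3 : 1 ≤ #{a ∈ B | Adj B η a ∧ a.arc} + #{a ∈ B | Adj B η a ∧ ¬a.arc ∧ η a = true} +
      #{a ∈ B | Adj B η a ∧ ¬a.arc ∧ η a = false} := by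
    obtain ⟨a, ha, a1⟩ := hn
    by_cases k : a.arc
    · have := card_pos.2 ⟨a, (mem_filter.2 ⟨ha, a1, k⟩ : a ∈ {a ∈ B | Adj B η a ∧ a.arc})⟩; omega
    cases k' : η a
    · have := card_pos.2 ⟨a, (mem_filter.2 ⟨ha, a1, k, k'⟩ :
        a ∈ {a ∈ B | Adj B η a ∧ ¬a.arc ∧ η a = false})⟩; omega
    · have := card_pos.2 ⟨a, (mem_filter.2 ⟨ha, a1, k, k'⟩ :
        a ∈ {a ∈ B | Adj B η a ∧ ¬a.arc ∧ η a = true})⟩; omega
  split_ifs at e1 e2 ⊢ <;> omega

theorem Lam.exists_ent (h : Lam B) (hs : ∀ a ∈ B, s < a.lo) (hc : s < c) (k : InV B η c) :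
    InV B η (s + 1) ∨ ∃ a ∈ B, a.lo < c ∧ Adj B η a ∧ a.side (a.lo + 1) = η a := by
  induction' e : (c - s).toNat using Nat.strong_induction_on with N ih generalizing c
  rcases (show c = s + 1 ∨ s + 1 < c by omega) with rfl | h1
  · exact .inl k
  have IH : ∀ c', s < c' → c' < c → InV B η c' → _ := fun c' p q r =>
    (ih _ (by omega) p r rfl).imp_right fun ⟨a, x, y, z⟩ => (⟨a, x, y.trans q, z⟩ :
      ∃ a ∈ B, a.lo < c ∧ Adj B η a ∧ a.side (a.lo + 1) = η a)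
  by_cases h2 : InV B η (c - 1)
  · exact IH _ (by omega) (by omega) h2
  obtain ⟨a, ha, h3⟩ : ∃ a ∈ B, a.side (c - 1) ≠ η a := by simpa [InV] using h2
  by_cases h4 : c = a.lo + 1
  · exact .inr ⟨a, ha, by omega, fun b hb => h4 ▸ k b (mem_erase.1 hb).2, h4 ▸ k a ha⟩
  rw [← k a ha, Ne, Bool.eq_iff_iff] at h3
  have a1 : a.arc := by_contra fun i => by rw [(side_sl i).1, (side_sl i).1] at h3; omega
  rw [side_arc a1, side_arc a1] at h3
  have a2 := (h.wf a ha).1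
  refine IH a.lo (hs a ha) (by omega) fun b hb => ?_
  rw [← k b hb, Bool.eq_iff_iff]
  by_cases i : b = a
  · rw [i, side_arc a1, side_arc a1]; omega
  have b1 := h.far b hb a ha i
  have b2 := (h.wf b hb).1
  unfold Bs.Far at b1
  by_cases j : b.arc
  · rw [side_arc j, side_arc j]; omega
  · have := (side_sl (c := 0) j).2
    rw [(side_sl j).1, (side_sl j).1]
    simp only [j, false_and, and_false, or_false] at b1; omega

namespace Fm

variable {P : Pm Γ} {F F' : Fm Γ} {z : ℤ} {δ μ e : ℝ} {ch : Bs → Bool → ℤ} {v v' : ℝ × ℝ}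

theorem Ev_eq : F.Ev n σ B η ch φ μ e s t = ssum F.w B η s t φ n + asum (σ \ B) B η s t (fun _ => μ) +
    asum F.ls B η s t (fun l => if ∀ a ∈ B, a.Far l then -2 * μ else 0) + e * ent B η s t -
    asum B B η s t fun a => ch a (η a) := by
  simp only [Ev, ent, asum, sum_sub_distrib, mul_sum, mul_ite, mul_one, mul_zero]; ring

theorem Ev_top (hB : B ⊆ σ) (hσ : ∀ a ∈ σ ∪ F.ls, s ≤ a.lo ∧ a.lo < t) :
    F.Ev n σ B η ch φ μ e s t = ssum F.w B η s t φ n + μ * nm σ B η - 2 * μ * F.nh B η +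
      e * ent B η s t - (∑ a ∈ B with Adj B η a, ch a (η a) : ℤ) := by
  have k : ∀ U ⊆ σ ∪ F.ls, ∀ f, asum U B η s t f = ∑ a ∈ U with Adj B η a, f a := fun U hU f =>
    sum_congr (filter_congr fun a ha => by have := hσ a (hU ha); tauto) fun _ _ => rfl
  rw [Ev_eq, k _ (sdiff_subset.trans subset_union_left), k _ subset_union_right,
    k B (hB.trans subset_union_left), ← sum_filter, filter_filter]
  simp only [sum_const, nsmul_eq_mul, nm, nh, Int.cast_sum, and_comm (a := Adj B η _)]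
  ring

/-- **the certificate gives the numerical hypothesis** -/
theorem Win.numC (h : F.Win z δ n σ (F.w.l - 1) (F.w.r + 1) v v') (h0 : 0 ≤ δ) (h1 : δ ≤ 1)
    (ok : ∀ a ∈ σ, a.OK F.w) (far : ∀ a ∈ σ, ∀ b ∈ σ, a ≠ b → a.Far b)
    (hl : ∀ l ∈ F.ls, F.w.l ≤ l.lo ∧ l.lo ≤ F.w.r) (hz : z = F.w.l - 1 ∨ F.Cut z) (hr : z ≤ F.w.r)
    (m1 : 15 / 4 - P.M ≤ v'.1) (m2 : 9 - P.M ≤ v'.2) : F.NumC P n σ := fun B hB hp _ => by
  have hσ : ∀ a ∈ σ ∪ F.ls, F.w.l - 1 ≤ a.lo ∧ a.lo < F.w.r + 1 := fun a ha => by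
    rcases mem_union.1 ha with k | k
    · have := wf_of_ok (ok a k); have := this.1.1; omega
    · have := hl a k; omega
  have lam : Lam B := Lam.mono ⟨fun a k => (wf_of_ok (ok a k)).1, far⟩ hB
  obtain ⟨ch, k1, k2, k3⟩ := h B (fun a k => mem_wn.2 ⟨hB k, hσ a (mem_union_left _ (hB k))⟩) hp
  rw [show wn _ _ F.ls = F.ls from filter_true_of_mem fun a k => hσ a (mem_union_right _ k)] at k1
  refine ⟨fun a b => ch a b, 3, 3, ?_, fun η hη => ⟨?_, ?_⟩⟩
  · have : 2 * (F.nd B : ℝ) ≤ ∑ a ∈ B, ((ch a true : ℝ) + ch a false) := by exact_mod_cast k1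
    linarith
  · have := lam.chg_le k2 (l := F.w.l) (r := F.w.r + 1)
      (fun a k => by have := wf_of_ok (ok a (hB k)); omega) hη
    have : ((_ : ℤ) : ℝ) ≤ (4 : ℤ) := Int.cast_le.2 this
    simp only [Int.cast_add, Int.cast_sum, Int.cast_ite, Int.cast_ofNat, Int.cast_zero] at this
    unfold chg Fst Lst
    convert this
  by_cases f : F.Fst B η
  · exact .inl f
  obtain ⟨i1, i2⟩ := k3 η
  have en := lam.ent_le (η := η) (s := F.w.l - 1) (t := F.w.r + 1)
  have f' : ¬InV B η (F.w.l - 1 + 1) := by rwa [sub_add_cancel]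
  have tp : ∀ {n' k}, F.AbC n B η n' k → Tp F.w n n' (F.w.l - 1) (F.w.r + 1) ∧
      F.Loc n' B η (F.w.l - 1) (F.w.r + 1) := fun A =>
    ⟨⟨fun j τ _ _ => A.tok.rod j τ, fun j _ _ => A.tok.eq j, fun j _ _ => A.tok.neg j,
      fun j _ _ => A.par.l j, fun j _ _ => A.par.r j⟩, fun s t _ _ => A.loc s t⟩
  have hg : F.HgW n B η (F.w.l - 1) (F.w.r + 1) → F.Hg n B η := fun ⟨y, _, _, y1, y2, y3, y4⟩ =>
    ⟨y, y1, y2, y3, fun a k => y4 a (mem_erase.1 k).2⟩
  rw [Ev_top hB hσ, ssum_al, ssum_uu] at i1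
  simp only [Ev_top hB hσ, ssum_om, ssum_uu] at i2
  have e1 : (13 - δ) / 4 * ent B η (F.w.l - 1) (F.w.r + 1) ≤ 13 / 4 := by nlinarith
  have e2 : (1 - δ) * ent B η (F.w.l - 1) (F.w.r + 1) ≤ 1 := by nlinarith
  by_cases g : F.Lst B η
  · have g' : InV B η (F.w.r + 1) := g
    simp only [dp, if_true, if_neg f', ee, g', and_true, if_pos (show z < F.w.r + 1 by omega)] at i1 i2
    have c1 : F.chg B η (fun a b => ch a b) 3 3 = (∑ a ∈ B with Adj B η a, ch a (η a) : ℤ) + 3 := by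
      simp [chg, f, g]
    refine .inr (.inr ⟨g, fun k hk => ?_, i2.imp hg fun i2 n' k A => ?_⟩) <;> rw [c1]
    · simp only [wt, ix, wg, dl, tot] at hk ⊢; linarith
    · have := i2 n' (tp A).1 (tp A).2
      have : -ssum F.w B η (F.w.l - 1) z lq n' / 4 - 1 ≤ k := hz.elim (fun e => by
        rw [e, ssum_self]; linarith [A.pos]) (A.levc z)
      simp only [wt, wg, tot]; linarith
  · have g' : ¬InV B η (F.w.r + 1) := g
    simp only [dp, if_neg f', ee, g', and_false, if_false] at i1 i2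
    have c1 : F.chg B η (fun a b => ch a b) 3 3 = (∑ a ∈ B with Adj B η a, ch a (η a) : ℤ) := by
      simp [chg, f, g]
    refine .inr (.inl ⟨g, fun k hk hk' => ?_, i2.imp hg fun i2 n' k A _ => ?_⟩) <;> rw [c1]
    · exact irr_int hk hk' (by simp only [tot]; linarith)
    · have := i2 n' (tp A).1 (tp A).2
      rw [wt, wg, A.lev g]; simp only [tot]; linarith

/-! ### locality -/

/-- the same slots and orders on a window -/
structure Sm (F F' : Fm Γ) (n n' : Wt) (s t : ℤ) : Prop where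
  l : F'.w.l = F.w.l
  r : F'.w.r = F.w.r
  s' : ∀ j, s ≤ j → j ≤ t → F'.w.s j = F.w.s j
  nl : ∀ j, s ≤ j → j ≤ t → n'.nl j = n.nl j
  nr : ∀ j, s ≤ j → j ≤ t → n'.nr j = n.nr j
  ls : wn s t F'.ls = wn s t F.ls
  fz : ∀ y, s ≤ y → y ≤ t → .yS y ∈ F.fz → .yS y ∈ F'.fz

theorem Sm.ssum (h : Sm F F' n n' s t) (hB : ∀ a ∈ B, s ≤ a.hi ∧ a.hi ≤ t) {s' t' : ℤ} (h1 : s ≤ s')
    (h2 : t' ≤ t) : ssum F'.w B η s' t' φ n' = ssum F.w B η s' t' φ n := by
  simp only [Nm96.ssum, h.l, h.r]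
  congr 1 <;> refine sum_congr rfl fun c hc => ?_ <;> have k := mem_filter.1 hc
  · rw [Shp.lf, Shp.rt, h.s' _ (by omega) (by omega), h.s' c (by omega) (by omega),
      h.nr _ (by omega) (by omega), h.nl _ (by omega) (by omega)]; rfl
  · have := hB c k.1
    rw [h.s' _ (by omega) (by omega), h.s' c.hi (by omega) (by omega),
      h.nr _ (by omega) (by omega), h.nl _ (by omega) (by omega)]

theorem asum_wn {U : Finset Bs} {f : Bs → ℝ} : asum U B η s t f = asum (wn s t U) B η s t f := by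
  rw [asum, asum, wn, filter_filter]
  exact sum_congr (filter_congr fun _ _ => by tauto) fun _ _ => rfl

theorem Win.congr (h : F.Win z δ n σ s t v v') (m : Sm F F' n n' s t) (e : wn s t σ' = wn s t σ)
    (hσ : ∀ a ∈ wn s t σ, s ≤ a.hi ∧ a.hi ≤ t) : F'.Win z δ n' σ' s t v v' := fun B hB hp => by
  rw [e] at hB
  obtain ⟨ch, k1, k2, k3⟩ := h B hB hp
  have hb : ∀ a ∈ B, s ≤ a.hi ∧ a.hi ≤ t := fun a k => hσ a (hB k)
  have ev : ∀ η φ μ x, F'.Ev n' σ' B η ch φ μ x s t = F.Ev n σ B η ch φ μ x s t := fun η φ μ x => by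
    have : wn s t (σ' \ B) = wn s t (σ \ B) := Finset.ext fun a => by
      have := Finset.ext_iff.1 e a
      simp only [mem_wn, mem_sdiff] at this ⊢; tauto
    rw [Ev, Ev, m.ssum hb le_rfl le_rfl, asum_wn, this, ← asum_wn, asum_wn (U := F'.ls), m.ls, ← asum_wn]
  refine ⟨ch, m.ls ▸ k1, k2, fun η => ⟨ev .. ▸ (k3 η).1, (k3 η).2.imp ?_ fun k n'' tp lc => ?_⟩⟩
  · rintro ⟨y, y1, y2, y3, y4, y5, y6⟩
    exact ⟨y, y1, y2, m.fz y y1 y2 y3, m.s' y y1 y2 ▸ y4, m.nr y y1 y2 ▸ y5, y6⟩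
  have m' : Sm F F' n'' n'' s t := ⟨m.l, m.r, m.s', fun _ _ _ => rfl, fun _ _ _ => rfl, m.ls, m.fz⟩
  have cut : ∀ y, s ≤ y → y ≤ t → F.Cut y → F'.Cut y := fun y a b k =>
    ⟨m.fz y a b k.1, m.s' y a b ▸ k.2⟩
  rw [ev, m'.ssum hb le_rfl (by unfold ee; split_ifs <;> omega)]
  refine k n'' ⟨fun j τ a b => ?_, fun j a b => ?_, fun j a b => ?_, fun j a b => ?_, fun j a b => ?_⟩
    fun s' t' a b x y => ?_
  · simpa only [m.l, m.r, m.s' j a.le b.le] using tp.rod j τ a b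
  · simpa only [m.l, m.r, Shp.lf, Shp.rt, m.s' j a.le b, m.s' (j - 1) (by omega) (by omega)]
      using tp.eq j a b
  · simpa only [m.l, m.r, Shp.lf, Shp.rt, m.s' j a.le b, m.s' (j - 1) (by omega) (by omega)]
      using tp.neg j a b
  · simpa only [m.l, m.r, m.s' j a.le b, m.nl j a.le b] using tp.l j a b
  · simpa only [m.l, m.r, m.s' j a b.le, m.nr j a b.le] using tp.r j a b
  · by_cases i : t' ≤ s'
    · exact (ssum_of_le i).le
    rw [← m'.ssum hb a b]
    exact lc s' t' a b (x.imp (m.l ▸ ·) (cut s' a (by omega)))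
      (y.imp (by simp only [Lst, m.r]; exact id) (cut t' (by omega) b))

/-! ### ends on a frozen `Y₀`, facets -/

variable (F) in
/-- a frozen `Y₀` with an odd order -/
def Y0 (n : Wt) (y : ℤ) : Prop := .yS y ∈ F.fz ∧ (F.w.s y).r.2.2 = 0 ∧ Odd (n.nr y)

theorem Win.hgL (h : F.Win z δ n σ s t v v') (hs : F.Y0 n s) (hst : s ≤ t) (x : ℝ) :
    F.Win z δ n σ s t (v.1, x) v' := fun B hB hp => by
  obtain ⟨ch, k1, k2, k3⟩ := h B hB hp
  refine ⟨ch, k1, k2, fun η => ⟨(k3 η).1, ?_⟩⟩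
  by_cases i : InV B η (s + 1)
  · exact .inl ⟨s, le_rfl, hst, hs.1, hs.2.1, hs.2.2, i⟩
  · simpa only [dp, if_neg i] using (k3 η).2

theorem Win.hgR (h : F.Win z δ n σ s t v v') (ht : F.Y0 n t) (hst : s ≤ t)
    (hσ : ∀ a ∈ wn s t σ, a.hi < t) (x : ℝ) : F.Win z δ n σ s t v (v'.1, x) := fun B hB hp => by
  obtain ⟨ch, k1, k2, k3⟩ := h B hB hp
  refine ⟨ch, k1, k2, fun η => ⟨(k3 η).1, ?_⟩⟩
  by_cases i : InV B η t
  · exact .inl ⟨t, hst, le_rfl, ht.1, ht.2.1, ht.2.2, fun a k => by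
      have := hσ a (hB k)
      rw [← i a k, side_of_gt this, side_of_gt (by omega)]⟩
  · simpa only [dp, if_neg i] using (k3 η).2

theorem Win.erase (h : F.Win z 1 n σ s t v v') (lam : Lam σ) (hs : ∀ a ∈ wn s t σ, s < a.lo) (a : Bs) :
    F.Win z 0 n (σ.erase a) s t (v + (1 / 4, 1)) v' := fun B hB hp => by
  have hB' : B ⊆ wn s t σ := fun b k => mem_wn.2 ((mem_wn.1 (hB k)).imp_left mem_of_mem_erase)
  obtain ⟨ch, k1, k2, k3⟩ := h B hB' hp
  have key : ∀ η φ (μ x x' y y' C : ℝ), 0 ≤ μ → x' = x + μ → dp B η s t y y' ≤ C + F.Ev n σ B η ch φ μ x s t →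
      dp B η s t (y + μ) y' ≤ C + F.Ev n (σ.erase a) B η ch φ μ x' s t := fun η φ μ x x' y y' C h0 hx h1 => by
    have e0 : 0 ≤ ent B η s t := ent_eq (B := B) ▸ Nat.cast_nonneg _
    have e1 : asum (σ \ B) B η s t (fun _ => μ) ≤ asum (σ.erase a \ B) B η s t (fun _ => μ) +
        μ * (ent B η s t + if InV B η (s + 1) then 1 else 0) := by
      by_cases i : a ∈ σ \ B ∧ s ≤ a.lo ∧ a.lo < t ∧ Adj B η a
      · rw [asum, ← add_sum_erase _ _ (mem_filter.2 i), ← filter_erase, ← erase_sdiff_comm, add_comm]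
        refine add_le_add le_rfl (le_mul_of_one_le_right h0 ?_)
        have i4 := i.2.2.2
        rw [Adj, erase_eq_of_notMem (mem_sdiff.1 i.1).2] at i4
        rcases (lam.mono fun b k => (mem_wn.1 (hB' k)).1).exists_ent (fun b k => hs b (hB' k))
          (by omega) i4 with j | ⟨b, b1, b2, b3, b4⟩
        · rw [if_pos j]; linarith
        · have : 1 ≤ ent B η s t := by
            rw [ent_eq]
            exact Nat.one_le_cast.2 (card_pos.2
              ⟨b, mem_filter.2 ⟨b1, ⟨(mem_wn.1 (hB' b1)).2.1, by omega, b3⟩, b4⟩⟩)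
          split_ifs <;> linarith
      · rw [asum, asum, erase_sdiff_comm, filter_erase, erase_eq_of_notMem fun k => i (mem_filter.1 k)]
        exact le_add_of_nonneg_right (mul_nonneg h0 (by split_ifs <;> linarith))
    simp only [Ev_eq, dp, hx] at h1 ⊢
    split_ifs at e1 h1 ⊢ <;> linarith
  refine ⟨ch, k1, k2, fun η => ⟨?_, (k3 η).2.imp_right fun k n' p q => ?_⟩⟩
  · exact (key η al (1 / 4) _ _ _ _ 0 (by norm_num) (by norm_num)
      ((k3 η).1.trans (zero_add _).ge)).trans (zero_add _).le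
  · exact key η om 1 _ _ _ _ _ (by norm_num) (by norm_num) (k n' p q)

theorem Win.delta {δ' : ℝ} (h : F.Win z δ n σ s t v v') (hδ : δ' ≤ δ) : F.Win z δ' n σ s t v v' :=
  fun B hB hp => by
  obtain ⟨ch, k1, k2, k3⟩ := h B hB hp
  have e0 : ∀ η, 0 ≤ ent B η s t := fun η => ent_eq (B := B) ▸ Nat.cast_nonneg _
  refine ⟨ch, k1, k2, fun η => ⟨(k3 η).1.trans ?_, (k3 η).2.imp_right fun k n' p q => (k n' p q).trans ?_⟩⟩ <;>
    simp only [Ev_eq] <;> nlinarith [e0 η]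

end Fm

end Crest.Agent.X212.Nm96
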