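import Crest.Agent.X212.Nm96.Win2

/-!
# Row 212, layer G (helper96): closed forms of the sums
-/

set_option autoImplicit false
noncomputable section

namespace Crest.Agent.X212.Nm96

open Crest.Agent.X212.Rod53 Crest.Agent.X212.Wd38 Finset

variable {Γ : Nm} {a b : Bs} {c s t u x : ℤ} {B σ : Finset Bs} {η : Bs → Bool}
  {w : Shp Γ} {φ : Z2 → Z2 → ℤ → ℤ → ℝ} {n n' : Wt}

/-- the sum over the vertices in `(s, t]` -/
def SS (w : Shp Γ) (φ : Z2 → Z2 → ℤ → ℤ → ℝ) (n : Wt) (s t : ℤ) : ℝ :=
  ∑ c ∈ Ioc w.l w.r with s + 1 ≤ c ∧ c < t + 1 ∧ True, vx w φ n c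

/-- the number of the inside of an arc -/
def Ia (w : Shp Γ) (φ : Z2 → Z2 → ℤ → ℤ → ℝ) (n : Wt) (a : Bs) : ℝ := SS w φ n a.lo a.hi - vv w φ n a

theorem SS_cut (h : s ≤ t) (h' : t ≤ u) : SS w φ n s u = SS w φ n s t + SS w φ n t u :=
  sum_cut (t := t + 1) _ (fun c => c) _ _ (by omega) (by omega)

theorem SS_eq (h : w.l ≤ s) (h' : t ≤ w.r) : SS w φ n s t = ∑ c ∈ Ioc s t, vx w φ n c :=
  sum_congr (Finset.ext fun c => by simp only [mem_filter, mem_Ioc, and_true]; omega) fun _ _ => rfl

theorem SS_zero (h : ∀ c, s < c → c ≤ t → w.l < c → c ≤ w.r → vx w φ n c = 0) : SS w φ n s t = 0 :=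
  sum_eq_zero fun c hc => by
    simp only [mem_filter, mem_Ioc] at hc
    exact h c (by omega) (by omega) hc.1.1 hc.1.2

/-- the vertices of a piece -/
def vs (w : Shp Γ) (B : Finset Bs) (η : Bs → Bool) (φ : Z2 → Z2 → ℤ → ℤ → ℝ) (n : Wt) (s t : ℤ) : ℝ :=
  ∑ c ∈ Ioc w.l w.r with s + 1 ≤ c ∧ c < t + 1 ∧ InV B η c, vx w φ n c

theorem vs_cut (h : s ≤ t) (h' : t ≤ u) : vs w B η φ n s u = vs w B η φ n s t + vs w B η φ n t u :=
  sum_cut (t := t + 1) _ (fun c => c) _ _ (by omega) (by omega)

theorem vs_const (π : Prop) [Decidable π] (h : ∀ c, s < c → c ≤ t → (InV B η c ↔ π)) :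
    vs w B η φ n s t = if π then SS w φ n s t else 0 := by
  split_ifs with k
  · exact sum_congr (filter_congr fun c _ => and_congr_right fun _ => and_congr_right fun _ =>
      iff_true_intro ((h c (by omega) (by omega)).2 k)) fun _ _ => rfl
  · refine sum_eq_zero fun c hc => ?_
    have := (mem_filter.1 hc).2
    exact (k ((h c (by omega) (by omega)).1 this.2.2)).elim

theorem ssum_vs : ssum w B η s t φ n = vs w B η φ n s t +
    asum B B η s t fun a => if a.arc then (if η a then 1 else -1) * vv w φ n a else 0 := ssum_eq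

@[simp] theorem inV_empty : InV ∅ η c := fun _ h => absurd h (notMem_empty _)

@[simp] theorem inV_one : InV {a} η c ↔ a.side c = η a := by simp [InV]

@[simp] theorem inV_two : InV {a, b} η c ↔ a.side c = η a ∧ b.side c = η b := by simp [InV]

@[simp] theorem adj_empty : Adj ∅ η a := inV_empty

theorem adj_self : Adj {a} η a := by simp [Adj]

theorem adj_one (h : a ≠ b) : Adj {a} η b ↔ a.side (b.lo + 1) = η a := by
  rw [Adj, erase_eq_of_notMem (by simpa using h.symm), inV_one]

theorem adj_fst (h : a ≠ b) : Adj {a, b} η a ↔ b.side (a.lo + 1) = η b := by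
  rw [Adj, erase_insert (by simpa using h), inV_one]

theorem adj_snd (h : a ≠ b) : Adj {a, b} η b ↔ a.side (b.lo + 1) = η a := by
  rw [pair_comm, adj_fst h.symm]

section asum
variable {f : Bs → ℝ}

@[simp] theorem asum_empty : asum ∅ B η s t f = 0 := by simp [asum]

theorem asum_one (h : s ≤ a.lo) (h' : a.lo < t) : asum {a} B η s t f = if Adj B η a then f a else 0 := by
  simp [asum, sum_filter, h, h']

theorem asum_two (e : a ≠ b) (h : s ≤ a.lo) (h' : a.lo < t) (k : s ≤ b.lo) (k' : b.lo < t) :
    asum {a, b} B η s t f = (if Adj B η a then f a else 0) + if Adj B η b then f b else 0 := by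
  simp [asum, sum_filter, sum_pair e, h, h', k, k']

end asum

theorem side_in (h : a.arc) (h1 : a.lo < c) (h2 : c ≤ a.hi) : a.side c = false := by
  rw [← Bool.not_eq_true, side_arc h]; omega

theorem side_lo (h : a.arc) (h1 : c ≤ a.lo) : a.side c = true := by rw [side_arc h]; omega

theorem side_sS : (Bs.sS x).side c = decide (x < c) := rfl

theorem ssum_empty : ssum w ∅ η s t φ n = SS w φ n s t := by
  rw [ssum_vs, vs_const True fun _ _ _ => by simp]; simp

theorem ssum_arc (h : a.arc) (h1 : s ≤ a.lo) (h2 : a.lo < a.hi) (h3 : a.hi ≤ t) :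
    ssum w {a} η s t φ n = if η a then SS w φ n s t - Ia w φ n a else Ia w φ n a := by
  rw [ssum_vs, asum_one h1 (by omega), vs_cut h1 (h2.le.trans h3), vs_cut h2.le h3, Ia,
    SS_cut h1 (h2.le.trans h3), SS_cut h2.le h3,
    vs_const (η a = true) fun c _ k => by rw [inV_one, side_lo h k, eq_comm],
    vs_const (η a = false) fun c k k' => by rw [inV_one, side_in h k k', eq_comm],
    vs_const (η a = true) fun c k _ => by rw [inV_one, side_of_gt k, eq_comm]]
  cases η a <;> simp [adj_self, h] <;> ring

theorem ssum_sl (h1 : s ≤ x) (h2 : x < t) :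
    ssum w {.sS x} η s t φ n = if η (.sS x) then SS w φ n x t else SS w φ n s x := by
  rw [ssum_vs, asum_one h1 h2, vs_cut h1 h2.le,
    vs_const (η (.sS x) = false) fun c _ k => by rw [inV_one, side_sS, decide_eq_false k.not_gt, eq_comm],
    vs_const (η (.sS x) = true) fun c k _ => by rw [inV_one, side_sS, decide_eq_true k, eq_comm]]
  cases η (.sS x) <;> simp [Bs.arc]

theorem ssum_nest (h : a.arc) (k : b.arc) (h1 : s ≤ a.lo) (h2 : a.lo < b.lo) (h3 : b.lo < b.hi)
    (h4 : b.hi < a.hi) (h5 : a.hi ≤ t) : ssum w {a, b} η s t φ n =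
      if η a then (if η b then SS w φ n s t - Ia w φ n a else 0)
      else if η b then Ia w φ n a - Ia w φ n b else Ia w φ n b := by
  have e : a ≠ b := fun e => by rw [e] at h2; omega
  rw [ssum_vs, asum_two e h1 (by omega) (by omega) (by omega), vs_cut h1 (by omega),
    vs_cut h2.le (by omega), vs_cut h3.le (by omega), vs_cut h4.le h5, Ia, Ia, SS_cut h1 (by omega),
    SS_cut (s := a.lo) (u := t) (t := a.hi) (by omega) h5, SS_cut (u := a.hi) h2.le (by omega),
    SS_cut h3.le h4.le,
    vs_const (η a = true ∧ η b = true) fun c _ i => by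
      rw [inV_two, side_lo h i, side_lo k (by omega), eq_comm, eq_comm (a := true)],
    vs_const (η a = false ∧ η b = true) fun c i j => by
      rw [inV_two, side_in h i (by omega), side_lo k j, eq_comm, eq_comm (a := true)],
    vs_const (η a = false ∧ η b = false) fun c i j => by
      rw [inV_two, side_in h (by omega) (by omega), side_in k i j, eq_comm, eq_comm (a := false)],
    vs_const (η a = false ∧ η b = true) fun c i j => by
      rw [inV_two, side_in h (by omega) j, side_of_gt i, eq_comm, eq_comm (a := true)],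
    vs_const (η a = true ∧ η b = true) fun c i _ => by
      rw [inV_two, side_of_gt i, side_of_gt (by omega), eq_comm, eq_comm (a := true)]]
  simp only [adj_fst e, adj_snd e, side_lo k h2, side_in h (show a.lo < b.lo + 1 by omega) (by omega)]
  cases η a <;> cases η b <;> simp [h, k] <;> ring

theorem ssum_as (h : a.arc) (h1 : s ≤ a.lo) (h2 : a.lo < a.hi) (h3 : a.hi < x) (h4 : x < t) :
    ssum w {a, .sS x} η s t φ n =
      if η a then (if η (.sS x) then SS w φ n x t else SS w φ n s x - Ia w φ n a)
      else if η (.sS x) then 0 else Ia w φ n a := by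
  have e : a ≠ .sS x := fun e => by rw [e] at h; exact h
  rw [ssum_vs, asum_two e h1 (by omega) (by show s ≤ x; omega) h4, vs_cut h1 (by omega),
    vs_cut h2.le (by omega), vs_cut h3.le h4.le, Ia, SS_cut h1 (by omega), SS_cut h2.le h3.le,
    vs_const (η a = true ∧ η (.sS x) = false) fun c _ i => by
      rw [inV_two, side_lo h i, side_sS, decide_eq_false (by omega), eq_comm, eq_comm (a := false)],
    vs_const (η a = false ∧ η (.sS x) = false) fun c i j => by
      rw [inV_two, side_in h i j, side_sS, decide_eq_false (by omega), eq_comm, eq_comm (a := false)],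
    vs_const (η a = true ∧ η (.sS x) = false) fun c i j => by
      rw [inV_two, side_of_gt i, side_sS, decide_eq_false (by omega), eq_comm, eq_comm (a := false)],
    vs_const (η a = true ∧ η (.sS x) = true) fun c i _ => by
      rw [inV_two, side_of_gt (by omega), side_sS, decide_eq_true i, eq_comm, eq_comm (a := true)]]
  simp only [adj_fst e, side_sS, decide_eq_false (show ¬x < a.lo + 1 by omega)]
  cases η a <;> cases η (.sS x) <;> simp [h, show ¬(Bs.sS x).arc from id] <;> ring

theorem ssum_sa (h : a.arc) (h1 : s ≤ x) (h2 : x < a.lo) (h3 : a.lo < a.hi) (h4 : a.hi ≤ t) :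
    ssum w {a, .sS x} η s t φ n =
      if η a then (if η (.sS x) then SS w φ n x t - Ia w φ n a else SS w φ n s x)
      else if η (.sS x) then Ia w φ n a else 0 := by
  have e : a ≠ .sS x := fun e => by rw [e] at h; exact h
  rw [ssum_vs, asum_two e (by omega) (by omega) h1 (by show x < t; omega), vs_cut h1 (by omega),
    vs_cut h2.le (by omega), vs_cut h3.le h4, Ia, SS_cut h2.le (by omega), SS_cut h3.le h4,
    vs_const (η a = true ∧ η (.sS x) = false) fun c _ i => by
      rw [inV_two, side_lo h (by omega), side_sS, decide_eq_false (by omega), eq_comm, eq_comm (a := false)],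
    vs_const (η a = true ∧ η (.sS x) = true) fun c i j => by
      rw [inV_two, side_lo h j, side_sS, decide_eq_true i, eq_comm, eq_comm (a := true)],
    vs_const (η a = false ∧ η (.sS x) = true) fun c i j => by
      rw [inV_two, side_in h i j, side_sS, decide_eq_true (by omega), eq_comm, eq_comm (a := true)],
    vs_const (η a = true ∧ η (.sS x) = true) fun c i _ => by
      rw [inV_two, side_of_gt i, side_sS, decide_eq_true (by omega), eq_comm, eq_comm (a := true)]]
  simp only [adj_fst e, side_sS, decide_eq_true (show x < a.lo + 1 by omega)]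
  cases η a <;> cases η (.sS x) <;> simp [h, show ¬(Bs.sS x).arc from id] <;> ring

end Crest.Agent.X212.Nm96
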